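import Mathlib

/-!
Algorithms for P333 (executable definitions only, all on lists of naturals).
Part 1: assignment solver (auction).  Part 2: path covers of weight at least 2/3 of the optimum.
-/

namespace Vale.Agent.Lib.P333.Alg

/-- a matrix of naturals -/
abbrev Mat := List (List ℕ)

/-- entry of a matrix (zero outside) -/
def ent (W : Mat) (i j : ℕ) : ℕ := (W.getD i []).getD j 0

/-- the `n` by `n` matrix with entries `f i j` -/
def mkMat (n : ℕ) (f : ℕ → ℕ → ℕ) : Mat :=
  (List.range n).map (fun i => (List.range n).map (fun j => f i j))

/-- index in `l` maximising `key` (later ones win only if strictly better); `d` if `l = []` -/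
def argmax (key : ℕ → ℕ) (l : List ℕ) (d : ℕ) : ℕ :=
  l.foldl (fun b j => if key b < key j then j else b) d

/-! ### Auction algorithm for the assignment problem -/

/-- largest entry -/
def maxEnt (W : Mat) : ℕ := (W.map (fun r => r.foldl max 0)).foldl max 0

/-- number of auction rounds used -/
def rounds (n : ℕ) (W : Mat) : ℕ := n * ((n + 1) * maxEnt W + 2)

/-- one bid: state = (prices, owners); `own[j] = i + 1` if column `j` belongs to row `i` -/
def bid (n : ℕ) (W : Mat) (B : ℕ) (s : List ℕ × List ℕ) : List ℕ × List ℕ :=
  match (List.range n).find? (fun i => !(s.2.contains (i + 1))) with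
  | none => s
  | some i =>
    let j := argmax (fun j => (n + 1) * ent W i j + (B - s.1.getD j 0)) (List.range n) 0
    (s.1.set j (s.1.getD j 0 + 1), s.2.set j (i + 1))

/-- final auction state -/
def auction (n : ℕ) (W : Mat) : List ℕ × List ℕ :=
  (List.range (rounds n W)).foldl (fun s _ => bid n W (rounds n W) s)
    (List.replicate n 0, List.replicate n 0)

/-- `assign n W` is the list of columns chosen by the rows `0, …, n-1` -/
def assign (n : ℕ) (W : Mat) : List ℕ :=
  (List.range n).map (fun i => (auction n W).2.idxOf (i + 1))

/-! ### Path covers -/

/-- arcs (tail, head) -/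
abbrev Arc := ℕ × ℕ

/-- coloured arcs -/
abbrev CArc := (ℕ × ℕ) × ℕ

/-- total weight of a list of arcs -/
def wt (W : Mat) (P : List Arc) : ℕ := (P.map (fun a => ent W a.1 a.2)).sum

/-- successor of `v` in `P` -/
def next (P : List Arc) (v : ℕ) : Option ℕ := (P.find? (fun a => a.1 == v)).map (fun a => a.2)

/-- walking `n` steps from `v` -/
def walk (P : List Arc) (n : ℕ) (v : ℕ) : Option ℕ :=
  (List.range n).foldl (fun o _ => o.bind (next P)) (some v)

/-- `P` is a path cover of the vertices below `n`: distinct tails, distinct heads, no cycle -/
def isPC (n : ℕ) (P : List Arc) : Bool :=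
  decide (P.map (fun a => a.1)).Nodup && decide (P.map (fun a => a.2)).Nodup &&
    P.all (fun a => decide (a.1 < n) && decide (a.2 < n)) &&
    (List.range n).all (fun v => (walk P n v).isNone)

/-- arcs of colour `c` -/
def cls (c : ℕ) (X : List CArc) : List Arc := (X.filter (fun a => a.2 == c)).map (fun a => a.1)

/-- valid colouring: the three classes are path covers and at the vertices of `B` no colour occurs
both on an incoming and on an outgoing arc -/
def okCol (n : ℕ) (B : List ℕ) (X : List CArc) : Bool :=
  (List.range 3).all (fun c => isPC n (cls c X)) &&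
    B.all (fun b => X.all (fun a => X.all (fun a' =>
      !(a.1.2 == b && a'.1.1 == b && a.2 == a'.2))))

/-- all words of length `k` over `{0,1,2}` -/
def words (k : ℕ) : List (List ℕ) :=
  (List.range k).foldl (fun l _ => l.flatMap (fun w => (List.range 3).map (fun c => c :: w))) [[]]

/-- colour the arcs of `g` (at most 4) by brute force, extending the colouring `X` -/
def insertGroup (n : ℕ) (B : List ℕ) (X : List CArc) (g : List Arc) : List CArc :=
  (((words (min g.length 4)).map (fun w => g.zip w ++ X)).find? (fun Y => okCol n B Y)).getD
    (g.map (fun a => (a, 0)) ++ X)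

/-- incidence -/
def inc (v : ℕ) (a : Arc) : Bool := a.1 == v || a.2 == v

/-- number of arc ends at `v` -/
def deg (G : List Arc) (v : ℕ) : ℕ :=
  (G.filter (fun a => a.1 == v)).length + (G.filter (fun a => a.2 == v)).length

/-- remove a vertex of degree 1, 2 or 3, remembering its arcs -/
def elimStep (n : ℕ) (s : List Arc × List (List Arc)) : List Arc × List (List Arc) :=
  match (List.range n).find? (fun v => decide (0 < deg s.1 v) && decide (deg s.1 v ≤ 3)) with
  | none => s
  | some v => (s.1.filter (fun a => !(inc v a)), (s.1.filter (fun a => inc v a)) :: s.2)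

/-- the groups of arcs obtained by eliminating vertices of degree at most 3, last removed first -/
def elim (n : ℕ) (G : List Arc) : List (List Arc) :=
  ((List.range n).foldl (fun s _ => elimStep n s) (G, [])).2

/-- colouring obtained from a list of groups -/
def colour (n : ℕ) (B : List ℕ) (X : List CArc) (gs : List (List Arc)) : List CArc :=
  gs.foldl (insertGroup n B) X

/-- component of `v` in the graph `G` -/
def comp (n : ℕ) (G : List Arc) (v : ℕ) : List ℕ :=
  (List.range n).foldl (fun S _ => (List.range n).filter (fun u =>
    S.contains u || G.any (fun a => (a.1 == u && S.contains a.2) || (a.2 == u && S.contains a.1))))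
    [v]

/-- all arcs of `P` have both ends in `S` -/
def inside (S : List ℕ) (P : List Arc) : Bool :=
  P.all (fun a => S.contains a.1 && S.contains a.2)

/-- the better of two path covers (the first one if the second is not a path cover inside `S`) -/
def better (n : ℕ) (W : Mat) (S : List ℕ) (P Q : List Arc) : List Arc :=
  if isPC n Q && inside S Q && decide (wt W P < wt W Q) then Q else P

/-- best path cover inside `S` in a list of candidates -/
def best (n : ℕ) (W : Mat) (S : List ℕ) (l : List (List Arc)) : List Arc :=
  l.foldl (better n W S) []

/-- the classes of the colouring `X`, completed by brute force by the groups `SP` -/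
def classes (n : ℕ) (SP : List (List Arc)) (X : List CArc) : List (List Arc) :=
  let Y := colour n [] X SP
  (List.range 3).map (fun c => cls c Y)

/-- candidates from plain elimination -/
def cand1 (n : ℕ) (B : List ℕ) (SP : List (List Arc)) (G : List Arc) : List (List Arc) :=
  classes n SP (colour n B [] (elim n G))

/-- candidates from deleting `z` first -/
def cand2 (n : ℕ) (B : List ℕ) (SP : List (List Arc)) (G : List Arc) (z : ℕ) : List (List Arc) :=
  classes n SP (insertGroup n B (colour n B [] (elim n (G.filter (fun a => !(inc z a)))))
    (G.filter (fun a => inc z a)))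

/-- candidates from deleting `z` and adding the shortcut `e` -/
def cand3 (n : ℕ) (B : List ℕ) (SP : List (List Arc)) (G : List Arc) (z : ℕ) (e : Arc) :
    List (List Arc) :=
  let X := colour n B [] (elim n (e :: G.filter (fun a => !(inc z a))))
  let X' := X.eraseP (fun a => a.1 == e)
  classes n SP (insertGroup n B X' (G.filter (fun a => inc z a)))

/-- possible shortcuts at `z` -/
def shortcuts (G : List Arc) (z : ℕ) : List Arc :=
  (G.filter (fun a => a.2 == z)).flatMap (fun a =>
    (G.filter (fun b => b.1 == z && !(b.2 == a.1))).map (fun b => (a.1, b.2)))

/-- alternating path: starting at `s`, `k` arcs, using alternately the permutations `C` and `D` -/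
def altPath (C D : List ℕ) (s k : ℕ) : List Arc :=
  ((List.range k).foldl (fun (p : ℕ × List Arc) i =>
    let t := (if i % 2 = 0 then C else D).getD p.1 0
    (t, (p.1, t) :: p.2)) (s, [])).2

/-- arcs of the permutation `C` in the cycle of `v`, starting at `v`, without the last one -/
def cycPath (n : ℕ) (C : List ℕ) (v : ℕ) : List Arc :=
  ((List.range n).foldl (fun (p : ℕ × List Arc) _ =>
    let t := C.getD p.1 0
    if t = v || p.1 = n then (n, p.2) else (t, (p.1, t) :: p.2)) (v, [])).2

/-- path cover of the component `S` given by the permutation `C` minus one lightest arc per cycle -/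
def dropLightest (n : ℕ) (W : Mat) (C : List ℕ) (S : List ℕ) : List Arc :=
  S.foldl (fun P v =>
    if P.any (fun a => inc v a) then P
    else best n W S ((comp n ((List.range n).map (fun i => (i, C.getD i 0))) v).map
      (fun u => cycPath n C u)) ++ P) []

/-- extended matrix with the half-edge gadgets; `M` is the list of 2-cycles `(u,v)`, `u < v`.
Rows: vertices `0..n-1`, then `l_k = n + k`.  Columns: vertices, then `r_k = n + k`.
All weights are doubled; allowed entries are shifted by `K`. -/
def gadget (n : ℕ) (W : Mat) (M : List Arc) (K : ℕ) : Mat :=
  mkMat (n + M.length) (fun i j =>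
    if i < n then
      if j < n then
        if M.contains (i, j) || M.contains (j, i) then 0
        else if i = j then K else K + 2 * ent W i j
      else
        let p := M.getD (j - n) (0, 0)
        if i = p.1 then K + ent W p.1 p.2
        else if i = p.2 then K + ent W p.2 p.1 else 0
    else
      let p := M.getD (i - n) (0, 0)
      if j < n then
        if j = p.1 then K + ent W p.2 p.1
        else if j = p.2 then K + ent W p.1 p.2 else 0
      else if i = j then K else 0)

/-- the whole weight of a matrix -/
def total (W : Mat) : ℕ := (W.map List.sum).sum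

/-- all arcs of the permutation `C`, without fixed points -/
def permArcs (n : ℕ) (C : List ℕ) : List Arc :=
  ((List.range n).map (fun i => (i, C.getD i 0))).filter (fun p => !(p.1 == p.2))

/-- the 2-cycles `(u,v)`, `u < v`, of the permutation `C` -/
def twoCycles (n : ℕ) (C : List ℕ) : List Arc :=
  ((List.range n).map (fun i => (i, C.getD i 0))).filter
    (fun p => decide (p.1 < p.2) && (C.getD p.2 0 == p.1))

/-- ordinary arcs of the relaxed cover: `Z` is the assignment computed for the gadget matrix -/
def relArcs (n : ℕ) (M : List Arc) (Z : List ℕ) : List Arc :=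
  ((List.range n).map (fun i => (i, Z.getD i 0))).filter
    (fun p => decide (p.2 < n) && !(p.1 == p.2)) ++
  ((List.range M.length).filter (fun k => decide (Z.idxOf (n + k) < n) &&
    decide (Z.getD (n + k) 0 < n) && !(Z.idxOf (n + k) == Z.getD (n + k) 0))).map
    (fun k => (Z.idxOf (n + k), Z.getD (n + k) 0))

/-- special pairs `(u, v)` of the relaxed cover: `u` is consumed by half-edges, `v` is its partner -/
def relSpec (n : ℕ) (M : List Arc) (Z : List ℕ) : List Arc :=
  ((List.range M.length).filter (fun k => decide (Z.idxOf (n + k) < n) &&
    (Z.idxOf (n + k) == Z.getD (n + k) 0))).map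
    (fun k => if Z.idxOf (n + k) = (M.getD k (0, 0)).1 then M.getD k (0, 0)
      else ((M.getD k (0, 0)).2, (M.getD k (0, 0)).1))

/-- the graph to be coloured: arcs of `C` not at special vertices, and `D` -/
def colGraph (n : ℕ) (C : List ℕ) (D spp : List Arc) : List Arc :=
  (permArcs n C).filter (fun a => !(spp.any (fun p => inc p.1 a))) ++ D

/-- the arcs added at the end for a special pair -/
def specGroup (W : Mat) (p : Arc) : List Arc :=
  [(p.2, p.1), (p.1, p.2), if ent W p.1 p.2 < ent W p.2 p.1 then (p.2, p.1) else (p.1, p.2)]

/-- `D` completed to a function by fixed points -/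
def arcPerm (n : ℕ) (D : List Arc) : List ℕ :=
  (List.range n).map (fun i => (next D i).getD i)

/-- candidate path covers inside the component `S` -/
def candidates (n : ℕ) (W : Mat) (C : List ℕ) (D spp : List Arc) (S : List ℕ) :
    List (List Arc) :=
  let GW := (colGraph n C D spp).filter (fun a => S.contains a.1)
  let SP := (spp.filter (fun p => S.contains p.1)).map (specGroup W)
  let B := spp.map (fun p => p.2)
  [dropLightest n W C S] ++ cand1 n B SP GW ++
    S.flatMap (fun z => cand2 n B SP GW z ++
      (shortcuts GW z).flatMap (fun e => cand3 n B SP GW z e)) ++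
    S.flatMap (fun s => [altPath C (arcPerm n D) s (S.length - 1),
      altPath (arcPerm n D) C s (S.length - 1)])

/-- best candidate in every component of `C + D` -/
def cover (n : ℕ) (W : Mat) (C : List ℕ) (D spp : List Arc) : List Arc :=
  (List.range n).flatMap (fun v =>
    let S := comp n (permArcs n C ++ D) v
    if S.any (fun u => decide (u < v)) then [] else best n W S (candidates n W C D spp S))

/-- matrix with zero diagonal -/
def zeroDiag (n : ℕ) (W : Mat) : Mat := mkMat n (fun i j => if i = j then 0 else ent W i j)

/-- the assignment for the gadget matrix -/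
def relAssign (n : ℕ) (W : Mat) (M : List Arc) : List ℕ :=
  assign (n + M.length) (gadget n W M (2 * total W + 1))

/-- path cover of weight at least two thirds of any Hamiltonian path -/
def pathCover (n : ℕ) (W : Mat) : List Arc :=
  let W0 := zeroDiag n W
  let C := assign n W0
  let M := twoCycles n C
  let Z := relAssign n W0 M
  cover n W0 C (relArcs n M Z) (relSpec n M Z)

/-- the vertices of a path starting at `v` -/
def follow (n : ℕ) (P : List Arc) (v : ℕ) : List ℕ :=
  ((List.range n).foldl (fun (p : Option ℕ × List ℕ) _ =>
    match p.1 with
    | none => p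
    | some u => (next P u, p.2 ++ [u])) (some v, [])).2

/-- a Hamiltonian path containing the path cover `P` -/
def hamPath (n : ℕ) (P : List Arc) : List ℕ :=
  ((List.range n).filter (fun v => !(P.any (fun a => a.2 == v)))).flatMap (fun v => follow n P v)

/-- Hamiltonian path of weight at least two thirds of the optimum -/
def atsp (n : ℕ) (W : Mat) : List ℕ := hamPath n (pathCover n W)

end Vale.Agent.Lib.P333.Alg
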