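import Mathlib
import Vale.Agent.Lib.P333.Alg

/-!
P333, module ATSP-D: from a path cover to a Hamiltonian path containing it.
-/

namespace Vale.Agent.Lib.P333.Alg

/-- weight of the path `l` -/
def ham (W : Mat) : List ℕ → ℕ
  | a :: b :: l => ent W a b + ham W (b :: l)
  | _ => 0

/-! ### Walks -/

theorem walk_zero (P : List Arc) (v : ℕ) : walk P 0 v = some v := rfl

theorem walk_succ (P : List Arc) (k v : ℕ) : walk P (k + 1) v = (walk P k v).bind (next P) := by
  unfold walk
  rw [List.range_succ, List.foldl_append]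
  rfl

theorem walk_one (P : List Arc) (v : ℕ) : walk P 1 v = next P v := rfl

theorem walk_add (P : List Arc) (i j v : ℕ) :
    walk P (i + j) v = (walk P i v).bind (walk P j) := by
  induction j with
  | zero =>
    rw [Nat.add_zero]
    cases walk P i v with
    | none => rfl
    | some x => rfl
  | succ j ih =>
    rw [← Nat.add_assoc, walk_succ, ih]
    cases walk P i v with
    | none => rfl
    | some x =>
      change (walk P j x).bind (next P) = walk P (j + 1) x
      rw [walk_succ]

theorem next_mem {P : List Arc} {u w : ℕ} (h : next P u = some w) : (u, w) ∈ P := by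
  unfold next at h
  rw [Option.map_eq_some_iff] at h
  obtain ⟨a, ha, hw⟩ := h
  have h1 := List.find?_some ha
  have h2 := List.mem_of_find?_eq_some ha
  have h3 : a = (u, w) := Prod.ext (by simpa using h1) hw
  rw [h3] at h2
  exact h2

/-- The content of `isPC`. -/
structure PC (n : ℕ) (P : List Arc) : Prop where
  tails : (P.map (fun a => a.1)).Nodup
  heads : (P.map (fun a => a.2)).Nodup
  lt : ∀ a ∈ P, a.1 < n ∧ a.2 < n
  acyc : ∀ v < n, walk P n v = none

theorem isPC_iff (n : ℕ) (P : List Arc) : isPC n P = true ↔ PC n P := by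
  unfold isPC
  simp only [Bool.and_eq_true, decide_eq_true_eq, List.all_eq_true, List.mem_range,
    Option.isNone_iff_eq_none]
  constructor
  · rintro ⟨⟨⟨h1, h2⟩, h3⟩, h4⟩
    exact ⟨h1, h2, h3, h4⟩
  · rintro ⟨h1, h2, h3, h4⟩
    exact ⟨⟨⟨h1, h2⟩, h3⟩, h4⟩

namespace PC

variable {n : ℕ} {P : List Arc}

theorem tail_inj (h : PC n P) {u w w' : ℕ} (h1 : (u, w) ∈ P) (h2 : (u, w') ∈ P) : w = w' := by
  have := List.inj_on_of_nodup_map h.tails h1 h2 rfl
  exact congrArg Prod.snd this

theorem head_inj (h : PC n P) {u u' w : ℕ} (h1 : (u, w) ∈ P) (h2 : (u', w) ∈ P) : u = u' := by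
  have := List.inj_on_of_nodup_map h.heads h1 h2 rfl
  exact congrArg Prod.fst this

theorem next_of_mem (h : PC n P) {u w : ℕ} (h1 : (u, w) ∈ P) : next P u = some w := by
  cases h2 : next P u with
  | none =>
    unfold next at h2
    rw [Option.map_eq_none_iff, List.find?_eq_none] at h2
    have := h2 _ h1
    simp at this
  | some x => rw [h.tail_inj h1 (next_mem h2)]

theorem walk_lt (h : PC n P) {v : ℕ} (hv : v < n) {k x : ℕ} (hk : walk P k v = some x) :
    x < n := by
  cases k with
  | zero =>
    rw [walk_zero, Option.some_inj] at hk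
    omega
  | succ k =>
    rw [walk_succ, Option.bind_eq_some_iff] at hk
    obtain ⟨y, _, hy⟩ := hk
    exact (h.lt _ (next_mem hy)).2

theorem walk_none (h : PC n P) {v : ℕ} (hv : v < n) {k : ℕ} (hk : n ≤ k) :
    walk P k v = none := by
  obtain ⟨m, rfl⟩ := Nat.exists_eq_add_of_le hk
  rw [walk_add, h.acyc v hv]
  rfl

theorem lt_of_walk (h : PC n P) {v : ℕ} (hv : v < n) {k x : ℕ} (hk : walk P k v = some x) :
    k < n := by
  by_contra hcon
  rw [h.walk_none hv (not_lt.1 hcon)] at hk
  exact absurd hk (by simp)

/-- No cycles. -/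
theorem walk_ne (h : PC n P) {x : ℕ} (hx : x < n) {d : ℕ} (hd : 0 < d) :
    walk P d x ≠ some x := by
  intro hcon
  have h1 : ∀ m : ℕ, walk P (m * d) x = some x := by
    intro m
    induction m with
    | zero => rw [Nat.zero_mul, walk_zero]
    | succ m ih =>
      rw [Nat.succ_mul, walk_add, ih]
      exact hcon
  have h2 := h1 n
  rw [h.walk_none hx (Nat.le_mul_of_pos_right n hd)] at h2
  exact absurd h2 (by simp)

theorem walk_inj (h : PC n P) {v : ℕ} (hv : v < n) {i j x : ℕ} (hi : walk P i v = some x)
    (hj : walk P j v = some x) : i = j := by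
  have key : ∀ {i j : ℕ}, walk P i v = some x → walk P j v = some x → ¬ i < j := by
    intro i j hi hj hlt
    obtain ⟨d, rfl⟩ := Nat.exists_eq_add_of_le hlt.le
    rw [walk_add, hi] at hj
    exact h.walk_ne (h.walk_lt hv hi) (by omega) hj
  have h1 := key hi hj
  have h2 := key hj hi
  omega

/-- Backward uniqueness. -/
theorem walk_back (h : PC n P) {v v' : ℕ} {i d x : ℕ} (hi : walk P i v = some x)
    (hj : walk P (d + i) v' = some x) : walk P d v' = some v := by
  induction i generalizing x with
  | zero =>
    rw [walk_zero, Option.some_inj] at hi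
    rw [hi]
    exact hj
  | succ i ih =>
    rw [← Nat.add_assoc] at hj
    rw [walk_succ, Option.bind_eq_some_iff] at hi hj
    obtain ⟨y, hy, hy'⟩ := hi
    obtain ⟨z, hz, hz'⟩ := hj
    have := h.head_inj (next_mem hy') (next_mem hz')
    subst this
    exact ih hy hz

/-- A vertex without predecessor. -/
def Root (P : List Arc) (v : ℕ) : Prop := ∀ a ∈ P, a.2 ≠ v

theorem root_eq (h : PC n P) {v v' : ℕ} (hv : Root P v) (hv' : Root P v') {i j x : ℕ}
    (hi : walk P i v = some x) (hj : walk P j v' = some x) : v = v' := by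
  have key : ∀ {v v' i j : ℕ}, Root P v → i ≤ j → walk P i v = some x →
      walk P j v' = some x → v = v' := by
    intro v v' i j hv hij hi hj
    obtain ⟨d, rfl⟩ := Nat.exists_eq_add_of_le' hij
    have h1 := h.walk_back hi hj
    cases d with
    | zero =>
      rw [walk_zero, Option.some_inj] at h1
      exact h1.symm
    | succ d =>
      rw [walk_succ, Option.bind_eq_some_iff] at h1
      obtain ⟨y, _, hy⟩ := h1
      exact absurd rfl (hv _ (next_mem hy))
  rcases le_total i j with hij | hij
  · exact key hv hij hi hj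
  · exact (key hv' hij hj hi).symm

theorem exists_root (h : PC n P) {x : ℕ} (hx : x < n) :
    ∃ v < n, Root P v ∧ ∃ i, walk P i v = some x := by
  have key : ∀ k : ℕ, (∃ v < n, Root P v ∧ ∃ i, walk P i v = some x) ∨
      ∃ y < n, walk P k y = some x := by
    intro k
    induction k with
    | zero => exact Or.inr ⟨x, hx, rfl⟩
    | succ k ih =>
      rcases ih with ih | ⟨y, hy, hyx⟩
      · exact Or.inl ih
      · by_cases hr : Root P y
        · exact Or.inl ⟨y, hy, hr, k, hyx⟩
        · unfold Root at hr
          push Not at hr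
          obtain ⟨a, ha, hay⟩ := hr
          refine Or.inr ⟨a.1, (h.lt a ha).1, ?_⟩
          rw [Nat.add_comm, walk_add, walk_one]
          have h1 : next P a.1 = some y := by
            apply h.next_of_mem
            rw [← hay]
            exact ha
          rw [h1]
          exact hyx
  rcases key n with h1 | ⟨y, hy, hyx⟩
  · exact h1
  · rw [h.acyc y hy] at hyx
    exact absurd hyx (by simp)

end PC

/-! ### The lists -/

theorem follow_aux (P : List Arc) (v k : ℕ) :
    (List.range k).foldl (fun (p : Option ℕ × List ℕ) _ =>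
      match p.1 with
      | none => p
      | some u => (next P u, p.2 ++ [u])) (some v, []) =
    (walk P k v, (List.range k).filterMap (fun i => walk P i v)) := by
  induction k with
  | zero => rfl
  | succ k ih =>
    rw [List.range_succ, List.foldl_append, ih, List.filterMap_append, walk_succ]
    cases hk : walk P k v with
    | none => simp [hk]
    | some u => simp [hk]

theorem follow_eq (n : ℕ) (P : List Arc) (v : ℕ) :
    follow n P v = (List.range n).filterMap (fun i => walk P i v) :=
  congrArg Prod.snd (follow_aux P v n)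

theorem mem_follow {n : ℕ} {P : List Arc} {v x : ℕ} :
    x ∈ follow n P v ↔ ∃ i < n, walk P i v = some x := by
  rw [follow_eq, List.mem_filterMap]
  simp only [List.mem_range]

theorem PC.nodup_follow {n : ℕ} {P : List Arc} (h : PC n P) {v : ℕ} (hv : v < n) :
    (follow n P v).Nodup := by
  rw [follow_eq]
  refine List.Nodup.filterMap ?_ List.nodup_range
  intro i j x hi hj
  exact h.walk_inj hv hi hj

/-- the list of the starting vertices -/
theorem mem_roots {n : ℕ} {P : List Arc} {v : ℕ} :
    v ∈ (List.range n).filter (fun v => !(P.any (fun a => a.2 == v))) ↔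
      v < n ∧ PC.Root P v := by
  rw [List.mem_filter, List.mem_range]
  unfold PC.Root
  simp

theorem PC.nodup_hamPath {n : ℕ} {P : List Arc} (h : PC n P) : (hamPath n P).Nodup := by
  unfold hamPath
  rw [List.nodup_flatMap]
  refine ⟨fun v hv => h.nodup_follow (mem_roots.1 hv).1, ?_⟩
  refine List.Nodup.pairwise_of_forall_ne (List.nodup_range.filter _) ?_
  intro v hv v' hv' hne
  rw [Function.onFun, List.disjoint_left]
  intro x hx hx'
  obtain ⟨i, _, hi⟩ := mem_follow.1 hx
  obtain ⟨j, _, hj⟩ := mem_follow.1 hx'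
  exact hne (h.root_eq (mem_roots.1 hv).2 (mem_roots.1 hv').2 hi hj)

theorem PC.mem_hamPath {n : ℕ} {P : List Arc} (h : PC n P) {x : ℕ} :
    x ∈ hamPath n P ↔ x < n := by
  unfold hamPath
  rw [List.mem_flatMap]
  constructor
  · rintro ⟨v, hv, hx⟩
    obtain ⟨i, _, hi⟩ := mem_follow.1 hx
    exact h.walk_lt (mem_roots.1 hv).1 hi
  · intro hx
    obtain ⟨v, hv, hr, i, hi⟩ := h.exists_root hx
    exact ⟨v, mem_roots.2 ⟨hv, hr⟩, mem_follow.2 ⟨i, h.lt_of_walk hv hi, hi⟩⟩

/-! ### Weights -/

/-- consecutive pairs -/
def pairs : List ℕ → List Arc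
  | a :: b :: l => (a, b) :: pairs (b :: l)
  | _ => []

theorem ham_eq (W : Mat) (l : List ℕ) : ham W l = wt W (pairs l) := by
  unfold wt
  induction l with
  | nil => rfl
  | cons a l ih =>
    cases l with
    | nil => rfl
    | cons b l =>
      rw [ham, pairs, List.map_cons, List.sum_cons, ih]

theorem mem_pairs_append {u w : ℕ} (s t : List ℕ) : (u, w) ∈ pairs (s ++ u :: w :: t) := by
  induction s with
  | nil => simp [pairs]
  | cons a s ih =>
    cases s with
    | nil => simp [pairs]
    | cons b s =>
      rw [List.cons_append, List.cons_append, pairs]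
      exact List.mem_cons_of_mem _ ih

theorem PC.infix_follow {n : ℕ} {P : List Arc} (h : PC n P) {v i u w : ℕ} (hv : v < n)
    (hi : walk P i v = some u) (huw : (u, w) ∈ P) :
    ∃ s t, follow n P v = s ++ u :: w :: t := by
  have h1 : walk P (i + 1) v = some w := by
    rw [walk_succ, hi]
    exact h.next_of_mem huw
  have h2 := h.lt_of_walk hv h1
  obtain ⟨m, hm⟩ := Nat.exists_eq_add_of_le (show i + 2 ≤ n by omega)
  refine ⟨(List.range i).filterMap (fun i => walk P i v),
    ((List.range m).map (fun x => i + 2 + x)).filterMap (fun i => walk P i v), ?_⟩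
  rw [follow_eq, hm, List.range_add, List.filterMap_append, List.range_succ, List.range_succ,
    List.filterMap_append, List.filterMap_append]
  simp [hi, h1]

theorem PC.mem_pairs {n : ℕ} {P : List Arc} (h : PC n P) {a : Arc} (ha : a ∈ P) :
    a ∈ pairs (hamPath n P) := by
  obtain ⟨u, w⟩ := a
  obtain ⟨v, hv, hr, i, hi⟩ := h.exists_root (h.lt _ ha).1
  obtain ⟨s, t, hst⟩ := h.infix_follow hv hi ha
  have hmem : v ∈ (List.range n).filter (fun v => !(P.any (fun a => a.2 == v))) :=
    mem_roots.2 ⟨hv, hr⟩
  obtain ⟨s', t', hs'⟩ := List.append_of_mem hmem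
  unfold hamPath
  rw [hs', List.flatMap_append, List.flatMap_cons, hst]
  have : ∀ x y : List ℕ, x ++ ((s ++ u :: w :: t) ++ y) = (x ++ s) ++ u :: w :: (t ++ y) := by
    intro x y
    simp
  rw [this]
  exact mem_pairs_append _ _

/-- module ATSP-D: from path covers to Hamiltonian paths -/
theorem hamPath_spec (n : ℕ) (W : Mat) (P : List Arc) (hP : isPC n P = true) :
    (hamPath n P).Perm (List.range n) ∧ wt W P ≤ ham W (hamPath n P) := by
  have h := (isPC_iff n P).1 hP
  constructor
  · rw [List.perm_ext_iff_of_nodup h.nodup_hamPath List.nodup_range]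
    intro x
    rw [h.mem_hamPath, List.mem_range]
  · rw [ham_eq]
    have h1 : P.Nodup := List.Nodup.of_map _ h.tails
    have h2 : P.Subperm (pairs (hamPath n P)) :=
      List.subperm_of_subset h1 fun a ha => h.mem_pairs ha
    obtain ⟨l, hl, hl'⟩ := h2
    unfold wt
    rw [← (hl.map (fun a : Arc => ent W a.1 a.2)).sum_eq]
    exact List.Sublist.sum_le_sum (hl'.map _) (fun _ _ => Nat.zero_le _)

end Vale.Agent.Lib.P333.Alg
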