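import Mathlib
import Vale.Agent.Lib.P333.Alg

/-!
P333, module AUCTION.  Correctness of the auction algorithm.
-/

namespace Vale.Agent.Lib.P333.Alg

open Finset

lemma foldl_max_spec (l : List ℕ) (d : ℕ) : d ≤ l.foldl max d ∧ ∀ x ∈ l, x ≤ l.foldl max d := by
  induction l generalizing d with
  | nil => simp
  | cons a l ih =>
    obtain ⟨h1, h2⟩ := ih (max d a)
    refine ⟨(le_max_left _ _).trans h1, ?_⟩
    intro x hx
    rcases List.mem_cons.1 hx with rfl | hx
    · exact (le_max_right _ _).trans h1
    · exact h2 x hx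

lemma ent_le_maxEnt (W : Mat) (i j : ℕ) : ent W i j ≤ maxEnt W := by
  unfold ent maxEnt
  by_cases hi : i < W.length
  · rw [List.getD_eq_getElem _ _ hi]
    by_cases hj : j < W[i].length
    · rw [List.getD_eq_getElem _ _ hj]
      refine ((foldl_max_spec W[i] 0).2 _ (List.getElem_mem hj)).trans ?_
      exact (foldl_max_spec _ 0).2 _ (List.mem_map.2 ⟨W[i], List.getElem_mem hi, rfl⟩)
    · rw [List.getD_eq_default _ _ (not_lt.1 hj)]
      exact Nat.zero_le _
  · rw [List.getD_eq_default _ _ (not_lt.1 hi)]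
    simp

lemma argmax_spec (key : ℕ → ℕ) (l : List ℕ) (d : ℕ) :
    (argmax key l d = d ∨ argmax key l d ∈ l) ∧ key d ≤ key (argmax key l d) ∧
      ∀ j ∈ l, key j ≤ key (argmax key l d) := by
  unfold argmax
  induction l generalizing d with
  | nil => simp
  | cons a l ih =>
    obtain ⟨h1, h2, h3⟩ := ih (if key d < key a then a else d)
    simp only [List.foldl_cons]
    refine ⟨?_, ?_, ?_⟩
    · rcases h1 with h1 | h1
      · rw [h1]
        split_ifs
        · exact Or.inr List.mem_cons_self
        · exact Or.inl rfl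
      · exact Or.inr (List.mem_cons_of_mem _ h1)
    · refine le_trans ?_ h2
      split_ifs with h
      · exact h.le
      · exact le_rfl
    · intro j hj
      rcases List.mem_cons.1 hj with rfl | hj
      · refine le_trans ?_ h2
        split_ifs with h
        · exact le_rfl
        · exact not_lt.1 h
      · exact h3 j hj

lemma getD_set' (l : List ℕ) (j a k : ℕ) (hj : j < l.length) :
    (l.set j a).getD k 0 = if k = j then a else l.getD k 0 := by
  by_cases hk : k < l.length
  · rw [List.getD_eq_getElem _ _ (by simpa using hk), List.getElem_set,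
      List.getD_eq_getElem _ _ hk]
    simp only [eq_comm]
  · have : k ≠ j := by
      rintro rfl
      exact hk hj
    rw [if_neg this, List.getD_eq_default _ _ (by simpa using hk),
      List.getD_eq_default _ _ (not_lt.1 hk)]

/-- the invariant of the auction -/
structure Inv (n : ℕ) (W : Mat) (s : List ℕ × List ℕ) : Prop where
  len1 : s.1.length = n
  len2 : s.2.length = n
  price0 : ∀ j < n, s.2.getD j 0 = 0 → s.1.getD j 0 = 0
  own_le : ∀ j < n, s.2.getD j 0 ≤ n
  own_inj : ∀ j < n, ∀ k < n, s.2.getD j 0 = s.2.getD k 0 → s.2.getD j 0 ≠ 0 → j = k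
  cs : ∀ j < n, ∀ i, s.2.getD j 0 = i + 1 → ∀ k < n,
    (n + 1) * ent W i k + s.1.getD j 0 ≤ (n + 1) * ent W i j + 1 + s.1.getD k 0
  bound : ∀ j < n, s.1.getD j 0 ≤ (n + 1) * maxEnt W + 1

lemma mem_own {n : ℕ} {s : List ℕ × List ℕ} (h : s.2.length = n) (x : ℕ) :
    x ∈ s.2 ↔ ∃ j < n, s.2.getD j 0 = x := by
  rw [List.mem_iff_getElem]
  constructor
  · rintro ⟨j, hj, rfl⟩
    exact ⟨j, h ▸ hj, List.getD_eq_getElem _ _ hj⟩
  · rintro ⟨j, hj, rfl⟩
    exact ⟨j, h ▸ hj, (List.getD_eq_getElem _ _ (h ▸ hj)).symm⟩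

/-- some column is free while some row is free -/
lemma exists_free {n : ℕ} {W : Mat} {s : List ℕ × List ℕ} (h : Inv n W s) {i : ℕ} (hi : i < n)
    (hi' : i + 1 ∉ s.2) : ∃ j < n, s.2.getD j 0 = 0 := by
  by_contra hcon
  push Not at hcon
  have h1 : ∀ j ∈ range n, s.2.getD j 0 ∈ (Finset.Icc 1 n).erase (i + 1) := by
    intro j hj
    rw [mem_range] at hj
    rw [mem_erase, Finset.mem_Icc]
    refine ⟨?_, Nat.one_le_iff_ne_zero.2 (hcon j hj), h.own_le j hj⟩
    intro he
    exact hi' ((mem_own h.len2 _).2 ⟨j, hj, he⟩)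
  have h2 : (range n).card ≤ ((Finset.Icc 1 n).erase (i + 1)).card := by
    refine card_le_card_of_injOn (fun j => s.2.getD j 0) h1 ?_
    intro j hj k hk hjk
    rw [coe_range, Set.mem_Iio] at hj hk
    exact h.own_inj j hj k hk hjk (hcon j hj)
  rw [card_erase_of_mem (Finset.mem_Icc.2 ⟨by omega, by omega⟩)] at h2
  simp at h2
  omega

lemma sum_getD_set (l : List ℕ) (n j : ℕ) (hl : l.length = n) (hj : j < n) :
    ∑ k ∈ range n, (l.set j (l.getD j 0 + 1)).getD k 0 = (∑ k ∈ range n, l.getD k 0) + 1 := by
  have h1 : ∀ k ∈ range n, (l.set j (l.getD j 0 + 1)).getD k 0 =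
      l.getD k 0 + if k = j then 1 else 0 := by
    intro k _
    rw [getD_set' _ _ _ _ (hl ▸ hj)]
    split_ifs with h
    · rw [h]
    · rfl
  rw [sum_congr rfl h1, sum_add_distrib, sum_ite_eq', if_pos (mem_range.2 hj)]

lemma bid_spec {n : ℕ} {W : Mat} {s : List ℕ × List ℕ} (h : Inv n W s) (B : ℕ)
    (hB : (n + 1) * maxEnt W + 1 ≤ B) :
    Inv n W (bid n W B s) ∧ ((∃ i < n, i + 1 ∉ s.2) →
      ∑ k ∈ range n, (bid n W B s).1.getD k 0 = (∑ k ∈ range n, s.1.getD k 0) + 1) ∧
      ((∀ i < n, i + 1 ∈ s.2) → bid n W B s = s) := by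
  unfold bid
  cases hf : (List.range n).find? (fun i => !(s.2.contains (i + 1))) with
  | none =>
    refine ⟨h, ?_, fun _ => rfl⟩
    rintro ⟨i, hi, hi'⟩
    rw [List.find?_eq_none] at hf
    have := hf i (List.mem_range.2 hi)
    simp at this
    exact absurd this hi'
  | some i =>
    have hi : i < n := List.mem_range.1 (List.mem_of_find?_eq_some hf)
    have hi' : i + 1 ∉ s.2 := by
      have := List.find?_some hf
      simpa using this
    dsimp only
    set key : ℕ → ℕ := fun j => (n + 1) * ent W i j + (B - s.1.getD j 0) with hkey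
    set j := argmax key (List.range n) 0 with hj
    obtain ⟨h1, h2, h3⟩ := argmax_spec key (List.range n) 0
    rw [← hj] at h1 h2 h3
    have hjn : j < n := by
      rcases h1 with h1 | h1
      · rw [h1]
        exact lt_of_le_of_lt (Nat.zero_le _) hi
      · exact List.mem_range.1 h1
    have hmax : ∀ k < n, (n + 1) * ent W i k + s.1.getD j 0 ≤
        (n + 1) * ent W i j + s.1.getD k 0 := by
      intro k hk
      have h4 := h3 k (List.mem_range.2 hk)
      have h5 := h.bound k hk
      have h6 := h.bound j hjn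
      simp only [hkey] at h4
      omega
    obtain ⟨j0, hj0, hj0'⟩ := exists_free h hi hi'
    have hpj : s.1.getD j 0 ≤ (n + 1) * maxEnt W := by
      have h4 := hmax j0 hj0
      rw [h.price0 j0 hj0 hj0'] at h4
      have h5 : (n + 1) * ent W i j ≤ (n + 1) * maxEnt W :=
        Nat.mul_le_mul_left _ (ent_le_maxEnt W i j)
      omega
    have g1 : ∀ k, (s.1.set j (s.1.getD j 0 + 1)).getD k 0 =
        if k = j then s.1.getD j 0 + 1 else s.1.getD k 0 := fun k =>
      getD_set' _ _ _ _ (h.len1 ▸ hjn)
    have g2 : ∀ k, (s.2.set j (i + 1)).getD k 0 = if k = j then i + 1 else s.2.getD k 0 := fun k =>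
      getD_set' _ _ _ _ (h.len2 ▸ hjn)
    have hne : ∀ k < n, s.2.getD k 0 ≠ i + 1 := fun k hk he =>
      hi' ((mem_own h.len2 _).2 ⟨k, hk, he⟩)
    refine ⟨⟨?_, ?_, ?_, ?_, ?_, ?_, ?_⟩, ?_, ?_⟩
    · rw [List.length_set]
      exact h.len1
    · rw [List.length_set]
      exact h.len2
    · intro k hk hk'
      rw [g2] at hk'
      rw [g1]
      split_ifs at hk' ⊢ with h4
      exact h.price0 k hk hk'
    · intro k hk
      rw [g2]
      split_ifs
      · omega
      · exact h.own_le k hk
    · intro k hk l hl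
      rw [g2, g2]
      split_ifs with h4 h5 h5
      · intro _ _
        rw [h4, h5]
      · intro he
        exact absurd he.symm (hne l hl)
      · intro he
        exact absurd he (hne k hk)
      · exact h.own_inj k hk l hl
    · intro k hk i' hk' l hl
      rw [g2] at hk'
      rw [g1, g1]
      split_ifs at hk' with h4
      · have h5 : i' = i := by omega
        subst h5
        rw [h4, if_pos rfl]
        split_ifs with h6
        · rw [h6]
          omega
        · have := hmax l hl
          omega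
      · rw [if_neg h4]
        have := h.cs k hk i' hk' l hl
        split_ifs with h6
        · rw [h6] at this ⊢
          omega
        · exact this
    · intro k hk
      rw [g1]
      split_ifs
      · omega
      · exact h.bound k hk
    · intro _
      exact sum_getD_set _ _ _ h.len1 hjn
    · intro hall
      exact absurd (hall i hi) hi'

/-- the state after `t` rounds -/
def state (n : ℕ) (W : Mat) (B t : ℕ) : List ℕ × List ℕ :=
  (List.range t).foldl (fun s _ => bid n W B s) (List.replicate n 0, List.replicate n 0)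

lemma state_succ (n : ℕ) (W : Mat) (B t : ℕ) :
    state n W B (t + 1) = bid n W B (state n W B t) := by
  unfold state
  rw [List.range_succ, List.foldl_append]
  rfl

lemma getD_replicate0 (n j : ℕ) : (List.replicate n 0).getD j 0 = 0 := by
  by_cases hj : j < n
  · rw [List.getD_eq_getElem _ _ (by simpa using hj)]
    simp
  · rw [List.getD_eq_default _ _ (by simpa using hj)]

lemma state_spec {n : ℕ} {W : Mat} (B : ℕ) (hB : (n + 1) * maxEnt W + 1 ≤ B) (t : ℕ) :
    Inv n W (state n W B t) ∧ ((∃ i < n, i + 1 ∉ (state n W B t).2) →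
      ∑ k ∈ range n, (state n W B t).1.getD k 0 = t) := by
  induction t with
  | zero =>
    have h0 : state n W B 0 = (List.replicate n 0, List.replicate n 0) := rfl
    rw [h0]
    refine ⟨⟨by simp, by simp, ?_, ?_, ?_, ?_, ?_⟩, ?_⟩
    · intro j _ _
      exact getD_replicate0 n j
    · intro j _
      rw [getD_replicate0]
      exact Nat.zero_le _
    · intro j _ k _ _ h
      exact absurd (getD_replicate0 n j) h
    · intro j _ i h
      rw [getD_replicate0] at h
      omega
    · intro j _
      rw [getD_replicate0]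
      exact Nat.zero_le _
    · intro _
      exact sum_eq_zero fun k _ => getD_replicate0 n k
  | succ t ih =>
    rw [state_succ]
    obtain ⟨h1, h2, h3⟩ := bid_spec ih.1 B hB
    refine ⟨h1, ?_⟩
    intro h4
    by_cases h5 : ∃ i < n, i + 1 ∉ (state n W B t).2
    · rw [h2 h5, ih.2 h5]
    · push Not at h5
      rw [h3 h5] at h4
      obtain ⟨i, hi, hi'⟩ := h4
      exact absurd (h5 i hi) hi'

lemma sum_perm (n : ℕ) (p : ℕ → ℕ) (a : ℕ → ℕ) (h1 : ∀ i < n, a i < n)
    (h2 : ∀ i < n, ∀ k < n, a i = a k → i = k) :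
    ∑ i ∈ range n, p (a i) = ∑ i ∈ range n, p i := by
  have hinj : Set.InjOn a (range n : Set ℕ) := by
    intro i hi k hk h
    rw [coe_range, Set.mem_Iio] at hi hk
    exact h2 i hi k hk h
  have himg : (range n).image a = range n := by
    apply eq_of_subset_of_card_le
    · intro x hx
      obtain ⟨i, hi, rfl⟩ := mem_image.1 hx
      exact mem_range.2 (h1 i (mem_range.1 hi))
    · rw [card_image_of_injOn hinj]
  rw [← sum_image (f := p) hinj, himg]

theorem assign_spec (n : ℕ) (W : Mat) :
    (assign n W).length = n ∧ (assign n W).Nodup ∧ (∀ j ∈ assign n W, j < n) ∧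
      ∀ b : List ℕ, b.length = n → b.Nodup → (∀ j ∈ b, j < n) →
        ∑ i ∈ range n, ent W i (b.getD i 0) ≤ ∑ i ∈ range n, ent W i ((assign n W).getD i 0) := by
  rcases Nat.eq_zero_or_pos n with rfl | hn
  · refine ⟨rfl, List.nodup_nil, ?_, ?_⟩
    · intro j hj
      simp [assign] at hj
    · intro b _ _ _
      simp
  have hB : (n + 1) * maxEnt W + 1 ≤ rounds n W := by
    unfold rounds
    have : 1 * ((n + 1) * maxEnt W + 2) ≤ n * ((n + 1) * maxEnt W + 2) :=
      Nat.mul_le_mul_right _ hn
    omega
  obtain ⟨hinv, hsum⟩ := state_spec (n := n) (W := W) (rounds n W) hB (rounds n W)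
  have hst : auction n W = state n W (rounds n W) (rounds n W) := rfl
  rw [← hst] at hinv hsum
  have hall : ∀ i < n, i + 1 ∈ (auction n W).2 := by
    by_contra hcon
    push Not at hcon
    have h1 := hsum hcon
    have h2 : ∑ k ∈ range n, (auction n W).1.getD k 0 ≤ n * ((n + 1) * maxEnt W + 1) := by
      refine (sum_le_card_nsmul _ _ ((n + 1) * maxEnt W + 1)
        fun k hk => hinv.bound k (mem_range.1 hk)).trans ?_
      simp
    rw [h1] at h2
    unfold rounds at h2
    nlinarith
  let a : ℕ → ℕ := fun i => (auction n W).2.idxOf (i + 1)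
  have ha : ∀ i < n, a i < n := fun i hi => by
    have := List.idxOf_lt_length_of_mem (hall i hi)
    rwa [hinv.len2] at this
  have ha' : ∀ i < n, (auction n W).2.getD (a i) 0 = i + 1 := fun i hi => by
    have := List.idxOf_lt_length_of_mem (hall i hi)
    rw [List.getD_eq_getElem _ _ this]
    exact List.getElem_idxOf this
  have hai : ∀ i < n, ∀ k < n, a i = a k → i = k := fun i hi k hk h => by
    have h1 := ha' i hi
    rw [h, ha' k hk] at h1
    omega
  have hget : ∀ i < n, (assign n W).getD i 0 = a i := fun i hi => by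
    unfold assign
    rw [List.getD_eq_getElem _ _ (by simpa using hi)]
    simp [a]
  refine ⟨by simp [assign], ?_, ?_, ?_⟩
  · unfold assign
    refine List.Nodup.map_on ?_ List.nodup_range
    intro i hi k hk h
    exact hai i (List.mem_range.1 hi) k (List.mem_range.1 hk) h
  · intro j hj
    obtain ⟨i, hi, rfl⟩ := List.mem_map.1 hj
    exact ha i (List.mem_range.1 hi)
  · intro b hb1 hb2 hb3
    have hbn : ∀ i < n, b.getD i 0 < n := fun i hi => by
      rw [List.getD_eq_getElem _ _ (hb1 ▸ hi)]
      exact hb3 _ (List.getElem_mem _)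
    have hbi : ∀ i < n, ∀ k < n, b.getD i 0 = b.getD k 0 → i = k := fun i hi k hk h => by
      rw [List.getD_eq_getElem _ _ (hb1 ▸ hi), List.getD_eq_getElem _ _ (hb1 ▸ hk)] at h
      exact (hb2.getElem_inj_iff).1 h
    have h1 : ∑ i ∈ range n, ((n + 1) * ent W i (b.getD i 0) + (auction n W).1.getD (a i) 0) ≤
        ∑ i ∈ range n, ((n + 1) * ent W i (a i) + 1 + (auction n W).1.getD (b.getD i 0) 0) := by
      refine sum_le_sum fun i hi => ?_
      rw [mem_range] at hi
      exact hinv.cs (a i) (ha i hi) i (ha' i hi) _ (hbn i hi)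
    rw [sum_add_distrib, sum_add_distrib, sum_add_distrib,
      sum_perm n (fun j => (auction n W).1.getD j 0) a ha hai,
      sum_perm n (fun j => (auction n W).1.getD j 0) (fun i => b.getD i 0) hbn hbi,
      ← mul_sum, ← mul_sum] at h1
    simp only [sum_const, card_range, smul_eq_mul, mul_one] at h1
    have h2 : ∑ i ∈ range n, ent W i ((assign n W).getD i 0) = ∑ i ∈ range n, ent W i (a i) :=
      sum_congr rfl fun i hi => by rw [hget i (mem_range.1 hi)]
    rw [h2]
    by_contra hcon
    rw [not_le] at hcon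
    have h3 := Nat.mul_le_mul_left (n + 1) (Nat.succ_le_of_lt hcon)
    rw [Nat.succ_eq_add_one, mul_add, mul_one] at h3
    omega

end Vale.Agent.Lib.P333.Alg
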