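import Mathlib
import Vale.Agent.Lib.P333.Alg
import Vale.Agent.Lib.P333.AtspD

/-!
P333, modules COL0-COL4: path-3-colourings and local extension lemmas.
See blueprint_P333.md, section 5.
-/

namespace Vale.Agent.Lib.P333.Alg

/-- the arcs of a coloured arc list -/
def arcs (X : List CArc) : List Arc := X.map (fun a => a.1)

/-- directed reachability in a list of arcs -/
def Reach (P : List Arc) (u v : ℕ) : Prop := Relation.ReflTransGen (fun a b => (a, b) ∈ P) u v

/-- a valid path-3-colouring with break vertices `B` -/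
structure Ok (n : ℕ) (B : List ℕ) (X : List CArc) : Prop where
  col : ∀ a ∈ X, a.2 < 3
  pc : ∀ c < 3, PC n (cls c X)
  brk : ∀ b ∈ B, ∀ a ∈ X, ∀ a' ∈ X, a.1.2 = b → a'.1.1 = b → a.2 ≠ a'.2

/-- number of arcs leaving `v` -/
def outd (G : List Arc) (v : ℕ) : ℕ := (G.filter (fun a => a.1 == v)).length

/-- number of arcs entering `v` -/
def ind (G : List Arc) (v : ℕ) : ℕ := (G.filter (fun a => a.2 == v)).length

/-- loopless graph on `0..n-1` with in- and out-degrees at most 2, at most 1 at the break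
vertices -/
structure Good (n : ℕ) (B : List ℕ) (G : List Arc) : Prop where
  lt : ∀ a ∈ G, a.1 < n ∧ a.2 < n
  loopless : ∀ a ∈ G, a.1 ≠ a.2
  out : ∀ v, outd G v ≤ 2
  inn : ∀ v, ind G v ≤ 2
  bout : ∀ b ∈ B, outd G b ≤ 1
  binn : ∀ b ∈ B, ind G b ≤ 1

end Vale.Agent.Lib.P333.Alg
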