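import Mathlib
import Vale.Agent.Lib.P333.Col

/-! P333: connectivity. -/

namespace Vale.Agent.Lib.P333.Alg

/-- undirected connectivity in a list of arcs -/
def Conn (G : List Arc) (u v : ℕ) : Prop :=
  Relation.ReflTransGen (fun a b => (a, b) ∈ G ∨ (b, a) ∈ G) u v

/-- every vertex which has an arc is connected to one of degree 1, 2 or 3 -/
def Deficient (G : List Arc) : Prop :=
  ∀ v, 0 < deg G v → ∃ u, Conn G v u ∧ 0 < deg G u ∧ deg G u ≤ 3

end Vale.Agent.Lib.P333.Alg
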