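import Mathlib
import Vale.Agent.Lib.P333.ElimDefs

/-! P333: covers. -/

namespace Vale.Agent.Lib.P333.Alg

/-- `C` a permutation of `0..n-1`, `D` the ordinary arcs and `spp` the special pairs of a relaxed
cover -/
structure Cov (n : ℕ) (C : List ℕ) (D spp : List Arc) : Prop where
  clen : C.length = n
  cnd : C.Nodup
  clt : ∀ j ∈ C, j < n
  dlt : ∀ a ∈ D, a.1 < n ∧ a.2 < n
  dloop : ∀ a ∈ D, a.1 ≠ a.2
  dout : (D.map (fun a => a.1)).Nodup
  din : (D.map (fun a => a.2)).Nodup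
  slt : ∀ p ∈ spp, p.1 < n ∧ p.2 < n
  snd : (spp.map (fun p => p.1) ++ spp.map (fun p => p.2)).Nodup
  sC : ∀ p ∈ spp, C.getD p.1 0 = p.2 ∧ C.getD p.2 0 = p.1
  sD : ∀ p ∈ spp, ∀ a ∈ D, inc p.1 a = false
  pair : ∀ a ∈ D, C.getD a.1 0 = a.2 → C.getD a.2 0 = a.1 → (a.2, a.1) ∉ D

/-- arcs with tail in `S` -/
def restr (S : List ℕ) (P : List Arc) : List Arc := P.filter (fun a => S.contains a.1)

/-- weight (doubled) of both covers on `S`: twice the arcs of `C` and `D`, and both arcs of the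
special pairs -/
def wt2 (n : ℕ) (W : Mat) (C : List ℕ) (D spp : List Arc) (S : List ℕ) : ℕ :=
  2 * wt W (restr S (permArcs n C)) + 2 * wt W (restr S D) +
    ((restr S spp).map (fun p => ent W p.1 p.2 + ent W p.2 p.1)).sum

/-- the graph of both covers -/
def full (n : ℕ) (C : List ℕ) (D : List Arc) : List Arc := permArcs n C ++ D

end Vale.Agent.Lib.P333.Alg
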