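import Mathlib
import Vale.Agent.Lib.P333.CovDefs

/-! P333, module COV1: components -/

namespace Vale.Agent.Lib.P333.Alg

/-! ### COV1: components -/

/-- one round of the closure -/
def compStep (n : ℕ) (G : List Arc) (S : List ℕ) : List ℕ :=
  (List.range n).filter (fun u =>
    S.contains u || G.any (fun a => (a.1 == u && S.contains a.2) || (a.2 == u && S.contains a.1)))

/-- the set after `m` rounds -/
def compIt (n : ℕ) (G : List Arc) (v : ℕ) (m : ℕ) : List ℕ :=
  (List.range m).foldl (fun S _ => compStep n G S) [v]

theorem compIt_zero (n : ℕ) (G : List Arc) (v : ℕ) : compIt n G v 0 = [v] := rfl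

theorem compIt_succ (n : ℕ) (G : List Arc) (v m : ℕ) :
    compIt n G v (m + 1) = compStep n G (compIt n G v m) := by
  unfold compIt
  rw [List.range_succ, List.foldl_append]
  rfl

theorem comp_eq_compIt (n : ℕ) (G : List Arc) (v : ℕ) : comp n G v = compIt n G v n := rfl

theorem mem_compStep {n : ℕ} {G : List Arc} {S : List ℕ} {u : ℕ} :
    u ∈ compStep n G S ↔ u < n ∧ (u ∈ S ∨ ∃ x ∈ S, (u, x) ∈ G ∨ (x, u) ∈ G) := by
  unfold compStep
  rw [List.mem_filter, List.mem_range]
  refine and_congr_right fun _ => ?_
  rw [Bool.or_eq_true, List.contains_iff_mem, List.any_eq_true]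
  refine or_congr_right ?_
  constructor
  · rintro ⟨⟨a, b⟩, ha, h⟩
    rw [Bool.or_eq_true, Bool.and_eq_true, Bool.and_eq_true, beq_iff_eq, beq_iff_eq,
      List.contains_iff_mem, List.contains_iff_mem] at h
    rcases h with ⟨h1, h2⟩ | ⟨h1, h2⟩
    · simp only at h1 h2
      subst h1
      exact ⟨b, h2, Or.inl ha⟩
    · simp only at h1 h2
      subst h1
      exact ⟨a, h2, Or.inr ha⟩
  · rintro ⟨x, hx, h | h⟩
    · exact ⟨(u, x), h, by simp [hx]⟩
    · exact ⟨(x, u), h, by simp [hx]⟩

theorem compIt_lt {n : ℕ} {G : List Arc} {v : ℕ} (hv : v < n) (m : ℕ) :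
    ∀ u ∈ compIt n G v m, u < n := by
  cases m with
  | zero =>
    intro u hu
    rw [compIt_zero, List.mem_singleton] at hu
    rw [hu]
    exact hv
  | succ m =>
    intro u hu
    rw [compIt_succ, mem_compStep] at hu
    exact hu.1

theorem compIt_subset {n : ℕ} {G : List Arc} {v : ℕ} (hv : v < n) (m : ℕ) {u : ℕ}
    (hu : u ∈ compIt n G v m) : u ∈ compIt n G v (m + 1) := by
  rw [compIt_succ, mem_compStep]
  exact ⟨compIt_lt hv m u hu, Or.inl hu⟩

theorem compIt_start {n : ℕ} {G : List Arc} {v : ℕ} (hv : v < n) (m : ℕ) :
    v ∈ compIt n G v m := by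
  induction m with
  | zero =>
    rw [compIt_zero]
    exact List.mem_singleton.2 rfl
  | succ m ih => exact compIt_subset hv m ih

theorem compIt_sound {n : ℕ} {G : List Arc} {v : ℕ} (m : ℕ) :
    ∀ u ∈ compIt n G v m, Conn G v u := by
  induction m with
  | zero =>
    intro u hu
    rw [compIt_zero, List.mem_singleton] at hu
    rw [hu]
    exact Relation.ReflTransGen.refl
  | succ m ih =>
    intro u hu
    rw [compIt_succ, mem_compStep] at hu
    rcases hu.2 with h | ⟨x, hx, h⟩
    · exact ih u h
    · exact (ih x hx).tail h.symm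

/-- closed under adjacency -/
def AdjClosed (G : List Arc) (S : List ℕ) : Prop :=
  ∀ u x, x ∈ S → ((u, x) ∈ G ∨ (x, u) ∈ G) → u ∈ S

theorem compIt_closed_or {n : ℕ} {G : List Arc} (hG : ∀ a ∈ G, a.1 < n ∧ a.2 < n) {v : ℕ}
    (hv : v < n) (m : ℕ) :
    AdjClosed G (compIt n G v m) ∨ m + 1 ≤ (compIt n G v m).toFinset.card := by
  classical
  induction m with
  | zero =>
    right
    rw [compIt_zero]
    simp
  | succ m ih =>
    by_cases hc : AdjClosed G (compIt n G v m)
    · left
      have hsub : ∀ u ∈ compIt n G v (m + 1), u ∈ compIt n G v m := by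
        intro u hu
        rw [compIt_succ, mem_compStep] at hu
        rcases hu.2 with h | ⟨x, hx, h⟩
        · exact h
        · exact hc u x hx h
      intro u x hx h
      exact compIt_subset hv m (hc u x (hsub x hx) h)
    · right
      have ih' := ih.resolve_left hc
      have hss : (compIt n G v m).toFinset ⊂ (compIt n G v (m + 1)).toFinset := by
        rw [Finset.ssubset_iff_subset_ne]
        refine ⟨fun u hu => ?_, fun heq => hc ?_⟩
        · rw [List.mem_toFinset] at hu ⊢
          exact compIt_subset hv m hu
        · intro u x hx h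
          have hun : u < n := by
            rcases h with h | h
            · exact (hG _ h).1
            · exact (hG _ h).2
          have h1 : u ∈ compIt n G v (m + 1) := by
            rw [compIt_succ, mem_compStep]
            exact ⟨hun, Or.inr ⟨x, hx, h⟩⟩
          rw [← List.mem_toFinset, heq, List.mem_toFinset]
          exact h1
      have := Finset.card_lt_card hss
      omega

theorem mem_comp {n : ℕ} {G : List Arc} (hG : ∀ a ∈ G, a.1 < n ∧ a.2 < n) {v u : ℕ}
    (hv : v < n) : u ∈ comp n G v ↔ Conn G v u := by
  classical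
  rw [comp_eq_compIt]
  constructor
  · exact compIt_sound n u
  · intro h
    have hcl : AdjClosed G (compIt n G v n) := by
      rcases compIt_closed_or hG hv n with h | h
      · exact h
      · exfalso
        have h1 : (compIt n G v n).toFinset ⊆ Finset.range n := by
          intro x hx
          rw [List.mem_toFinset] at hx
          exact Finset.mem_range.2 (compIt_lt hv n x hx)
        have h2 := Finset.card_le_card h1
        rw [Finset.card_range] at h2
        omega
    induction h with
    | refl => exact compIt_start hv n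
    | tail _ hbc ih => exact hcl _ _ ih hbc.symm

theorem comp_nodup (n : ℕ) (G : List Arc) (v : ℕ) : (comp n G v).Nodup := by
  rw [comp_eq_compIt]
  cases n with
  | zero =>
    rw [compIt_zero]
    exact List.nodup_singleton v
  | succ n =>
    rw [compIt_succ]
    exact List.Nodup.filter _ List.nodup_range

end Vale.Agent.Lib.P333.Alg
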