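import Mathlib
import Vale.Agent.Lib.P333.CovDefs
import Vale.Agent.Lib.P333.Cov1

/-! P333, module COV2 -/

namespace Vale.Agent.Lib.P333.Alg

/-! ### COV2: no 2-cycle of `C` in the component -/

namespace Cov2

/-- successor in the permutation `C` -/
def cs (C : List ℕ) (u : ℕ) : ℕ := C.getD u 0

/-- `C` is a permutation of `0..n-1` -/
structure PermL (n : ℕ) (C : List ℕ) : Prop where
  clen : C.length = n
  cnd : C.Nodup
  clt : ∀ j ∈ C, j < n

variable {n : ℕ} {C : List ℕ}

theorem PermL.cs_lt (h : PermL n C) {u : ℕ} (hu : u < n) : cs C u < n := by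
  apply h.clt
  unfold cs
  rw [List.getD_eq_getElem _ _ (by rw [h.clen]; exact hu)]
  exact List.getElem_mem _

theorem PermL.cs_inj (h : PermL n C) {u v : ℕ} (hu : u < n) (hv : v < n)
    (huv : cs C u = cs C v) : u = v := by
  unfold cs at huv
  rw [List.getD_eq_getElem _ _ (by rw [h.clen]; exact hu),
    List.getD_eq_getElem _ _ (by rw [h.clen]; exact hv)] at huv
  exact (h.cnd.getElem_inj_iff).1 huv

theorem PermL.iter_lt (h : PermL n C) {u : ℕ} (hu : u < n) (i : ℕ) : (cs C)^[i] u < n := by
  induction i with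
  | zero => exact hu
  | succ i ih => rw [Function.iterate_succ_apply']; exact h.cs_lt ih

theorem PermL.iter_inj (h : PermL n C) {u v : ℕ} (hu : u < n) (hv : v < n) (i : ℕ)
    (huv : (cs C)^[i] u = (cs C)^[i] v) : u = v := by
  induction i with
  | zero => exact huv
  | succ i ih =>
    rw [Function.iterate_succ_apply', Function.iterate_succ_apply'] at huv
    exact ih (h.cs_inj (h.iter_lt hu i) (h.iter_lt hv i) huv)

/-- length of the cycle of `u` -/
noncomputable def len (C : List ℕ) (u : ℕ) : ℕ := Function.minimalPeriod (cs C) u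

theorem PermL.len_spec (h : PermL n C) {u : ℕ} (hu : u < n) : 0 < len C u ∧ len C u ≤ n := by
  obtain ⟨i, hi, j, hj, hij, heq⟩ :=
    Finset.exists_ne_map_eq_of_card_lt_of_maps_to (s := Finset.range (n + 1))
      (t := Finset.range n) (by simp) (f := fun i => (cs C)^[i] u)
      (fun i _ => Finset.mem_coe.2 (Finset.mem_range.2 (h.iter_lt hu i)))
  wlog hlt : i < j generalizing i j
  · exact this j hj i hi hij.symm heq.symm (by omega)
  have h1 : (cs C)^[j - i] u = u := by
    apply h.iter_inj (h.iter_lt hu _) hu i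
    rw [← Function.iterate_add_apply]
    have : i + (j - i) = j := by omega
    rw [this]
    exact heq.symm
  have h2 : Function.IsPeriodicPt (cs C) (j - i) u := h1
  have hj' := Finset.mem_range.1 hj
  refine ⟨h2.minimalPeriod_pos (by omega), (h2.minimalPeriod_le (by omega)).trans (by omega)⟩

theorem iter_len (C : List ℕ) (u : ℕ) : (cs C)^[len C u] u = u :=
  Function.iterate_minimalPeriod

theorem iter_mod (C : List ℕ) (u i : ℕ) : (cs C)^[i % len C u] u = (cs C)^[i] u :=
  Function.iterate_mod_minimalPeriod_eq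

theorem iter_inj_lt (C : List ℕ) (u : ℕ) {i j : ℕ} (hi : i < len C u) (hj : j < len C u)
    (hij : (cs C)^[i] u = (cs C)^[j] u) : i = j :=
  Function.iterate_injOn_Iio_minimalPeriod hi hj hij

theorem PermL.len_iter (h : PermL n C) {u : ℕ} (hu : u < n) (i : ℕ) :
    len C ((cs C)^[i] u) = len C u :=
  Function.minimalPeriod_apply_iterate
    (Function.minimalPeriod_pos_iff_mem_periodicPts.1 (h.len_spec hu).1) i

/-- the cycle of `u` -/
noncomputable def cyc (C : List ℕ) (u : ℕ) : Finset ℕ :=
  (Finset.range (len C u)).image (fun i => (cs C)^[i] u)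

theorem PermL.mem_cyc (h : PermL n C) {u : ℕ} (hu : u < n) {x : ℕ} :
    x ∈ cyc C u ↔ ∃ i, (cs C)^[i] u = x := by
  unfold cyc
  rw [Finset.mem_image]
  constructor
  · rintro ⟨i, _, hi⟩
    exact ⟨i, hi⟩
  · rintro ⟨i, hi⟩
    refine ⟨i % len C u, Finset.mem_range.2 (Nat.mod_lt _ (h.len_spec hu).1), ?_⟩
    rw [iter_mod]
    exact hi

theorem PermL.cyc_lt (h : PermL n C) {u : ℕ} (hu : u < n) {x : ℕ} (hx : x ∈ cyc C u) : x < n := by
  obtain ⟨i, rfl⟩ := (h.mem_cyc hu).1 hx
  exact h.iter_lt hu i

theorem PermL.cyc_iter (h : PermL n C) {u : ℕ} (hu : u < n) (i : ℕ) :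
    cyc C ((cs C)^[i] u) = cyc C u := by
  ext x
  rw [h.mem_cyc (h.iter_lt hu i), h.mem_cyc hu]
  constructor
  · rintro ⟨j, rfl⟩
    exact ⟨j + i, by rw [Function.iterate_add_apply]⟩
  · rintro ⟨j, rfl⟩
    -- choose a multiple of the length above `i`
    refine ⟨j + (i * len C u - i), ?_⟩
    rw [← Function.iterate_add_apply]
    have hle : i ≤ i * len C u := Nat.le_mul_of_pos_right i (h.len_spec hu).1
    have : j + (i * len C u - i) + i = j + i * len C u := by omega
    rw [this, ← iter_mod, Nat.add_mul_mod_self_right, iter_mod]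

theorem PermL.cyc_eq (h : PermL n C) {u x : ℕ} (hu : u < n) (hx : x ∈ cyc C u) :
    cyc C x = cyc C u := by
  obtain ⟨i, rfl⟩ := (h.mem_cyc hu).1 hx
  exact h.cyc_iter hu i

theorem PermL.len_eq (h : PermL n C) {u x : ℕ} (hu : u < n) (hx : x ∈ cyc C u) :
    len C x = len C u := by
  obtain ⟨i, rfl⟩ := (h.mem_cyc hu).1 hx
  exact h.len_iter hu i

theorem PermL.self_mem_cyc (h : PermL n C) {u : ℕ} (hu : u < n) : u ∈ cyc C u :=
  (h.mem_cyc hu).2 ⟨0, rfl⟩

theorem PermL.cs_mem_cyc (h : PermL n C) {u x : ℕ} (hu : u < n) (hx : x ∈ cyc C u) :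
    cs C x ∈ cyc C u := by
  obtain ⟨i, rfl⟩ := (h.mem_cyc hu).1 hx
  exact (h.mem_cyc hu).2 ⟨i + 1, by rw [Function.iterate_succ_apply']⟩

theorem sum_cyc (C : List ℕ) (u : ℕ) (f : ℕ → ℕ) :
    ∑ x ∈ cyc C u, f x = ∑ i ∈ Finset.range (len C u), f ((cs C)^[i] u) := by
  unfold cyc
  rw [Finset.sum_image]
  intro i hi j hj hij
  exact iter_inj_lt C u (by simpa using hi) (by simpa using hj) hij

theorem card_cyc (C : List ℕ) (u : ℕ) : (cyc C u).card = len C u := by
  have := sum_cyc C u (fun _ => 1)
  simpa using this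

/-- the arc from `c^i u` -/
def arcI (C : List ℕ) (u i : ℕ) : Arc := ((cs C)^[i] u, (cs C)^[i + 1] u)

theorem PermL.cycPath_state (h : PermL n C) {u : ℕ} (hu : u < n) (k : ℕ) :
    (List.range k).foldl (fun (p : ℕ × List Arc) _ =>
      let t := C.getD p.1 0
      if t = u || p.1 = n then (n, p.2) else (t, (p.1, t) :: p.2)) (u, []) =
    if k < len C u then ((cs C)^[k] u, ((List.range k).map (arcI C u)).reverse)
    else (n, ((List.range (len C u - 1)).map (arcI C u)).reverse) := by
  have hpos := (h.len_spec hu).1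
  induction k with
  | zero => simp [hpos]
  | succ k ih =>
    rw [List.range_succ, List.foldl_append, ih]
    by_cases hk : k < len C u
    · rw [if_pos hk]
      have hne : (cs C)^[k] u ≠ n := (h.iter_lt hu k).ne
      have ht : C.getD ((cs C)^[k] u) 0 = (cs C)^[k + 1] u := by
        rw [Function.iterate_succ_apply']; rfl
      by_cases hk1 : k + 1 < len C u
      · have hne' : (cs C)^[k + 1] u ≠ u := by
          intro hcon
          have := iter_inj_lt C u hk1 hpos (by simpa using hcon)
          omega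
        rw [if_pos hk1]
        simp only [List.foldl_cons, List.foldl_nil, ht]
        rw [if_neg (by
          simp only [Bool.or_eq_true, decide_eq_true_eq, not_or]
          exact ⟨hne', hne⟩)]
        rw [List.map_append, List.reverse_append]
        rfl
      · have hk2 : k + 1 = len C u := by omega
        have heq : (cs C)^[k + 1] u = u := by rw [hk2]; exact iter_len C u
        rw [if_neg hk1]
        simp only [List.foldl_cons, List.foldl_nil, ht]
        rw [if_pos (by simp [heq])]
        have : len C u - 1 = k := by omega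
        rw [this]
    · rw [if_neg hk, if_neg (by omega)]
      simp

theorem PermL.cycPath_eq (h : PermL n C) {u : ℕ} (hu : u < n) :
    cycPath n C u = ((List.range (len C u - 1)).map (arcI C u)).reverse := by
  unfold cycPath
  rw [h.cycPath_state hu n, if_neg (by have := (h.len_spec hu).2; omega)]

theorem PermL.mem_cycPath (h : PermL n C) {u : ℕ} (hu : u < n) {a : Arc} :
    a ∈ cycPath n C u ↔ ∃ i, i + 1 < len C u ∧ a = ((cs C)^[i] u, (cs C)^[i + 1] u) := by
  rw [h.cycPath_eq hu, List.mem_reverse, List.mem_map]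
  constructor
  · rintro ⟨i, hi, rfl⟩
    have := List.mem_range.1 hi
    exact ⟨i, by omega, rfl⟩
  · rintro ⟨i, hi, rfl⟩
    exact ⟨i, List.mem_range.2 (by omega), rfl⟩

/-- potentials forbid cycles -/
theorem walk_of_rank {P : List Arc} (r : ℕ → ℕ) (hr : ∀ a ∈ P, r a.1 < r a.2)
    (hrn : ∀ u, r u < n) (v : ℕ) : walk P n v = none := by
  have h1 : ∀ k x, walk P k v = some x → k ≤ r x := by
    intro k
    induction k with
    | zero => intro x _; exact Nat.zero_le _
    | succ k ih =>
      intro x hx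
      rw [walk_succ, Option.bind_eq_some_iff] at hx
      obtain ⟨y, hy1, hy2⟩ := hx
      have h3 : r y < r x := hr _ (next_mem hy2)
      have := ih y hy1
      omega
  cases hw : walk P n v with
  | none => rfl
  | some x =>
    have := h1 n x hw
    have := hrn x
    omega

theorem PermL.cycPath_tails (h : PermL n C) {u : ℕ} (hu : u < n) :
    ((cycPath n C u).map (fun a => a.1)).Nodup := by
  rw [h.cycPath_eq hu, List.map_reverse, List.nodup_reverse, List.map_map]
  apply List.Nodup.map_on _ List.nodup_range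
  intro i hi j hj hij
  have hi' := List.mem_range.1 hi
  have hj' := List.mem_range.1 hj
  exact iter_inj_lt C u (by omega) (by omega) hij

theorem PermL.cycPath_heads (h : PermL n C) {u : ℕ} (hu : u < n) :
    ((cycPath n C u).map (fun a => a.2)).Nodup := by
  rw [h.cycPath_eq hu, List.map_reverse, List.nodup_reverse, List.map_map]
  apply List.Nodup.map_on _ List.nodup_range
  intro i hi j hj hij
  have hi' := List.mem_range.1 hi
  have hj' := List.mem_range.1 hj
  have := iter_inj_lt C u (i := i + 1) (j := j + 1) (by omega) (by omega) hij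
  omega

theorem PermL.exists_rank (h : PermL n C) {u : ℕ} (hu : u < n) :
    ∃ r : ℕ → ℕ, (∀ a ∈ cycPath n C u, r a.1 < r a.2) ∧ ∀ x, r x < n := by
  classical
  refine ⟨fun x => if hx : ∃ i, i < len C u ∧ (cs C)^[i] u = x then Nat.find hx else 0, ?_, ?_⟩
  · intro a ha
    obtain ⟨i, hi, rfl⟩ := (h.mem_cycPath hu).1 ha
    have h1 : ∀ j, j < len C u → (if hx : ∃ i, i < len C u ∧ (cs C)^[i] u = (cs C)^[j] u then
        Nat.find hx else 0) = j := by
      intro j hj
      have hex : ∃ i, i < len C u ∧ (cs C)^[i] u = (cs C)^[j] u := ⟨j, hj, rfl⟩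
      rw [dif_pos hex]
      have h2 := Nat.find_spec hex
      exact iter_inj_lt C u h2.1 hj h2.2
    simp only
    rw [h1 i (by omega), h1 (i + 1) hi]
    omega
  · intro x
    simp only
    split_ifs with hx
    · have := (Nat.find_spec hx).1
      have := (h.len_spec hu).2
      omega
    · have := (h.len_spec hu)
      omega

theorem wt_append (W : Mat) (P Q : List Arc) : wt W (P ++ Q) = wt W P + wt W Q := by
  unfold wt
  rw [List.map_append, List.sum_append]

theorem PermL.wt_cycPath (h : PermL n C) (W : Mat) {u : ℕ} (hu : u < n) :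
    wt W (cycPath n C u) + ent W ((cs C)^[len C u - 1] u) u =
      ∑ x ∈ cyc C u, ent W x (cs C x) := by
  have hpos := (h.len_spec hu).1
  rw [sum_cyc, h.cycPath_eq hu]
  unfold wt
  rw [List.map_reverse, List.sum_reverse, List.map_map]
  have h1 : ∀ k, (List.map ((fun a : Arc => ent W a.1 a.2) ∘ arcI C u) (List.range k)).sum =
      ∑ i ∈ Finset.range k, ent W ((cs C)^[i] u) (cs C ((cs C)^[i] u)) := by
    intro k
    induction k with
    | zero => simp
    | succ k ih =>
      rw [List.range_succ, List.map_append, List.sum_append, ih, Finset.sum_range_succ]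
      simp [arcI, Function.iterate_succ_apply']
  rw [h1]
  obtain ⟨m, hm⟩ : ∃ m, len C u = m + 1 := ⟨len C u - 1, by omega⟩
  have h2 : cs C ((cs C)^[m] u) = u := by
    rw [← Function.iterate_succ_apply' (cs C) m u]
    have := iter_len C u
    rw [hm] at this
    exact this
  rw [hm, Nat.add_sub_cancel, Finset.sum_range_succ, h2]

theorem PermL.isPC_cycPath (h : PermL n C) {u : ℕ} (hu : u < n) :
    isPC n (cycPath n C u) = true := by
  rw [isPC_iff]
  obtain ⟨r, hr, hrn⟩ := h.exists_rank hu
  refine ⟨h.cycPath_tails hu, h.cycPath_heads hu, ?_, fun v _ => walk_of_rank r hr hrn v⟩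
  intro a ha
  obtain ⟨i, _, rfl⟩ := (h.mem_cycPath hu).1 ha
  exact ⟨h.iter_lt hu _, h.iter_lt hu _⟩

theorem best_spec (n : ℕ) (W : Mat) (S : List ℕ) (l : List (List Arc)) :
    (best n W S l = [] ∨ (best n W S l ∈ l ∧ isPC n (best n W S l) = true ∧
      inside S (best n W S l) = true)) ∧
      ∀ Q ∈ l, isPC n Q = true → inside S Q = true → wt W Q ≤ wt W (best n W S l) := by
  have key : ∀ (l : List (List Arc)) (P : List Arc),
      (l.foldl (better n W S) P = P ∨ (l.foldl (better n W S) P ∈ l ∧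
        isPC n (l.foldl (better n W S) P) = true ∧
        inside S (l.foldl (better n W S) P) = true)) ∧
      wt W P ≤ wt W (l.foldl (better n W S) P) ∧
      ∀ Q ∈ l, isPC n Q = true → inside S Q = true →
        wt W Q ≤ wt W (l.foldl (better n W S) P) := by
    intro l
    induction l with
    | nil => intro P; simp
    | cons R l ih =>
      intro P
      rw [List.foldl_cons]
      obtain ⟨h1, h2, h3⟩ := ih (better n W S P R)
      have hb : (better n W S P R = P ∨ (better n W S P R = R ∧ isPC n R = true ∧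
          inside S R = true)) ∧ wt W P ≤ wt W (better n W S P R) ∧
          (isPC n R = true → inside S R = true → wt W R ≤ wt W (better n W S P R)) := by
        unfold better
        split_ifs with hc
        · simp only [Bool.and_eq_true, decide_eq_true_eq] at hc
          exact ⟨Or.inr ⟨rfl, hc.1.1, hc.1.2⟩, hc.2.le, fun _ _ => le_rfl⟩
        · refine ⟨Or.inl rfl, le_rfl, fun h4 h5 => ?_⟩
          simp only [h4, h5, Bool.and_true, Bool.true_and, decide_eq_true_eq, not_lt] at hc
          exact hc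
      refine ⟨?_, hb.2.1.trans h2, ?_⟩
      · rcases h1 with h1 | ⟨h1, h1', h1''⟩
        · rcases hb.1 with h4 | ⟨h4, h5, h6⟩
          · left; rw [h1, h4]
          · right
            rw [h1, h4]
            exact ⟨List.mem_cons_self, h5, h6⟩
        · right
          exact ⟨List.mem_cons_of_mem _ h1, h1', h1''⟩
      · intro Q hQ hQ1 hQ2
        rcases List.mem_cons.1 hQ with rfl | hQ
        · exact (hb.2.2 hQ1 hQ2).trans h2
        · exact h3 Q hQ hQ1 hQ2
  have := key l []
  exact ⟨this.1, this.2.2⟩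

/-- incidence of a vertex with a list of arcs -/
def Tch (P : List Arc) (x : ℕ) : Prop := ∃ a ∈ P, a.1 = x ∨ a.2 = x

theorem any_inc {P : List Arc} {x : ℕ} : P.any (fun a => inc x a) = true ↔ Tch P x := by
  simp only [List.any_eq_true, inc, Bool.or_eq_true, beq_iff_eq, Tch]

theorem PermL.tch_cycPath (h : PermL n C) {u : ℕ} (hu : u < n) (hl : 2 ≤ len C u) {x : ℕ} :
    Tch (cycPath n C u) x ↔ x ∈ cyc C u := by
  constructor
  · rintro ⟨a, ha, hx⟩
    obtain ⟨i, _, rfl⟩ := (h.mem_cycPath hu).1 ha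
    rcases hx with rfl | rfl
    · exact (h.mem_cyc hu).2 ⟨i, rfl⟩
    · exact (h.mem_cyc hu).2 ⟨i + 1, rfl⟩
  · intro hx
    unfold cyc at hx
    obtain ⟨i, hi, rfl⟩ := Finset.mem_image.1 hx
    have hi' := Finset.mem_range.1 hi
    by_cases h1 : i + 1 < len C u
    · exact ⟨_, (h.mem_cycPath hu).2 ⟨i, h1, rfl⟩, Or.inl rfl⟩
    · obtain ⟨j, rfl⟩ : ∃ j, i = j + 1 := ⟨i - 1, by omega⟩
      exact ⟨_, (h.mem_cycPath hu).2 ⟨j, hi', rfl⟩, Or.inr rfl⟩

/-- the graph of `C` including loops -/
def gr (n : ℕ) (C : List ℕ) : List Arc := (List.range n).map (fun i => (i, C.getD i 0))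

theorem mem_gr {a b : ℕ} : (a, b) ∈ gr n C ↔ a < n ∧ cs C a = b := by
  unfold gr cs
  rw [List.mem_map]
  constructor
  · rintro ⟨i, hi, heq⟩
    rw [Prod.mk.injEq] at heq
    obtain ⟨rfl, rfl⟩ := heq
    exact ⟨List.mem_range.1 hi, rfl⟩
  · rintro ⟨ha, rfl⟩
    exact ⟨a, List.mem_range.2 ha, rfl⟩

theorem PermL.conn_gr (h : PermL n C) {v : ℕ} (hv : v < n) {x : ℕ} :
    Conn (gr n C) v x ↔ x ∈ cyc C v := by
  constructor
  · intro hx
    induction hx with
    | refl => exact h.self_mem_cyc hv
    | tail _ hstep ih =>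
      rename_i b c _
      rcases hstep with hs | hs
      · obtain ⟨_, rfl⟩ := mem_gr.1 hs
        exact h.cs_mem_cyc hv ih
      · obtain ⟨hc, hcb⟩ := mem_gr.1 hs
        -- `c` is the predecessor of `b`
        have hb : b < n := h.cyc_lt hv ih
        obtain ⟨i, hi⟩ := (h.mem_cyc hv).1 ih
        have hpos := (h.len_spec hv).1
        have h1 : (cs C)^[i + len C v] v = b := by
          rw [Function.iterate_add_apply, iter_len, hi]
        obtain ⟨m, hm⟩ : ∃ m, i + len C v = m + 1 := ⟨i + len C v - 1, by omega⟩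
        rw [hm, Function.iterate_succ_apply'] at h1
        have h2 : (cs C)^[m] v = c := h.cs_inj (h.iter_lt hv m) hc (h1.trans hcb.symm)
        exact (h.mem_cyc hv).2 ⟨m, h2⟩
  · intro hx
    obtain ⟨i, rfl⟩ := (h.mem_cyc hv).1 hx
    induction i with
    | zero => exact Relation.ReflTransGen.refl
    | succ i ih =>
      rw [Function.iterate_succ_apply']
      exact (ih ((h.mem_cyc hv).2 ⟨i, rfl⟩)).tail (Or.inl (mem_gr.2 ⟨h.iter_lt hv i, rfl⟩))

theorem PermL.mem_comp_gr (h : PermL n C) {v : ℕ} (hv : v < n) {x : ℕ} :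
    x ∈ comp n ((List.range n).map (fun i => (i, C.getD i 0))) v ↔ x ∈ cyc C v := by
  rw [← h.conn_gr hv]
  apply mem_comp _ hv
  intro a ha
  have ha' : (a.1, a.2) ∈ gr n C := ha
  obtain ⟨h1, h2⟩ := mem_gr.1 ha'
  refine ⟨h1, ?_⟩
  rw [← h2]
  exact h.cs_lt h1

theorem mem_inside {S : List ℕ} {P : List Arc} :
    inside S P = true ↔ ∀ a ∈ P, a.1 ∈ S ∧ a.2 ∈ S := by
  unfold inside
  simp only [List.all_eq_true, Bool.and_eq_true, List.contains_iff_mem]

/-- a heaviest path of a cycle has at least two thirds of its weight -/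
theorem PermL.exists_heavy (h : PermL n C) (W : Mat) {v : ℕ} (hv : v < n) (hl : 3 ≤ len C v) :
    ∃ u ∈ cyc C v, 2 * ∑ x ∈ cyc C v, ent W x (cs C x) ≤ 3 * wt W (cycPath n C u) := by
  obtain ⟨x, hx, hmin⟩ := Finset.exists_min_image (cyc C v) (fun x => ent W x (cs C x))
    ⟨v, h.self_mem_cyc hv⟩
  have hxn : x < n := h.cyc_lt hv hx
  refine ⟨cs C x, h.cs_mem_cyc hv hx, ?_⟩
  have h1 := h.wt_cycPath W (h.cs_lt hxn)
  have hlx : len C (cs C x) = len C v := by
    have := h.len_iter hxn 1
    rw [Function.iterate_one] at this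
    rw [this, h.len_eq hv hx]
  have hcx : cyc C (cs C x) = cyc C v := by
    have := h.cyc_iter hxn 1
    rw [Function.iterate_one] at this
    rw [this, h.cyc_eq hv hx]
  have h2 : (cs C)^[len C (cs C x) - 1] (cs C x) = x := by
    rw [← Function.iterate_succ_apply, hlx]
    have h3 : (len C v - 1).succ = len C x := by rw [h.len_eq hv hx]; omega
    rw [h3, iter_len]
  rw [h2, hcx] at h1
  have h4 : len C v * ent W x (cs C x) ≤ ∑ y ∈ cyc C v, ent W y (cs C y) := by
    rw [← card_cyc C v, ← smul_eq_mul]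
    exact Finset.card_nsmul_le_sum _ _ _ (fun y hy => hmin y hy)
  have h5 : 3 * ent W x (cs C x) ≤ len C v * ent W x (cs C x) := Nat.mul_le_mul_right _ hl
  omega

/-- the state of the loop of `dropLightest` -/
structure Inv (n : ℕ) (W : Mat) (C S : List ℕ) (P : List Arc) : Prop where
  tails : (P.map (fun a => a.1)).Nodup
  heads : (P.map (fun a => a.2)).Nodup
  mem : ∀ a ∈ P, a.1 ∈ S ∧ a.2 ∈ S
  rank : ∃ r : ℕ → ℕ, (∀ a ∈ P, r a.1 < r a.2) ∧ ∀ u, r u < n
  closed : ∀ x, Tch P x → Tch P (cs C x)
  weight : ∃ T : Finset ℕ, (∀ x, x ∈ T ↔ Tch P x) ∧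
    2 * ∑ x ∈ T, ent W x (cs C x) ≤ 3 * wt W P

/-- one step of the loop of `dropLightest` -/
def stp (n : ℕ) (W : Mat) (C S : List ℕ) (P : List Arc) (v : ℕ) : List Arc :=
  if P.any (fun a => inc v a) then P
    else best n W S ((comp n ((List.range n).map (fun i => (i, C.getD i 0))) v).map
      (fun u => cycPath n C u)) ++ P

theorem PermL.inv_step (h : PermL n C) {W : Mat} (hW : ∀ i, ent W i i = 0) {S : List ℕ}
    (hSn : ∀ u ∈ S, u < n) (hSc : ∀ u ∈ S, cs C u ∈ S)
    (h2 : ∀ u ∈ S, cs C u ≠ u → cs C (cs C u) ≠ u) {P : List Arc} (hP : Inv n W C S P)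
    {v : ℕ} (hv : v ∈ S) :
    Inv n W C S (stp n W C S P v) ∧ (∀ x, Tch P x → Tch (stp n W C S P v) x) ∧
      (Tch (stp n W C S P v) v ∨ ent W v (cs C v) = 0) := by
  have hvn := hSn v hv
  unfold stp
  split_ifs with hc
  · exact ⟨hP, fun _ hx => hx, Or.inl (any_inc.1 hc)⟩
  have hnt : ¬ Tch P v := fun hcon => hc (any_inc.2 hcon)
  set Q := best n W S ((comp n ((List.range n).map (fun i => (i, C.getD i 0))) v).map
      (fun u => cycPath n C u)) with hQ
  obtain ⟨hb1, hb2⟩ := best_spec n W S ((comp n ((List.range n).map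
    (fun i => (i, C.getD i 0))) v).map (fun u => cycPath n C u))
  rw [← hQ] at hb1 hb2
  have hcycS : ∀ x ∈ cyc C v, x ∈ S := by
    intro x hx
    obtain ⟨i, rfl⟩ := (h.mem_cyc hvn).1 hx
    clear hx
    induction i with
    | zero => exact hv
    | succ i ih => rw [Function.iterate_succ_apply']; exact hSc _ ih
  have hins : ∀ u ∈ cyc C v, inside S (cycPath n C u) = true := by
    intro u hu
    have hun := h.cyc_lt hvn hu
    rw [mem_inside]
    intro a ha
    obtain ⟨i, _, rfl⟩ := (h.mem_cycPath hun).1 ha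
    rw [← h.cyc_eq hvn hu] at hcycS
    exact ⟨hcycS _ ((h.mem_cyc hun).2 ⟨i, rfl⟩), hcycS _ ((h.mem_cyc hun).2 ⟨i + 1, rfl⟩)⟩
  have hge : ∀ u ∈ cyc C v, wt W (cycPath n C u) ≤ wt W Q := by
    intro u hu
    have hun := h.cyc_lt hvn hu
    apply hb2 _ _ (h.isPC_cycPath hun) (hins u hu)
    rw [List.mem_map]
    exact ⟨u, (h.mem_comp_gr hvn).2 hu, rfl⟩
  have hl3 : cs C v ≠ v → 3 ≤ len C v := by
    intro hne
    have hpos := (h.len_spec hvn).1
    have h1 : len C v ≠ 1 := by
      intro hcon
      have := iter_len C v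
      rw [hcon] at this
      exact hne this
    have h3 : len C v ≠ 2 := by
      intro hcon
      have := iter_len C v
      rw [hcon] at this
      exact h2 v hv hne this
    omega
  by_cases hQe : Q = []
  · rw [hQe, List.nil_append]
    refine ⟨hP, fun _ hx => hx, Or.inr ?_⟩
    by_cases hfix : cs C v = v
    · rw [hfix]; exact hW v
    · have hl := hl3 hfix
      have h3 := hge v (h.self_mem_cyc hvn)
      rw [hQe] at h3
      have h4 : wt W (cycPath n C v) = 0 := by
        simpa [wt] using h3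
      have h5 : (v, cs C v) ∈ cycPath n C v :=
        (h.mem_cycPath hvn).2 ⟨0, by omega, rfl⟩
      unfold wt at h4
      rw [List.sum_eq_zero_iff] at h4
      exact h4 _ (List.mem_map_of_mem (f := fun a : Arc => ent W a.1 a.2) h5)
  · rcases hb1 with hb1 | ⟨hb1, hb3, hb4⟩
    · exact absurd hb1 hQe
    obtain ⟨u, hu, huQ⟩ := List.mem_map.1 hb1
    have hu' := (h.mem_comp_gr hvn).1 hu
    have hun := h.cyc_lt hvn hu'
    -- the cycle is not a fixed point
    have hfix : cs C v ≠ v := by
      intro hfix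
      have h1 : len C v = 1 := by
        have h3 : Function.IsPeriodicPt (cs C) 1 v := hfix
        have := h3.minimalPeriod_le one_pos
        have h4 := (h.len_spec hvn).1
        unfold len at h4 ⊢
        omega
      have h3 : cycPath n C u = [] := by
        rw [h.cycPath_eq hun, h.len_eq hvn hu', h1]
        rfl
      exact hQe (huQ.symm.trans h3)
    have hl := hl3 hfix
    have hlu : 2 ≤ len C u := by rw [h.len_eq hvn hu']; omega
    have htQ : ∀ x, Tch Q x ↔ x ∈ cyc C v := by
      intro x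
      rw [← huQ, h.tch_cycPath hun hlu, h.cyc_eq hvn hu']
    have hdisj : ∀ x, Tch P x → x ∉ cyc C v := by
      intro x hx hxc
      apply hnt
      have h1 : v ∈ cyc C x := by
        rw [h.cyc_eq hvn hxc]; exact h.self_mem_cyc hvn
      obtain ⟨i, rfl⟩ := (h.mem_cyc (h.cyc_lt hvn hxc)).1 h1
      clear * - hx hP
      induction i with
      | zero => exact hx
      | succ i ih => rw [Function.iterate_succ_apply']; exact hP.closed _ ih
    have htch : ∀ x, Tch (Q ++ P) x ↔ Tch Q x ∨ Tch P x := by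
      intro x
      constructor
      · rintro ⟨a, ha, hx⟩
        rcases List.mem_append.1 ha with ha | ha
        · exact Or.inl ⟨a, ha, hx⟩
        · exact Or.inr ⟨a, ha, hx⟩
      · rintro (⟨a, ha, hx⟩ | ⟨a, ha, hx⟩)
        · exact ⟨a, List.mem_append_left _ ha, hx⟩
        · exact ⟨a, List.mem_append_right _ ha, hx⟩
    obtain ⟨rP, hrP, hrPn⟩ := hP.rank
    obtain ⟨rQ, hrQ, hrQn⟩ := h.exists_rank hun
    rw [huQ] at hrQ
    have hQt : (Q.map (fun a => a.1)).Nodup := by rw [← huQ]; exact h.cycPath_tails hun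
    have hQh : (Q.map (fun a => a.2)).Nodup := by rw [← huQ]; exact h.cycPath_heads hun
    obtain ⟨T, hT, hTw⟩ := hP.weight
    refine ⟨⟨?_, ?_, ?_, ?_, ?_, ?_⟩, fun x hx => (htch x).2 (Or.inr hx),
      Or.inl ((htch v).2 (Or.inl ((htQ v).2 (h.self_mem_cyc hvn))))⟩
    · rw [List.map_append]
      refine List.nodup_append.2 ⟨hQt, hP.tails, ?_⟩
      intro x hx y hy hxy
      subst hxy
      obtain ⟨a, ha, rfl⟩ := List.mem_map.1 hx
      obtain ⟨b, hb, hba⟩ := List.mem_map.1 hy
      exact hdisj a.1 ⟨b, hb, Or.inl hba⟩ ((htQ a.1).1 ⟨a, ha, Or.inl rfl⟩)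
    · rw [List.map_append]
      refine List.nodup_append.2 ⟨hQh, hP.heads, ?_⟩
      intro x hx y hy hxy
      subst hxy
      obtain ⟨a, ha, rfl⟩ := List.mem_map.1 hx
      obtain ⟨b, hb, hba⟩ := List.mem_map.1 hy
      exact hdisj a.2 ⟨b, hb, Or.inr hba⟩ ((htQ a.2).1 ⟨a, ha, Or.inr rfl⟩)
    · intro a ha
      rcases List.mem_append.1 ha with ha | ha
      · exact mem_inside.1 hb4 a ha
      · exact hP.mem a ha
    · refine ⟨fun x => if x ∈ cyc C v then rQ x else rP x, ?_, ?_⟩
      · intro a ha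
        rcases List.mem_append.1 ha with ha | ha
        · have h1 : a.1 ∈ cyc C v := (htQ _).1 ⟨a, ha, Or.inl rfl⟩
          have h3 : a.2 ∈ cyc C v := (htQ _).1 ⟨a, ha, Or.inr rfl⟩
          simp only [h1, h3, if_true]
          exact hrQ a ha
        · have h1 : a.1 ∉ cyc C v := hdisj _ ⟨a, ha, Or.inl rfl⟩
          have h3 : a.2 ∉ cyc C v := hdisj _ ⟨a, ha, Or.inr rfl⟩
          simp only [h1, h3, if_false]
          exact hrP a ha
      · intro x
        simp only
        split_ifs
        · exact hrQn x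
        · exact hrPn x
    · intro x hx
      rw [htch] at hx ⊢
      rcases hx with hx | hx
      · left
        rw [htQ] at hx ⊢
        exact h.cs_mem_cyc hvn hx
      · right
        exact hP.closed x hx
    · refine ⟨cyc C v ∪ T, ?_, ?_⟩
      · intro x
        rw [Finset.mem_union, htch, htQ, hT]
      · rw [Finset.sum_union, wt_append]
        · obtain ⟨u', hu', hheavy⟩ := h.exists_heavy W hvn hl
          have := hge u' hu'
          omega
        · rw [Finset.disjoint_left]
          intro x hx hxT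
          exact hdisj x ((hT x).1 hxT) hx

theorem PermL.inv_foldl (h : PermL n C) {W : Mat} (hW : ∀ i, ent W i i = 0) {S : List ℕ}
    (hSn : ∀ u ∈ S, u < n) (hSc : ∀ u ∈ S, cs C u ∈ S)
    (h2 : ∀ u ∈ S, cs C u ≠ u → cs C (cs C u) ≠ u) (l : List ℕ) (hl : ∀ u ∈ l, u ∈ S) :
    ∀ P : List Arc, Inv n W C S P →
    Inv n W C S (l.foldl (stp n W C S) P) ∧
      (∀ x, Tch P x → Tch (l.foldl (stp n W C S) P) x) ∧
      ∀ v ∈ l, Tch (l.foldl (stp n W C S) P) v ∨ ent W v (cs C v) = 0 := by
  induction l with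
  | nil => intro P hP; exact ⟨hP, fun _ hx => hx, by simp⟩
  | cons w l ih =>
    intro P hP
    rw [List.foldl_cons]
    obtain ⟨h1, h3, h4⟩ := h.inv_step hW hSn hSc h2 hP (hl w List.mem_cons_self)
    obtain ⟨h5, h6, h7⟩ := ih (fun u hu => hl u (List.mem_cons_of_mem _ hu)) _ h1
    refine ⟨h5, fun x hx => h6 x (h3 x hx), ?_⟩
    intro v hv
    rcases List.mem_cons.1 hv with rfl | hv
    · rcases h4 with h4 | h4
      · exact Or.inl (h6 _ h4)
      · exact Or.inr h4
    · exact h7 v hv

theorem sum_filter_map_range (g : ℕ → Arc) (p q : Arc → Bool) (f : Arc → ℕ) (k : ℕ) :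
    ((((((List.range k).map g).filter p).filter q)).map f).sum =
      ∑ i ∈ Finset.range k, if p (g i) = true ∧ q (g i) = true then f (g i) else 0 := by
  induction k with
  | zero => simp
  | succ k ih =>
    rw [List.range_succ, List.map_append, List.filter_append, List.filter_append, List.map_append,
      List.sum_append, ih, Finset.sum_range_succ]
    congr 1
    by_cases hp : p (g k) = true
    · by_cases hq : q (g k) = true
      · simp [hp, hq]
      · simp [hp, hq]
    · simp [hp]

theorem wt_restr_permArcs {W : Mat} (hW : ∀ i, ent W i i = 0) (S : List ℕ) :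
    wt W (restr S (permArcs n C)) =
      ∑ x ∈ (Finset.range n).filter (fun x => x ∈ S), ent W x (cs C x) := by
  unfold wt restr permArcs
  rw [sum_filter_map_range, Finset.sum_filter]
  apply Finset.sum_congr rfl
  intro i _
  by_cases hi : i ∈ S
  · by_cases hf : i = C.getD i 0
    · have h1 : ent W i (cs C i) = 0 := by
        unfold cs
        rw [← hf]
        exact hW i
      rw [h1, if_pos hi, if_neg]
      simp only [Bool.not_eq_true', beq_eq_false_iff_ne, ne_eq, not_and]
      exact fun hcon => absurd hf hcon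
    · rw [if_pos hi, if_pos]
      · rfl
      · simp only [Bool.not_eq_true', beq_eq_false_iff_ne, ne_eq]
        exact ⟨hf, List.contains_iff_mem.2 hi⟩
  · rw [if_neg hi, if_neg]
    rintro ⟨_, hcon⟩
    exact hi (List.contains_iff_mem.1 hcon)

end Cov2

open Cov2 in
theorem cand_long {n : ℕ} {W : Mat} {C : List ℕ} {D spp : List Arc} (h : Cov n C D spp)
    (hW : ∀ i, ent W i i = 0)
    -- optimality of `C` for the weight on sets closed under `C`
    (hopt : ∀ S : List ℕ, S.Nodup → (∀ u ∈ S, u < n) → (∀ u ∈ S, C.getD u 0 ∈ S) →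
      ∀ P : List Arc, (P.map (fun a => a.1)).Nodup → (P.map (fun a => a.2)).Nodup →
        (∀ a ∈ P, a.1 ∈ S ∧ a.2 ∈ S) → wt W P ≤ wt W (restr S (permArcs n C)))
    {v : ℕ} (hv : v < n)
    (h2 : ∀ u ∈ comp n (full n C D) v, C.getD u 0 ≠ u → C.getD (C.getD u 0) 0 ≠ u) :
    isPC n (dropLightest n W C (comp n (full n C D) v)) = true ∧
      inside (comp n (full n C D) v) (dropLightest n W C (comp n (full n C D) v)) = true ∧
      wt2 n W C D spp (comp n (full n C D) v) ≤
        6 * wt W (dropLightest n W C (comp n (full n C D) v)) := by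
  have hC : PermL n C := ⟨h.clen, h.cnd, h.clt⟩
  have hG : ∀ a ∈ full n C D, a.1 < n ∧ a.2 < n := by
    intro a ha
    unfold full permArcs at ha
    rcases List.mem_append.1 ha with ha | ha
    · have h1 : (a.1, a.2) ∈ gr n C := (List.mem_filter.1 ha).1
      obtain ⟨h3, h4⟩ := mem_gr.1 h1
      exact ⟨h3, h4 ▸ hC.cs_lt h3⟩
    · exact h.dlt a ha
  set S := comp n (full n C D) v with hS
  have hmem : ∀ u, u ∈ S ↔ Conn (full n C D) v u := fun u => mem_comp hG hv
  have hstep : ∀ a ∈ full n C D, a.1 ∈ S → a.2 ∈ S := by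
    intro a ha h1
    rw [hmem] at h1 ⊢
    exact h1.tail (Or.inl ha)
  have hSn : ∀ u ∈ S, u < n := by
    intro u hu
    rw [hmem] at hu
    induction hu with
    | refl => exact hv
    | tail _ hs _ =>
      rcases hs with hs | hs
      · exact (hG _ hs).2
      · exact (hG _ hs).1
  have hSnd : S.Nodup := comp_nodup _ _ _
  have hSc : ∀ u ∈ S, cs C u ∈ S := by
    intro u hu
    by_cases hf : cs C u = u
    · rw [hf]; exact hu
    · apply hstep (u, cs C u) _ hu
      unfold full permArcs
      apply List.mem_append_left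
      rw [List.mem_filter]
      refine ⟨mem_gr.2 ⟨hSn u hu, rfl⟩, ?_⟩
      simp only [Bool.not_eq_true', beq_eq_false_iff_ne, ne_eq]
      exact fun hcon => hf hcon.symm
  have hInv0 : Inv n W C S [] := by
    refine ⟨by simp, by simp, by simp, ⟨fun _ => 0, by simp, fun _ => Nat.lt_of_le_of_lt (Nat.zero_le _) hv⟩, ?_, ?_⟩
    · rintro x ⟨a, ha, _⟩
      simp at ha
    · refine ⟨∅, ?_, by simp⟩
      intro x
      simp [Tch]
  have hdl : dropLightest n W C S = S.foldl (stp n W C S) [] := rfl
  obtain ⟨hI, _, hproc⟩ := hC.inv_foldl hW hSn hSc h2 S (fun u hu => hu) [] hInv0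
  rw [← hdl] at hI hproc
  set P := dropLightest n W C S with hP
  obtain ⟨r, hr, hrn⟩ := hI.rank
  refine ⟨?_, ?_, ?_⟩
  · rw [isPC_iff]
    exact ⟨hI.tails, hI.heads, fun a ha => ⟨hSn _ (hI.mem a ha).1, hSn _ (hI.mem a ha).2⟩,
      fun w _ => walk_of_rank r hr hrn w⟩
  · exact mem_inside.2 hI.mem
  · -- the weight
    have hspp : restr S spp = [] := by
      unfold restr
      rw [List.filter_eq_nil_iff]
      intro p hp hpS
      have hpS' : p.1 ∈ S := List.contains_iff_mem.1 hpS
      obtain ⟨h3, h4⟩ := h.sC p hp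
      have hne : p.1 ≠ p.2 := by
        intro hcon
        have h5 := h.snd
        rw [List.nodup_append] at h5
        exact h5.2.2 p.1 (List.mem_map.2 ⟨p, hp, rfl⟩) p.2 (List.mem_map.2 ⟨p, hp, rfl⟩) hcon
      apply h2 p.1 hpS'
      · rw [h3]; exact hne.symm
      · rw [h3, h4]
    have hD : wt W (restr S D) ≤ wt W (restr S (permArcs n C)) := by
      apply hopt S hSnd hSn hSc
      · exact h.dout.sublist (List.filter_sublist.map _)
      · exact h.din.sublist (List.filter_sublist.map _)
      · intro a ha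
        have h3 := List.mem_filter.1 ha
        have h4 : a.1 ∈ S := List.contains_iff_mem.1 h3.2
        refine ⟨h4, hstep a ?_ h4⟩
        unfold full
        exact List.mem_append_right _ h3.1
    have hCw : 2 * wt W (restr S (permArcs n C)) ≤ 3 * wt W P := by
      obtain ⟨T, hT, hTw⟩ := hI.weight
      refine le_trans ?_ hTw
      rw [wt_restr_permArcs hW]
      apply Nat.mul_le_mul_left
      rw [← Finset.sum_filter_add_sum_filter_not _ (fun x => x ∈ T)]
      have h3 : ∑ x ∈ ((Finset.range n).filter (fun x => x ∈ S)).filter (fun x => x ∉ T),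
          ent W x (cs C x) = 0 := by
        apply Finset.sum_eq_zero
        intro x hx
        simp only [Finset.mem_filter, Finset.mem_range] at hx
        rcases hproc x hx.1.2 with h4 | h4
        · exact absurd ((hT x).2 h4) hx.2
        · exact h4
      rw [h3, Nat.add_zero]
      apply Finset.sum_le_sum_of_subset
      intro x hx
      exact (Finset.mem_filter.1 hx).2
    unfold wt2
    rw [hspp]
    simp only [List.map_nil, List.sum_nil]
    omega

end Vale.Agent.Lib.P333.Alg
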