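import Mathlib
import Vale.Agent.Lib.P333.Col

/-! P333, module COL0: basic facts on colourings -/

namespace Vale.Agent.Lib.P333.Alg

/-! ### COL0: basic facts -/

theorem col0_walk_trans {P : List Arc} {k v x : ℕ} (h : walk P (k + 1) v = some x) :
    Relation.TransGen (fun a b => (a, b) ∈ P) v x := by
  induction k generalizing x with
  | zero =>
    rw [Nat.zero_add, walk_one] at h
    exact Relation.TransGen.single (next_mem h)
  | succ k ih =>
    rw [walk_succ, Option.bind_eq_some_iff] at h
    obtain ⟨y, hy, hy'⟩ := h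
    exact Relation.TransGen.tail (ih hy) (next_mem hy')

theorem col0_trans_walk {n : ℕ} {P : List Arc} (h : PC n P) {v x : ℕ}
    (hvx : Relation.TransGen (fun a b => (a, b) ∈ P) v x) : ∃ k, walk P (k + 1) v = some x := by
  induction hvx with
  | single h1 => exact ⟨0, by rw [Nat.zero_add, walk_one]; exact h.next_of_mem h1⟩
  | tail _ h1 ih =>
    obtain ⟨k, hk⟩ := ih
    refine ⟨k + 1, ?_⟩
    rw [walk_succ, hk]
    exact h.next_of_mem h1

/-- a path cover is a list of arcs with distinct tails, distinct heads and no directed cycle -/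
theorem pc_iff_acyclic (n : ℕ) (P : List Arc) :
    PC n P ↔ (P.map (fun a => a.1)).Nodup ∧ (P.map (fun a => a.2)).Nodup ∧
      (∀ a ∈ P, a.1 < n ∧ a.2 < n) ∧
      ∀ v, ¬ Relation.TransGen (fun a b => (a, b) ∈ P) v v := by
  constructor
  · intro h
    refine ⟨h.tails, h.heads, h.lt, ?_⟩
    intro v hv
    have hvn : v < n := by
      rw [Relation.TransGen.head'_iff] at hv
      obtain ⟨w, hw, _⟩ := hv
      exact (h.lt _ hw).1
    obtain ⟨k, hk⟩ := col0_trans_walk h hv
    exact h.walk_ne hvn (Nat.succ_pos k) hk
  · rintro ⟨h1, h2, h3, h4⟩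
    refine ⟨h1, h2, h3, ?_⟩
    intro v hv
    by_contra hcon
    rw [← Ne, Option.ne_none_iff_exists'] at hcon
    obtain ⟨x, hx⟩ := hcon
    have hsome : ∀ i ≤ n, ∃ y, walk P i v = some y := by
      intro i hi
      obtain ⟨d, hd⟩ := Nat.exists_eq_add_of_le hi
      rw [hd, walk_add, Option.bind_eq_some_iff] at hx
      obtain ⟨y, hy, _⟩ := hx
      exact ⟨y, hy⟩
    choose! f hf using hsome
    have hlt : ∀ i ≤ n, f i < n := by
      intro i hi
      have h5 := hf i hi
      cases i with
      | zero =>
        rw [walk_zero, Option.some_inj] at h5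
        omega
      | succ i =>
        rw [walk_succ, Option.bind_eq_some_iff] at h5
        obtain ⟨y, _, hy⟩ := h5
        exact (h3 _ (next_mem hy)).2
    have hmaps : Set.MapsTo f (Finset.range (n + 1) : Finset ℕ) (Finset.range n : Finset ℕ) := by
      intro i hi
      rw [Finset.coe_range, Set.mem_Iio] at hi ⊢
      exact hlt i (by omega)
    obtain ⟨i, hi, j, hj, hij, hfij⟩ := Finset.exists_ne_map_eq_of_card_lt_of_maps_to
      (by rw [Finset.card_range, Finset.card_range]; omega) hmaps
    rw [Finset.mem_range] at hi hj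
    have key : ∀ i j : ℕ, i < j → j ≤ n → f i = f j → False := by
      intro i j hlt' hjn hfe
      obtain ⟨d, hd⟩ := Nat.exists_eq_add_of_lt hlt'
      have e1 := hf j hjn
      have e2 := hf i (by omega)
      rw [hd, Nat.add_assoc, walk_add, e2] at e1
      have e3 : walk P (d + 1) (f i) = some (f i) := by
        rw [hfe, hd]
        rw [hfe, hd] at e1
        exact e1
      exact h4 _ (col0_walk_trans e3)
    rcases lt_or_gt_of_ne hij with h | h
    · exact key i j h (by omega) hfij
    · exact key j i h (by omega) hfij.symm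

theorem okCol_of_ok {n : ℕ} {B : List ℕ} {X : List CArc} (h : Ok n B X) : okCol n B X = true := by
  unfold okCol
  rw [Bool.and_eq_true, List.all_eq_true, List.all_eq_true]
  constructor
  · intro c hc
    rw [List.mem_range] at hc
    exact (isPC_iff _ _).2 (h.pc c hc)
  · intro b hb
    rw [List.all_eq_true]
    intro a ha
    rw [List.all_eq_true]
    intro a' ha'
    have := h.brk b hb a ha a' ha'
    rw [Bool.not_eq_true', Bool.and_eq_false_iff, Bool.and_eq_false_iff]
    simp only [beq_eq_false_iff_ne]
    tauto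

theorem ok_of_okCol {n : ℕ} {B : List ℕ} {X : List CArc} (hc : ∀ a ∈ X, a.2 < 3)
    (h : okCol n B X = true) : Ok n B X := by
  unfold okCol at h
  rw [Bool.and_eq_true, List.all_eq_true, List.all_eq_true] at h
  obtain ⟨h1, h2⟩ := h
  refine ⟨hc, ?_, ?_⟩
  · intro c hc'
    exact (isPC_iff _ _).1 (h1 c (List.mem_range.2 hc'))
  · intro b hb a ha a' ha' e1 e2 e3
    have h3 := h2 b hb
    rw [List.all_eq_true] at h3
    have h4 := h3 a ha
    rw [List.all_eq_true] at h4
    have h5 := h4 a' ha'
    rw [Bool.not_eq_true', Bool.and_eq_false_iff, Bool.and_eq_false_iff] at h5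
    simp only [beq_eq_false_iff_ne] at h5
    tauto

theorem words_succ (k : ℕ) :
    words (k + 1) = (words k).flatMap (fun w => (List.range 3).map (fun c => c :: w)) := by
  unfold words
  rw [List.range_succ (n := k), List.foldl_append]
  rfl

theorem mem_words {k : ℕ} {w : List ℕ} : w ∈ words k ↔ w.length = k ∧ ∀ c ∈ w, c < 3 := by
  induction k generalizing w with
  | zero =>
    have h0 : words 0 = [[]] := rfl
    rw [h0, List.mem_singleton, List.length_eq_zero_iff]
    constructor
    · rintro rfl
      simp
    · exact fun h => h.1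
  | succ k ih =>
    rw [words_succ, List.mem_flatMap]
    constructor
    · rintro ⟨w', hw', hw⟩
      rw [List.mem_map] at hw
      obtain ⟨c, hc, rfl⟩ := hw
      rw [List.mem_range] at hc
      obtain ⟨h1, h2⟩ := ih.1 hw'
      refine ⟨by rw [List.length_cons, h1], ?_⟩
      intro d hd
      rw [List.mem_cons] at hd
      rcases hd with rfl | hd
      · exact hc
      · exact h2 d hd
    · rintro ⟨h1, h2⟩
      cases w with
      | nil => simp at h1
      | cons c w' =>
        rw [List.length_cons] at h1
        refine ⟨w', ih.2 ⟨by omega, fun d hd => h2 d (List.mem_cons_of_mem _ hd)⟩, ?_⟩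
        rw [List.mem_map]
        exact ⟨c, List.mem_range.2 (h2 c List.mem_cons_self), rfl⟩

/-- brute force finds an extension if there is one -/
theorem insertGroup_ok {n : ℕ} {B : List ℕ} {X : List CArc} {g : List Arc} (hX : Ok n B X)
    (hg : g.length ≤ 4) (h : ∃ w ∈ words g.length, Ok n B (g.zip w ++ X)) :
    Ok n B (insertGroup n B X g) ∧ ∃ w ∈ words g.length, insertGroup n B X g = g.zip w ++ X := by
  obtain ⟨w, hw, hok⟩ := h
  unfold insertGroup
  rw [Nat.min_eq_left hg]
  have hsome : (((words g.length).map (fun w => g.zip w ++ X)).find?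
      (fun Y => okCol n B Y)).isSome := by
    rw [List.find?_isSome]
    exact ⟨g.zip w ++ X, List.mem_map.2 ⟨w, hw, rfl⟩, okCol_of_ok hok⟩
  obtain ⟨Y, hY⟩ := Option.isSome_iff_exists.1 hsome
  rw [hY, Option.getD_some]
  have h1 := List.find?_some hY
  have h2 := List.mem_of_find?_eq_some hY
  rw [List.mem_map] at h2
  obtain ⟨w', hw', rfl⟩ := h2
  refine ⟨ok_of_okCol ?_ h1, w', hw', rfl⟩
  intro a ha
  rw [List.mem_append] at ha
  rcases ha with ha | ha
  · have h3 := (List.of_mem_zip (a := a.1) (b := a.2) ha).2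
    exact (mem_words.1 hw').2 _ h3
  · exact hX.col a ha

end Vale.Agent.Lib.P333.Alg
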