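import Mathlib
import Vale.Agent.Lib.P333.Col
import Vale.Agent.Lib.P333.Col0

/-! P333, module COL1 -/

namespace Vale.Agent.Lib.P333.Alg

/-! ### COL1: inserting a vertex (criterion) -/

theorem mem_cls_iff {c : ℕ} {X : List CArc} {a : Arc} : a ∈ cls c X ↔ (a, c) ∈ X := by
  unfold cls
  rw [List.mem_map]
  constructor
  · rintro ⟨b, hb, rfl⟩
    rw [List.mem_filter] at hb
    have h1 : b.2 = c := by simpa using hb.2
    rw [← h1]
    exact hb.1
  · intro h
    exact ⟨(a, c), by rw [List.mem_filter]; exact ⟨h, by simp⟩, rfl⟩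

theorem cls_append (c : ℕ) (X Y : List CArc) : cls c (X ++ Y) = cls c X ++ cls c Y := by
  unfold cls
  rw [List.filter_append, List.map_append]

/-- first return: a walk to `z` in a graph which is the union of arcs at `z` and of arcs avoiding
`z` -/
theorem exists_last {R RX : ℕ → ℕ → Prop} {z : ℕ} (hRX : ∀ a b, R a b → a ≠ z → b ≠ z → RX a b)
    {x : ℕ} (h : Relation.ReflTransGen R x z) (hx : x ≠ z) :
    ∃ p, Relation.ReflTransGen RX x p ∧ R p z := by
  induction h using Relation.ReflTransGen.head_induction_on with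
  | refl => exact absurd rfl hx
  | head hab hbc ih =>
    rename_i a b
    by_cases hb : b = z
    · rw [hb] at hab
      exact ⟨a, Relation.ReflTransGen.refl, hab⟩
    · obtain ⟨p, hp, hpz⟩ := ih hb
      exact ⟨p, Relation.ReflTransGen.head (hRX _ _ hab hx hb) hp, hpz⟩

theorem trans_or {R RX : ℕ → ℕ → Prop} {z : ℕ} (hRX : ∀ a b, R a b → a ≠ z → b ≠ z → RX a b)
    {v w : ℕ} (h : Relation.TransGen R v w) :
    Relation.TransGen RX v w ∨
      (Relation.ReflTransGen R v z ∧ Relation.ReflTransGen R z w) := by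
  have step : ∀ a b, R a b → RX a b ∨ (a = z ∨ b = z) := by
    intro a b hab
    by_cases ha : a = z
    · exact Or.inr (Or.inl ha)
    · by_cases hb : b = z
      · exact Or.inr (Or.inr hb)
      · exact Or.inl (hRX a b hab ha hb)
  induction h with
  | single hab =>
    rcases step _ _ hab with h1 | h1 | h1
    · exact Or.inl (Relation.TransGen.single h1)
    · subst h1
      exact Or.inr ⟨Relation.ReflTransGen.refl, Relation.ReflTransGen.single hab⟩
    · subst h1
      exact Or.inr ⟨Relation.ReflTransGen.single hab, Relation.ReflTransGen.refl⟩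
  | tail hab hbc ih =>
    rename_i b c
    rcases ih with ih | ⟨ih1, ih2⟩
    · rcases step _ _ hbc with h1 | h1 | h1
      · exact Or.inl (ih.tail h1)
      · subst h1
        exact Or.inr ⟨hab.to_reflTransGen, Relation.ReflTransGen.single hbc⟩
      · subst h1
        exact Or.inr ⟨(hab.tail hbc).to_reflTransGen, Relation.ReflTransGen.refl⟩
    · exact Or.inr ⟨ih1, ih2.tail hbc⟩

/-- `Y` colours arcs at `z`, `X` colours arcs not at `z`; the union is valid iff local conditions
hold and no path passing through `z` closes a cycle -/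
theorem ok_insert {n : ℕ} {B : List ℕ} {X Y : List CArc} {z : ℕ} (hz : z < n) (hX : Ok n B X)
    (hXz : ∀ a ∈ X, inc z a.1 = false)
    (hYz : ∀ a ∈ Y, (a.1.1 = z ∧ a.1.2 ≠ z ∧ a.1.2 < n) ∨ (a.1.2 = z ∧ a.1.1 ≠ z ∧ a.1.1 < n))
    (hYc : ∀ a ∈ Y, a.2 < 3)
    -- arcs of `Y` leaving (entering) the same vertex have different colours
    (hYt : ∀ c < 3, ((cls c Y).map (fun a => a.1)).Nodup)
    (hYh : ∀ c < 3, ((cls c Y).map (fun a => a.2)).Nodup)
    -- no conflict with `X`
    (hXt : ∀ a ∈ Y, ∀ a' ∈ X, a.2 = a'.2 → a.1.1 ≠ a'.1.1)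
    (hXh : ∀ a ∈ Y, ∀ a' ∈ X, a.2 = a'.2 → a.1.2 ≠ a'.1.2)
    -- break vertices
    (hB : ∀ b ∈ B, ∀ a ∈ Y ++ X, ∀ a' ∈ Y ++ X, a.1.2 = b → a'.1.1 = b → a.2 ≠ a'.2)
    -- no cycle through `z`
    (hC : ∀ p q c, ((p, z), c) ∈ Y → ((z, q), c) ∈ Y → ¬ Reach (cls c X) q p) :
    Ok n B (Y ++ X) := by
  have hXz' : ∀ a ∈ X, a.1.1 ≠ z ∧ a.1.2 ≠ z := by
    intro a ha
    have h := hXz a ha
    unfold inc at h
    simpa using h
  refine ⟨?_, ?_, hB⟩
  · intro a ha
    rcases List.mem_append.1 ha with h | h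
    · exact hYc a h
    · exact hX.col a h
  · intro c hc
    obtain ⟨hX1, hX2, hX3, hX4⟩ := (pc_iff_acyclic n (cls c X)).1 (hX.pc c hc)
    rw [pc_iff_acyclic, cls_append]
    refine ⟨?_, ?_, ?_, ?_⟩
    · rw [List.map_append, List.nodup_append]
      refine ⟨hYt c hc, hX1, ?_⟩
      intro u hu v hv
      rw [List.mem_map] at hu hv
      obtain ⟨a, ha, rfl⟩ := hu
      obtain ⟨b, hb, rfl⟩ := hv
      exact hXt (a, c) (mem_cls_iff.1 ha) (b, c) (mem_cls_iff.1 hb) rfl
    · rw [List.map_append, List.nodup_append]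
      refine ⟨hYh c hc, hX2, ?_⟩
      intro u hu v hv
      rw [List.mem_map] at hu hv
      obtain ⟨a, ha, rfl⟩ := hu
      obtain ⟨b, hb, rfl⟩ := hv
      exact hXh (a, c) (mem_cls_iff.1 ha) (b, c) (mem_cls_iff.1 hb) rfl
    · intro a ha
      rcases List.mem_append.1 ha with h | h
      · rcases hYz (a, c) (mem_cls_iff.1 h) with h1 | h1
        · exact ⟨by rw [show a.1 = z from h1.1]; exact hz, h1.2.2⟩
        · exact ⟨h1.2.2, by rw [show a.2 = z from h1.1]; exact hz⟩
      · exact hX3 a h
    · have hRX : ∀ a b : ℕ, (a, b) ∈ cls c Y ++ cls c X → a ≠ z → b ≠ z →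
          (a, b) ∈ cls c X := by
        intro a b hab ha hb
        rcases List.mem_append.1 hab with h | h
        · rcases hYz ((a, b), c) (mem_cls_iff.1 h) with h1 | h1
          · exact absurd h1.1 ha
          · exact absurd h1.1 hb
        · exact h
      have hRY : ∀ a b : ℕ, (a, b) ∈ cls c Y ++ cls c X → (a = z ∨ b = z) →
          ((a, b), c) ∈ Y := by
        intro a b hab hz
        rcases List.mem_append.1 hab with h | h
        · exact mem_cls_iff.1 h
        · have h1 := hXz' ((a, b), c) (mem_cls_iff.1 h)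
          rcases hz with h2 | h2
          · exact absurd h2 h1.1
          · exact absurd h2 h1.2
      intro v hv
      rcases trans_or hRX hv with h | ⟨h1, h2⟩
      · exact hX4 v h
      · have h3 : Relation.TransGen (fun a b => (a, b) ∈ cls c Y ++ cls c X) z z :=
          (Relation.TransGen.trans_right h2 hv).trans_left h1
        obtain ⟨q, hzq, hqz⟩ := Relation.TransGen.head'_iff.1 h3
        have hY := hRY z q hzq (Or.inl rfl)
        have hq : q ≠ z := by
          rcases hYz _ hY with h4 | h4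
          · exact h4.2.1
          · exact absurd rfl h4.2.1
        obtain ⟨p, hp, hpz⟩ := exists_last hRX hqz hq
        exact hC p q c (hRY p z hpz (Or.inr rfl)) hY hp

end Vale.Agent.Lib.P333.Alg
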