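import Mathlib
import Vale.Agent.Lib.P333.Col
import Vale.Agent.Lib.P333.Col0
import Vale.Agent.Lib.P333.Col1

/-! P333, module COL2 -/

namespace Vale.Agent.Lib.P333.Alg

/-! ### COL2: deletion lemma 5.1 -/

/-- a permutation of an image lifts -/
theorem c2_perm_lift {α β : Type} (f : α → β) {g g' : List β} (h : g.Perm g') :
    ∀ l' : List α, l'.map f = g' → ∃ l : List α, l.Perm l' ∧ l.map f = g := by
  induction h with
  | nil => intro l' h'; exact ⟨l', List.Perm.refl _, h'⟩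
  | cons x _ ih =>
    intro l' h'
    obtain ⟨a, m, rfl, ha, hm⟩ := List.map_eq_cons_iff.1 h'
    obtain ⟨l, hl, hl'⟩ := ih m hm
    exact ⟨a :: l, hl.cons a, by rw [List.map_cons, ha, hl']⟩
  | swap x y t =>
    intro l' h'
    obtain ⟨a, m, rfl, ha, hm⟩ := List.map_eq_cons_iff.1 h'
    obtain ⟨b, m', rfl, hb, hm'⟩ := List.map_eq_cons_iff.1 hm
    exact ⟨b :: a :: m', List.Perm.swap a b m', by simp [ha, hb, hm']⟩
  | trans _ _ ih1 ih2 =>
    intro l' h'
    obtain ⟨l, hl, hl'⟩ := ih2 l' h'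
    obtain ⟨l2, hl2, hl2'⟩ := ih1 l hl'
    exact ⟨l2, hl2.trans hl, hl2'⟩

theorem c2_pc_perm {n : ℕ} {P P' : List Arc} (h : P.Perm P') (hP : PC n P) : PC n P' := by
  rw [pc_iff_acyclic] at hP ⊢
  obtain ⟨h1, h2, h3, h4⟩ := hP
  refine ⟨(h.map _).nodup_iff.1 h1, (h.map _).nodup_iff.1 h2, fun a ha => h3 a (h.mem_iff.2 ha),
    fun v hv => h4 v ?_⟩
  have hle : (fun a b => (a, b) ∈ P' : ℕ → ℕ → Prop) ≤ (fun a b => (a, b) ∈ P) :=
    fun a b hab => h.mem_iff.2 hab
  exact Relation.TransGen.mono hle v v hv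

theorem c2_ok_perm {n : ℕ} {B : List ℕ} {X X' : List CArc} (h : X.Perm X') (hX : Ok n B X) :
    Ok n B X' := by
  refine ⟨fun a ha => hX.col a (h.mem_iff.2 ha), fun c hc => ?_, fun b hb a ha a' ha' => ?_⟩
  · exact c2_pc_perm ((h.filter _).map _) (hX.pc c hc)
  · exact hX.brk b hb a (h.mem_iff.2 ha) a' (h.mem_iff.2 ha')

/-- colour `c` is allowed for the arc `e` -/
def C2Al (B : List ℕ) (X : List CArc) (e : Arc) (c : ℕ) : Prop :=
  ∀ a' ∈ X, a'.2 = c → e.1 ≠ a'.1.1 ∧ e.2 ≠ a'.1.2 ∧ (e.1 ∈ B → a'.1.2 ≠ e.1) ∧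
    (e.2 ∈ B → a'.1.1 ≠ e.2)

theorem c2_crit {n : ℕ} {B : List ℕ} {X Y : List CArc} {z : ℕ} (hz : z < n) (hX : Ok n B X)
    (hXz : ∀ a ∈ X, inc z a.1 = false)
    (hYz : ∀ a ∈ Y, (a.1.1 = z ∧ a.1.2 ≠ z ∧ a.1.2 < n) ∨ (a.1.2 = z ∧ a.1.1 ≠ z ∧ a.1.1 < n))
    (hYc : ∀ a ∈ Y, a.2 < 3) (hAl : ∀ a ∈ Y, C2Al B X a.1 a.2)
    (hP1 : Y.Pairwise (fun a a' => a.2 = a'.2 → a.1.1 ≠ a'.1.1 ∧ a.1.2 ≠ a'.1.2))
    (hP2 : ∀ a ∈ Y, ∀ a' ∈ Y, a.1.2 = z → a'.1.1 = z → a.2 = a'.2 →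
      z ∉ B ∧ ¬ Reach (cls a.2 X) a'.1.2 a.1.1) : Ok n B (Y ++ X) := by
  have hXz1 : ∀ a ∈ X, a.1.1 ≠ z ∧ a.1.2 ≠ z := by
    intro a ha
    have := hXz a ha
    simpa [inc] using this
  refine ok_insert hz hX hXz hYz hYc ?_ ?_ ?_ ?_ ?_ ?_
  · intro c _
    unfold cls
    rw [List.Nodup, List.pairwise_map, List.pairwise_map]
    refine (hP1.filter (fun a => a.2 == c)).imp_of_mem ?_
    intro a b ha hb hab
    have ha2 : a.2 = c := by simpa using (List.mem_filter.1 ha).2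
    have hb2 : b.2 = c := by simpa using (List.mem_filter.1 hb).2
    exact (hab (ha2.trans hb2.symm)).1
  · intro c _
    unfold cls
    rw [List.Nodup, List.pairwise_map, List.pairwise_map]
    refine (hP1.filter (fun a => a.2 == c)).imp_of_mem ?_
    intro a b ha hb hab
    have ha2 : a.2 = c := by simpa using (List.mem_filter.1 ha).2
    have hb2 : b.2 = c := by simpa using (List.mem_filter.1 hb).2
    exact (hab (ha2.trans hb2.symm)).2
  · intro a ha a' ha' h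
    exact (hAl a ha a' ha' h.symm).1
  · intro a ha a' ha' h
    exact (hAl a ha a' ha' h.symm).2.1
  · intro b hb a ha a' ha' h1 h2 h3
    rcases List.mem_append.1 ha with ha | ha <;> rcases List.mem_append.1 ha' with ha' | ha'
    · rcases hYz a ha with ⟨e1, e2, -⟩ | ⟨e1, e2, -⟩
      · -- `a = (z, b)`, `a' = (b, z)`
        rcases hYz a' ha' with ⟨e1', e2', -⟩ | ⟨e1', e2', -⟩
        · exact e2 (h1.trans (h2.symm.trans e1'))
        · refine (hP2 a' ha' a ha e1' e1 h3.symm).2 ?_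
          rw [h1, h2]
          exact Relation.ReflTransGen.refl
      · -- `b = z`
        have hbz : b = z := h1.symm.trans e1
        refine (hP2 a ha a' ha' e1 (h2.trans hbz) h3).1 ?_
        rw [← hbz]
        exact hb
    · have := (hAl a ha a' ha' h3.symm).2.2.2 (by rw [h1]; exact hb)
      exact this (h2.trans h1.symm)
    · have := (hAl a' ha' a ha h3).2.2.1 (by rw [h2]; exact hb)
      exact this (h1.trans h2.symm)
    · exact hX.brk b hb a ha a' ha' h1 h2 h3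
  · intro p q c h1 h2
    exact (hP2 _ h1 _ h2 rfl rfl rfl).2

/-- distinct colours -/
theorem c2_distinct {n : ℕ} {B : List ℕ} {X Y : List CArc} {z : ℕ} (hz : z < n) (hX : Ok n B X)
    (hXz : ∀ a ∈ X, inc z a.1 = false)
    (hYz : ∀ a ∈ Y, (a.1.1 = z ∧ a.1.2 ≠ z ∧ a.1.2 < n) ∨ (a.1.2 = z ∧ a.1.1 ≠ z ∧ a.1.1 < n))
    (hYc : ∀ a ∈ Y, a.2 < 3) (hAl : ∀ a ∈ Y, C2Al B X a.1 a.2)
    (hnd : (Y.map (fun a => a.2)).Nodup) : Ok n B (Y ++ X) := by
  refine c2_crit hz hX hXz hYz hYc hAl ?_ ?_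
  · rw [List.Nodup, List.pairwise_map] at hnd
    exact hnd.imp (fun h h' => absurd h' h)
  · intro a ha a' ha' h1 h2 h3
    have := List.inj_on_of_nodup_map hnd ha ha' h3
    subst this
    exfalso
    rcases hYz a ha with ⟨_, e2, -⟩ | ⟨_, e2, -⟩
    · exact e2 h1
    · exact e2 h2

theorem c2_len_one {α : Type} {l : List α} (h : l.length ≤ 1) {x y : α} (hx : x ∈ l) (hy : y ∈ l) :
    x = y := by
  match l, h with
  | [], _ => simp at hx
  | [a], _ =>
    rw [List.mem_singleton] at hx hy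
    rw [hx, hy]

/-- number of coloured arcs leaving `v` -/
def c2oX (X : List CArc) (v : ℕ) : ℕ := (X.filter (fun a => a.1.1 == v)).length
/-- number of coloured arcs entering `v` -/
def c2iX (X : List CArc) (v : ℕ) : ℕ := (X.filter (fun a => a.1.2 == v)).length

/-- degree conditions -/
structure C2Dg (B : List ℕ) (X : List CArc) (g : List Arc) : Prop where
  o : ∀ v, outd g v + c2oX X v ≤ 2
  i : ∀ v, ind g v + c2iX X v ≤ 2
  bo : ∀ b ∈ B, outd g b + c2oX X b ≤ 1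
  bi : ∀ b ∈ B, ind g b + c2iX X b ≤ 1

theorem c2_outd_pos {g : List Arc} {e : Arc} (h : e ∈ g) : 1 ≤ outd g e.1 :=
  List.length_pos_of_mem (List.mem_filter.2 ⟨h, by simp⟩)

theorem c2_ind_pos {g : List Arc} {e : Arc} (h : e ∈ g) : 1 ≤ ind g e.2 :=
  List.length_pos_of_mem (List.mem_filter.2 ⟨h, by simp⟩)

theorem c2_oX_pos {X : List CArc} {a : CArc} (h : a ∈ X) : 1 ≤ c2oX X a.1.1 :=
  List.length_pos_of_mem (List.mem_filter.2 ⟨h, by simp⟩)

theorem c2_iX_pos {X : List CArc} {a : CArc} (h : a ∈ X) : 1 ≤ c2iX X a.1.2 :=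
  List.length_pos_of_mem (List.mem_filter.2 ⟨h, by simp⟩)

theorem c2_oX_uniq {X : List CArc} {a a' : CArc} (h : a ∈ X) (h' : a' ∈ X) (e : a.1.1 = a'.1.1)
    (hX : c2oX X a.1.1 ≤ 1) : a = a' :=
  c2_len_one hX (List.mem_filter.2 ⟨h, by simp⟩) (List.mem_filter.2 ⟨h', by simp [e]⟩)

theorem c2_iX_uniq {X : List CArc} {a a' : CArc} (h : a ∈ X) (h' : a' ∈ X) (e : a.1.2 = a'.1.2)
    (hX : c2iX X a.1.2 ≤ 1) : a = a' :=
  c2_len_one hX (List.mem_filter.2 ⟨h, by simp⟩) (List.mem_filter.2 ⟨h', by simp [e]⟩)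

/-- conflicts: an arc `a'` of `X` in conflict with the arc `e` at `z` -/
theorem c2_not_al {B : List ℕ} {X : List CArc} {z : ℕ} (hXz : ∀ a ∈ X, a.1.1 ≠ z ∧ a.1.2 ≠ z)
    {e : Arc} {c : ℕ} (h : ¬ C2Al B X e c) :
    (e.2 = z → ∃ a' ∈ X, a'.2 = c ∧ (a'.1.1 = e.1 ∨ (e.1 ∈ B ∧ a'.1.2 = e.1))) ∧
    (e.1 = z → ∃ a' ∈ X, a'.2 = c ∧ (a'.1.2 = e.2 ∨ (e.2 ∈ B ∧ a'.1.1 = e.2))) := by
  unfold C2Al at h
  push Not at h
  obtain ⟨a', ha', hc, hh⟩ := h
  have hz1 := hXz a' ha'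
  constructor
  · intro he
    refine ⟨a', ha', hc, ?_⟩
    by_contra hcon
    push Not at hcon
    obtain ⟨h3, h4⟩ := hh (fun h => hcon.1 h.symm) (by rw [he]; exact fun h => hz1.2 h.symm)
      (fun hb h => hcon.2 hb h)
    rw [he] at h4
    exact hz1.1 h4
  · intro he
    refine ⟨a', ha', hc, ?_⟩
    by_contra hcon
    push Not at hcon
    obtain ⟨h3, h4⟩ := hh (by rw [he]; exact fun h => hz1.1 h.symm) (fun h => hcon.1 h.symm)
      (by rw [he]; exact fun _ => hz1.2)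
    exact hcon.2 h3 h4

/-- at most one colour is forbidden -/
theorem c2_forb_uniq {B : List ℕ} {X : List CArc} {g : List Arc} {z : ℕ}
    (hXz : ∀ a ∈ X, a.1.1 ≠ z ∧ a.1.2 ≠ z) (hD : C2Dg B X g) {e : Arc} (he : e ∈ g)
    (hez : e.1 = z ∨ e.2 = z) {c c' : ℕ} (h : ¬ C2Al B X e c) (h' : ¬ C2Al B X e c') : c = c' := by
  rcases hez with hez | hez
  · obtain ⟨a, ha, hac, h1⟩ := (c2_not_al hXz h).2 hez
    obtain ⟨a', ha', hac', h2⟩ := (c2_not_al hXz h').2 hez
    have k1 := hD.i e.2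
    have k2 := c2_ind_pos he
    by_cases hb : e.2 ∈ B
    · have k3 := hD.bi _ hb
      have k4 := hD.bo _ hb
      have k5 : ∀ x ∈ X, x.1.2 ≠ e.2 := by
        intro x hx hxe
        have := c2_iX_pos hx
        rw [hxe] at this
        omega
      have h1' : a.1.1 = e.2 := by
        rcases h1 with h1 | h1
        · exact absurd h1 (k5 a ha)
        · exact h1.2
      have h2' : a'.1.1 = e.2 := by
        rcases h2 with h2 | h2
        · exact absurd h2 (k5 a' ha')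
        · exact h2.2
      have := c2_oX_uniq ha ha' (h1'.trans h2'.symm) (by rw [h1']; omega)
      rw [← hac, ← hac', this]
    · have h1' : a.1.2 = e.2 := by
        rcases h1 with h1 | h1
        · exact h1
        · exact absurd h1.1 hb
      have h2' : a'.1.2 = e.2 := by
        rcases h2 with h2 | h2
        · exact h2
        · exact absurd h2.1 hb
      have := c2_iX_uniq ha ha' (h1'.trans h2'.symm) (by rw [h1']; omega)
      rw [← hac, ← hac', this]
  · obtain ⟨a, ha, hac, h1⟩ := (c2_not_al hXz h).1 hez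
    obtain ⟨a', ha', hac', h2⟩ := (c2_not_al hXz h').1 hez
    have k1 := hD.o e.1
    have k2 := c2_outd_pos he
    by_cases hb : e.1 ∈ B
    · have k3 := hD.bi _ hb
      have k4 := hD.bo _ hb
      have k5 : ∀ x ∈ X, x.1.1 ≠ e.1 := by
        intro x hx hxe
        have := c2_oX_pos hx
        rw [hxe] at this
        omega
      have h1' : a.1.2 = e.1 := by
        rcases h1 with h1 | h1
        · exact absurd h1 (k5 a ha)
        · exact h1.2
      have h2' : a'.1.2 = e.1 := by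
        rcases h2 with h2 | h2
        · exact absurd h2 (k5 a' ha')
        · exact h2.2
      have := c2_iX_uniq ha ha' (h1'.trans h2'.symm) (by rw [h1']; omega)
      rw [← hac, ← hac', this]
    · have h1' : a.1.1 = e.1 := by
        rcases h1 with h1 | h1
        · exact h1
        · exact absurd h1.1 hb
      have h2' : a'.1.1 = e.1 := by
        rcases h2 with h2 | h2
        · exact h2
        · exact absurd h2.1 hb
      have := c2_oX_uniq ha ha' (h1'.trans h2'.symm) (by rw [h1']; omega)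
      rw [← hac, ← hac', this]

/-- the forbidden colour (`3` if none) -/
theorem c2_forb {B : List ℕ} {X : List CArc} {g : List Arc} {z : ℕ}
    (hXz : ∀ a ∈ X, a.1.1 ≠ z ∧ a.1.2 ≠ z) (hD : C2Dg B X g) {e : Arc} (he : e ∈ g)
    (hez : e.1 = z ∨ e.2 = z) :
    ∃ f : Fin 4, (∀ c < 3, c ≠ f.1 → C2Al B X e c) ∧ (f.1 < 3 → ¬ C2Al B X e f.1) := by
  by_cases h : ∃ c, c < 3 ∧ ¬ C2Al B X e c
  · obtain ⟨c, hc, hn⟩ := h
    refine ⟨⟨c, by omega⟩, fun c' _ hne => ?_, fun _ => hn⟩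
    by_contra hcon
    exact hne (c2_forb_uniq hXz hD he hez hcon hn)
  · push Not at h
    exact ⟨⟨3, by omega⟩, fun c hc _ => h c hc, fun h3 => absurd h3 (by simp)⟩

theorem c2_sdr3 : ∀ f1 f2 f3 : Fin 4, (f1 = f2 ∧ f2 = f3 ∧ f1.1 < 3) ∨
    ∃ c1 c2 c3 : Fin 3, c1 ≠ c2 ∧ c1 ≠ c3 ∧ c2 ≠ c3 ∧ c1.1 ≠ f1.1 ∧ c2.1 ≠ f2.1 ∧ c3.1 ≠ f3.1 := by
  decide

theorem c2_sdr2 : ∀ f1 f2 : Fin 4, ∃ c1 c2 : Fin 3, c1 ≠ c2 ∧ c1.1 ≠ f1.1 ∧ c2.1 ≠ f2.1 := by
  decide

theorem c2_sdr1 : ∀ f1 : Fin 4, ∃ c1 : Fin 3, c1.1 ≠ f1.1 := by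
  decide

theorem c2_others : ∀ f : Fin 4, f.1 < 3 → ∃ a b : Fin 3, a ≠ b ∧ a.1 ≠ f.1 ∧ b.1 ≠ f.1 := by
  decide

theorem c2_sink {P : List Arc} {p v : ℕ} (hp : ∀ a ∈ P, a.1 ≠ p) (h : Reach P p v) : p = v := by
  induction h with
  | refl => rfl
  | tail _ h ih =>
    subst ih
    exact absurd rfl (hp _ h)

theorem c2_source {P : List Arc} {p v : ℕ} (hp : ∀ a ∈ P, a.2 ≠ p) (h : Reach P v p) : v = p := by
  rcases Relation.ReflTransGen.cases_tail h with h | ⟨c, -, h⟩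
  · exact h.symm
  · exact absurd rfl (hp _ h)

theorem c2_two_sinks {n : ℕ} {P : List Arc} (hP : PC n P) {p y q : ℕ} (hp : ∀ a ∈ P, a.1 ≠ p)
    (hy : ∀ a ∈ P, a.1 ≠ y) (h1 : Reach P q p) (h2 : Reach P q y) : p = y := by
  have hU : Relator.RightUnique (fun a b => (a, b) ∈ P) := fun a b c hb hc => by
    have := List.inj_on_of_nodup_map hP.tails hb hc rfl
    exact congrArg Prod.snd this
  rcases Relation.ReflTransGen.total_of_right_unique hU h1 h2 with h | h
  · exact c2_sink hp h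
  · exact (c2_sink hy h).symm

theorem c2_two_sources {n : ℕ} {P : List Arc} (hP : PC n P) {q x p : ℕ} (hq : ∀ a ∈ P, a.2 ≠ q)
    (hx : ∀ a ∈ P, a.2 ≠ x) (h1 : Reach P q p) (h2 : Reach P x p) : q = x := by
  have hU : Relator.RightUnique (Function.swap (fun a b => (a, b) ∈ P)) := fun a b c hb hc => by
    have := List.inj_on_of_nodup_map hP.heads (x := (b, a)) (y := (c, a)) hb hc rfl
    exact congrArg Prod.fst this
  have h1' := Relation.reflTransGen_swap.2 h1
  have h2' := Relation.reflTransGen_swap.2 h2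
  rcases Relation.ReflTransGen.total_of_right_unique hU h1' h2' with h | h
  · exact (c2_source hq (Relation.reflTransGen_swap.1 h)).symm
  · exact c2_source hx (Relation.reflTransGen_swap.1 h)

/-- the extension property -/
def C2Ex (n : ℕ) (B : List ℕ) (X : List CArc) (g : List Arc) : Prop :=
  ∃ Y : List CArc, Y.map (fun a => a.1) = g ∧ Ok n B (Y ++ X)

theorem C2Ex.perm {n : ℕ} {B : List ℕ} {X : List CArc} {g g' : List Arc} (h : g.Perm g')
    (he : C2Ex n B X g') : C2Ex n B X g := by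
  obtain ⟨Y, hY, hO⟩ := he
  obtain ⟨Y', hY', hY2⟩ := c2_perm_lift (fun a : CArc => a.1) h Y hY
  exact ⟨Y', hY2, c2_ok_perm (hY'.symm.append_right X) hO⟩

theorem C2Dg.perm {B : List ℕ} {X : List CArc} {g g' : List Arc} (h : g.Perm g') (hD : C2Dg B X g) :
    C2Dg B X g' := by
  have h1 : ∀ v, outd g' v = outd g v := fun v => ((h.filter _).length_eq).symm
  have h2 : ∀ v, ind g' v = ind g v := fun v => ((h.filter _).length_eq).symm
  exact ⟨fun v => by rw [h1]; exact hD.o v, fun v => by rw [h2]; exact hD.i v,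
    fun b hb => by rw [h1]; exact hD.bo b hb, fun b hb => by rw [h2]; exact hD.bi b hb⟩

section core
variable {n : ℕ} {B : List ℕ} {X : List CArc} {z : ℕ}

theorem c2_cls_tail {p c : ℕ} {q : ℕ} (h : C2Al B X (p, q) c) : ∀ a ∈ cls c X, a.1 ≠ p := by
  intro a ha hap
  unfold cls at ha
  obtain ⟨a', ha', rfl⟩ := List.mem_map.1 ha
  have h2 := List.mem_filter.1 ha'
  exact (h a' h2.1 (by simpa using h2.2)).1 hap.symm

theorem c2_cls_head {p c : ℕ} {q : ℕ} (h : C2Al B X (p, q) c) : ∀ a ∈ cls c X, a.2 ≠ q := by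
  intro a ha hap
  unfold cls at ha
  obtain ⟨a', ha', rfl⟩ := List.mem_map.1 ha
  have h2 := List.mem_filter.1 ha'
  exact (h a' h2.1 (by simpa using h2.2)).2.1 hap.symm

/-- two arcs entering `z`, one leaving; colours `a b a` -/
theorem c2_iio (hz : z < n) (hX : Ok n B X) (hXz : ∀ a ∈ X, inc z a.1 = false) {p y q a b : ℕ}
    (hp : p ≠ z) (hy : y ≠ z) (hq : q ≠ z) (hpn : p < n) (hyn : y < n) (hqn : q < n) (ha : a < 3)
    (hb : b < 3) (hab : a ≠ b) (h1 : C2Al B X (p, z) a) (h2 : C2Al B X (y, z) b)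
    (h3 : C2Al B X (z, q) a) (hzB : z ∉ B) (hr : ¬ Reach (cls a X) q p) :
    Ok n B ([((p, z), a), ((y, z), b), ((z, q), a)] ++ X) := by
  refine c2_crit hz hX hXz ?_ ?_ ?_ ?_ ?_
  · intro e he
    simp only [List.mem_cons, List.not_mem_nil, or_false] at he
    rcases he with rfl | rfl | rfl
    · exact Or.inr ⟨rfl, hp, hpn⟩
    · exact Or.inr ⟨rfl, hy, hyn⟩
    · exact Or.inl ⟨rfl, hq, hqn⟩
  · intro e he
    simp only [List.mem_cons, List.not_mem_nil, or_false] at he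
    rcases he with rfl | rfl | rfl <;> assumption
  · intro e he
    simp only [List.mem_cons, List.not_mem_nil, or_false] at he
    rcases he with rfl | rfl | rfl <;> assumption
  · simp only [List.pairwise_cons, List.mem_cons, List.not_mem_nil, or_false, forall_eq_or_imp,
      forall_eq, List.Pairwise.nil, and_true]
    refine ⟨⟨fun h => absurd h hab, fun _ => ⟨hp, hq.symm⟩⟩, ⟨fun h => absurd h hab.symm, ?_⟩⟩
    intro e he
    exact absurd he (by simp)
  · intro e he e' he' k1 k2 k3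
    simp only [List.mem_cons, List.not_mem_nil, or_false] at he he'
    rcases he with rfl | rfl | rfl <;> rcases he' with rfl | rfl | rfl
    · exact absurd k2 hp
    · exact absurd k2 hy
    · exact ⟨hzB, hr⟩
    · exact absurd k2 hp
    · exact absurd k2 hy
    · exact absurd k3 hab.symm
    · exact absurd k1 hq
    · exact absurd k1 hq
    · exact absurd k1 hq

/-- two arcs leaving `z`, one entering; colours `a b a` -/
theorem c2_ooi (hz : z < n) (hX : Ok n B X) (hXz : ∀ a ∈ X, inc z a.1 = false) {p x q a b : ℕ}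
    (hp : p ≠ z) (hx : x ≠ z) (hq : q ≠ z) (hpn : p < n) (hxn : x < n) (hqn : q < n) (ha : a < 3)
    (hb : b < 3) (hab : a ≠ b) (h1 : C2Al B X (z, q) a) (h2 : C2Al B X (z, x) b)
    (h3 : C2Al B X (p, z) a) (hzB : z ∉ B) (hr : ¬ Reach (cls a X) q p) :
    Ok n B ([((z, q), a), ((z, x), b), ((p, z), a)] ++ X) := by
  refine c2_crit hz hX hXz ?_ ?_ ?_ ?_ ?_
  · intro e he
    simp only [List.mem_cons, List.not_mem_nil, or_false] at he
    rcases he with rfl | rfl | rfl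
    · exact Or.inl ⟨rfl, hq, hqn⟩
    · exact Or.inl ⟨rfl, hx, hxn⟩
    · exact Or.inr ⟨rfl, hp, hpn⟩
  · intro e he
    simp only [List.mem_cons, List.not_mem_nil, or_false] at he
    rcases he with rfl | rfl | rfl <;> assumption
  · intro e he
    simp only [List.mem_cons, List.not_mem_nil, or_false] at he
    rcases he with rfl | rfl | rfl <;> assumption
  · simp only [List.pairwise_cons, List.mem_cons, List.not_mem_nil, or_false, forall_eq_or_imp,
      forall_eq, List.Pairwise.nil, and_true]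
    refine ⟨⟨fun h => absurd h hab, fun _ => ⟨hp.symm, hq⟩⟩, ⟨fun h => absurd h hab.symm, ?_⟩⟩
    intro e he
    exact absurd he (by simp)
  · intro e he e' he' k1 k2 k3
    simp only [List.mem_cons, List.not_mem_nil, or_false] at he he'
    rcases he with rfl | rfl | rfl <;> rcases he' with rfl | rfl | rfl
    · exact absurd k1 hq
    · exact absurd k1 hq
    · exact absurd k1 hq
    · exact absurd k1 hx
    · exact absurd k1 hx
    · exact absurd k1 hx
    · exact ⟨hzB, hr⟩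
    · exact absurd k3 hab
    · exact absurd k2 hp

theorem c2_par_in {g : List Arc} (hXz : ∀ a ∈ X, a.1.1 ≠ z ∧ a.1.2 ≠ z) (hD : C2Dg B X g) {p c : ℕ}
    (h : ¬ C2Al B X (p, z) c) (hn : 2 ≤ outd g p) : False := by
  obtain ⟨a, ha, -, h1⟩ := (c2_not_al hXz h).1 rfl
  have k1 := hD.o p
  rcases h1 with h1 | ⟨hb, -⟩
  · have := c2_oX_pos ha
    have h1' : a.1.1 = p := h1
    rw [h1'] at this
    omega
  · have := hD.bo p hb
    omega

theorem c2_par_out {g : List Arc} (hXz : ∀ a ∈ X, a.1.1 ≠ z ∧ a.1.2 ≠ z) (hD : C2Dg B X g) {q c : ℕ}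
    (h : ¬ C2Al B X (z, q) c) (hn : 2 ≤ ind g q) : False := by
  obtain ⟨a, ha, -, h1⟩ := (c2_not_al hXz h).2 rfl
  have k1 := hD.i q
  rcases h1 with h1 | ⟨hb, -⟩
  · have := c2_iX_pos ha
    have h1' : a.1.2 = q := h1
    rw [h1'] at this
    omega
  · have := hD.bi q hb
    omega

/-- the monochromatic case, two arcs in, one out -/
theorem c2_mono_iio (hz : z < n) (hX : Ok n B X) (hXz : ∀ a ∈ X, inc z a.1 = false)
    {p y q a b : ℕ} (hp : p ≠ z) (hy : y ≠ z) (hq : q ≠ z) (hpn : p < n) (hyn : y < n)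
    (hqn : q < n) (ha : a < 3) (hb : b < 3) (hab : a ≠ b) (h1 : C2Al B X (p, z) a)
    (h1' : C2Al B X (p, z) b) (h2 : C2Al B X (y, z) a) (h2' : C2Al B X (y, z) b)
    (h3 : C2Al B X (z, q) a) (hzB : z ∉ B) (hpy : p ≠ y) :
    C2Ex n B X [(p, z), (y, z), (z, q)] := by
  by_cases hr : Reach (cls a X) q p
  · have hr' : ¬ Reach (cls a X) q y := fun hr' =>
      hpy (c2_two_sinks (hX.pc a ha) (c2_cls_tail h1) (c2_cls_tail h2) hr hr')
    refine C2Ex.perm (List.Perm.swap (y, z) (p, z) [(z, q)]) ?_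
    exact ⟨_, rfl, c2_iio hz hX hXz hy hp hq hyn hpn hqn ha hb hab h2 h1' h3 hzB hr'⟩
  · exact ⟨_, rfl, c2_iio hz hX hXz hp hy hq hpn hyn hqn ha hb hab h1 h2' h3 hzB hr⟩

/-- the monochromatic case, two arcs out, one in -/
theorem c2_mono_ooi (hz : z < n) (hX : Ok n B X) (hXz : ∀ a ∈ X, inc z a.1 = false)
    {q x p a b : ℕ} (hq : q ≠ z) (hx : x ≠ z) (hp : p ≠ z) (hqn : q < n) (hxn : x < n)
    (hpn : p < n) (ha : a < 3) (hb : b < 3) (hab : a ≠ b) (h1 : C2Al B X (z, q) a)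
    (h1' : C2Al B X (z, q) b) (h2 : C2Al B X (z, x) a) (h2' : C2Al B X (z, x) b)
    (h3 : C2Al B X (p, z) a) (hzB : z ∉ B) (hqx : q ≠ x) :
    C2Ex n B X [(z, q), (z, x), (p, z)] := by
  by_cases hr : Reach (cls a X) q p
  · have hr' : ¬ Reach (cls a X) x p := fun hr' =>
      hqx (c2_two_sources (hX.pc a ha) (c2_cls_head h1) (c2_cls_head h2) hr hr')
    refine C2Ex.perm (List.Perm.swap (z, x) (z, q) [(p, z)]) ?_
    exact ⟨_, rfl, c2_ooi hz hX hXz hp hq hx hpn hqn hxn ha hb hab h2 h1' h3 hzB hr'⟩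
  · exact ⟨_, rfl, c2_ooi hz hX hXz hp hx hq hpn hxn hqn ha hb hab h1 h2' h3 hzB hr⟩

/-- the type of an arc at `z` -/
def C2Atz (n z : ℕ) (a : Arc) : Prop :=
  (a.1 = z ∧ a.2 ≠ z ∧ a.2 < n) ∨ (a.2 = z ∧ a.1 ≠ z ∧ a.1 < n)

theorem c2_core3 (hz : z < n) (hX : Ok n B X) (hXz : ∀ a ∈ X, inc z a.1 = false)
    {e1 e2 e3 : Arc} (hg1 : C2Atz n z e1) (hg2 : C2Atz n z e2) (hg3 : C2Atz n z e3)
    (hD : C2Dg B X [e1, e2, e3]) {f a b : ℕ} (ha : a < 3) (hb : b < 3)
    (hab : a ≠ b) (h1 : ∀ c < 3, c ≠ f → C2Al B X e1 c) (h2 : ∀ c < 3, c ≠ f → C2Al B X e2 c)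
    (h3 : ∀ c < 3, c ≠ f → C2Al B X e3 c) (haf : a ≠ f) (hbf : b ≠ f) (n1 : ¬ C2Al B X e1 f)
    (n2 : ¬ C2Al B X e2 f) (n3 : ¬ C2Al B X e3 f) : C2Ex n B X [e1, e2, e3] := by
  have hXz1 : ∀ a ∈ X, a.1.1 ≠ z ∧ a.1.2 ≠ z := by
    intro a ha
    have := hXz a ha
    simpa [inc] using this
  have hDo := hD.o z
  have hDi := hD.i z
  have hzB : z ∉ B := by
    intro hzB
    have k1 := hD.bo z hzB
    have k2 := hD.bi z hzB
    obtain ⟨p1, q1⟩ := e1
    obtain ⟨p2, q2⟩ := e2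
    obtain ⟨p3, q3⟩ := e3
    rcases hg1 with ⟨r1, s1, t1⟩ | ⟨r1, s1, t1⟩ <;> rcases hg2 with ⟨r2, s2, t2⟩ | ⟨r2, s2, t2⟩ <;>
      rcases hg3 with ⟨r3, s3, t3⟩ | ⟨r3, s3, t3⟩ <;> simp only at r1 s1 r2 s2 r3 s3 <;>
      subst r1 <;> subst r2 <;> subst r3 <;> simp [outd, ind, s1, s2, s3] at k1 k2 <;> omega
  -- two in, one out, in this order
  have kii : ∀ e1 e2 e3 : Arc, C2Dg B X [e1, e2, e3] → (e1.2 = z ∧ e1.1 ≠ z ∧ e1.1 < n) →
      (e2.2 = z ∧ e2.1 ≠ z ∧ e2.1 < n) → (e3.1 = z ∧ e3.2 ≠ z ∧ e3.2 < n) →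
      (∀ c < 3, c ≠ f → C2Al B X e1 c) → (∀ c < 3, c ≠ f → C2Al B X e2 c) →
      (∀ c < 3, c ≠ f → C2Al B X e3 c) → ¬ C2Al B X e1 f → C2Ex n B X [e1, e2, e3] := by
    rintro ⟨p, z1⟩ ⟨y, z2⟩ ⟨z3, q⟩ hD ⟨r1, s1, t1⟩ ⟨r2, s2, t2⟩ ⟨r3, s3, t3⟩ h1 h2 h3 n1
    simp only at r1 s1 t1 r2 s2 t2 r3 s3 t3
    subst r1
    subst r2
    subst r3
    refine c2_mono_iio hz hX hXz s1 s2 s3 t1 t2 t3 ha hb hab (h1 a ha haf) (h1 b hb hbf)
      (h2 a ha haf) (h2 b hb hbf) (h3 a ha haf) hzB ?_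
    rintro rfl
    refine c2_par_in hXz1 hD n1 ?_
    simp [outd]
  have koo : ∀ e1 e2 e3 : Arc, C2Dg B X [e1, e2, e3] → (e1.1 = z ∧ e1.2 ≠ z ∧ e1.2 < n) →
      (e2.1 = z ∧ e2.2 ≠ z ∧ e2.2 < n) → (e3.2 = z ∧ e3.1 ≠ z ∧ e3.1 < n) →
      (∀ c < 3, c ≠ f → C2Al B X e1 c) → (∀ c < 3, c ≠ f → C2Al B X e2 c) →
      (∀ c < 3, c ≠ f → C2Al B X e3 c) → ¬ C2Al B X e1 f → C2Ex n B X [e1, e2, e3] := by
    rintro ⟨z1, q⟩ ⟨z2, x⟩ ⟨p, z3⟩ hD ⟨r1, s1, t1⟩ ⟨r2, s2, t2⟩ ⟨r3, s3, t3⟩ h1 h2 h3 n1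
    simp only at r1 s1 t1 r2 s2 t2 r3 s3 t3
    subst r1
    subst r2
    subst r3
    refine c2_mono_ooi hz hX hXz s1 s2 s3 t1 t2 t3 ha hb hab (h1 a ha haf) (h1 b hb hbf)
      (h2 a ha haf) (h2 b hb hbf) (h3 a ha haf) hzB ?_
    rintro rfl
    refine c2_par_out hXz1 hD n1 ?_
    simp [ind]
  have hperm1 : [e1, e2, e3].Perm [e1, e3, e2] := (List.Perm.swap e3 e2 []).cons e1
  have hperm2 : [e1, e2, e3].Perm [e2, e3, e1] :=
    (List.Perm.swap e2 e1 [e3]).trans ((List.Perm.swap e3 e1 []).cons e2)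
  rcases hg1 with g1 | g1 <;> rcases hg2 with g2 | g2 <;> rcases hg3 with g3 | g3
  · exfalso
    simp [outd, g1.1, g2.1, g3.1] at hDo
    omega
  · exact koo e1 e2 e3 hD g1 g2 g3 h1 h2 h3 n1
  · exact C2Ex.perm hperm1 (koo e1 e3 e2 (hD.perm hperm1) g1 g3 g2 h1 h3 h2 n1)
  · exact C2Ex.perm hperm2 (kii e2 e3 e1 (hD.perm hperm2) g2 g3 g1 h2 h3 h1 n2)
  · exact C2Ex.perm hperm2 (koo e2 e3 e1 (hD.perm hperm2) g2 g3 g1 h2 h3 h1 n2)
  · exact C2Ex.perm hperm1 (kii e1 e3 e2 (hD.perm hperm1) g1 g3 g2 h1 h3 h2 n1)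
  · exact kii e1 e2 e3 hD g1 g2 g3 h1 h2 h3 n1
  · exfalso
    simp [ind, g1.1, g2.1, g3.1] at hDi
    omega

theorem c2_core (hz : z < n) (hX : Ok n B X) (hXz : ∀ a ∈ X, inc z a.1 = false) (g : List Arc)
    (hg : ∀ a ∈ g, C2Atz n z a) (hD : C2Dg B X g) (hlen : g.length ≤ 3) : C2Ex n B X g := by
  have hXz1 : ∀ a ∈ X, a.1.1 ≠ z ∧ a.1.2 ≠ z := by
    intro a ha
    have := hXz a ha
    simpa [inc] using this
  have hgz : ∀ a ∈ g, a.1 = z ∨ a.2 = z := fun a ha => (hg a ha).imp (fun h => h.1) (fun h => h.1)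
  match g, hlen with
  | [], _ => exact ⟨[], rfl, hX⟩
  | [e1], _ =>
    obtain ⟨f1, k1, -⟩ := c2_forb hXz1 hD (e := e1) (by simp) (hgz e1 (by simp))
    obtain ⟨c1, d1⟩ := c2_sdr1 f1
    refine ⟨[(e1, c1.1)], rfl, c2_distinct hz hX hXz ?_ ?_ ?_ ?_⟩
    · intro a ha
      rw [List.mem_singleton] at ha
      subst ha
      exact hg e1 (by simp)
    · intro a ha
      rw [List.mem_singleton] at ha
      subst ha
      exact c1.2
    · intro a ha
      rw [List.mem_singleton] at ha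
      subst ha
      exact k1 _ c1.2 d1
    · simp
  | [e1, e2], _ =>
    obtain ⟨f1, k1, -⟩ := c2_forb hXz1 hD (e := e1) (by simp) (hgz e1 (by simp))
    obtain ⟨f2, k2, -⟩ := c2_forb hXz1 hD (e := e2) (by simp) (hgz e2 (by simp))
    obtain ⟨c1, c2, hne, d1, d2⟩ := c2_sdr2 f1 f2
    refine ⟨[(e1, c1.1), (e2, c2.1)], rfl, c2_distinct hz hX hXz ?_ ?_ ?_ ?_⟩
    · intro a ha
      simp only [List.mem_cons, List.not_mem_nil, or_false] at ha
      rcases ha with rfl | rfl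
      · exact hg e1 (by simp)
      · exact hg e2 (by simp)
    · intro a ha
      simp only [List.mem_cons, List.not_mem_nil, or_false] at ha
      rcases ha with rfl | rfl
      · exact c1.2
      · exact c2.2
    · intro a ha
      simp only [List.mem_cons, List.not_mem_nil, or_false] at ha
      rcases ha with rfl | rfl
      · exact k1 _ c1.2 d1
      · exact k2 _ c2.2 d2
    · simp [Fin.val_inj, hne]
  | [e1, e2, e3], _ =>
    obtain ⟨f1, k1, m1⟩ := c2_forb hXz1 hD (e := e1) (by simp) (hgz e1 (by simp))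
    obtain ⟨f2, k2, m2⟩ := c2_forb hXz1 hD (e := e2) (by simp) (hgz e2 (by simp))
    obtain ⟨f3, k3, m3⟩ := c2_forb hXz1 hD (e := e3) (by simp) (hgz e3 (by simp))
    rcases c2_sdr3 f1 f2 f3 with ⟨e12, e23, hf⟩ | ⟨c1, c2, c3, n12, n13, n23, d1, d2, d3⟩
    · subst e12
      subst e23
      obtain ⟨a, b, hab, haf, hbf⟩ := c2_others f1 hf
      exact c2_core3 hz hX hXz (hg e1 (by simp)) (hg e2 (by simp)) (hg e3 (by simp)) hD a.2 b.2
        (fun h => hab (Fin.ext h)) k1 k2 k3 haf hbf (m1 hf) (m2 hf) (m3 hf)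
    · refine ⟨[(e1, c1.1), (e2, c2.1), (e3, c3.1)], rfl, c2_distinct hz hX hXz ?_ ?_ ?_ ?_⟩
      · intro a ha
        simp only [List.mem_cons, List.not_mem_nil, or_false] at ha
        rcases ha with rfl | rfl | rfl
        · exact hg e1 (by simp)
        · exact hg e2 (by simp)
        · exact hg e3 (by simp)
      · intro a ha
        simp only [List.mem_cons, List.not_mem_nil, or_false] at ha
        rcases ha with rfl | rfl | rfl
        · exact c1.2
        · exact c2.2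
        · exact c3.2
      · intro a ha
        simp only [List.mem_cons, List.not_mem_nil, or_false] at ha
        rcases ha with rfl | rfl | rfl
        · exact k1 _ c1.2 d1
        · exact k2 _ c2.2 d2
        · exact k3 _ c3.2 d3
      · simp [Fin.val_inj, n12, n13, n23]

end core

theorem c2_length_inc (G : List Arc) (z : ℕ) (hl : ∀ a ∈ G, a.1 ≠ a.2) :
    (G.filter (fun a => inc z a)).length = deg G z := by
  unfold deg
  induction G with
  | nil => rfl
  | cons a G ih =>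
    have h1 := ih fun b hb => hl b (List.mem_cons_of_mem a hb)
    have h2 := hl a (List.mem_cons_self)
    by_cases ha : a.1 = z
    · have hb : a.2 ≠ z := fun h => h2 (ha.trans h.symm)
      simp only [List.filter_cons, inc, ha, beq_self_eq_true, Bool.true_or, if_true,
        List.length_cons]
      simp only [inc] at h1
      have h3 : (a.2 == z) = false := by simpa using hb
      simp only [h3, Bool.false_eq_true, if_false]
      omega
    · have h3 : (a.1 == z) = false := by simpa using ha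
      simp only [inc] at h1
      by_cases hb : a.2 = z
      · simp only [List.filter_cons, inc, h3, hb, beq_self_eq_true, Bool.false_or, if_true,
          List.length_cons, Bool.false_eq_true, if_false]
        omega
      · have h4 : (a.2 == z) = false := by simpa using hb
        simp only [List.filter_cons, inc, h3, h4, Bool.false_or, Bool.false_eq_true, if_false]
        exact h1

theorem c2_count {X : List CArc} {G : List Arc} {z : ℕ} (f : Arc → Bool)
    (hXG : (arcs X).Perm (G.filter (fun a => !(inc z a)))) :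
    ((G.filter (fun a => inc z a)).filter f).length + (X.filter (fun a => f a.1)).length =
      (G.filter f).length := by
  have h1 : (X.filter (fun a => f a.1)).length = ((arcs X).filter f).length := by
    unfold arcs
    rw [List.filter_map, List.length_map]
    rfl
  rw [h1, (hXG.filter f).length_eq, List.length_eq_length_filter_add (l := G.filter f)
    (fun a => inc z a), List.filter_filter, List.filter_filter, List.filter_filter,
    List.filter_filter]
  congr 2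
  · exact List.filter_congr fun a _ => Bool.and_comm _ _
  · exact List.filter_congr fun a _ => Bool.and_comm _ _

theorem ext_small {n : ℕ} {B : List ℕ} {G : List Arc} {X : List CArc} {z : ℕ} (hG : Good n B G)
    (hX : Ok n B X) (hXG : (arcs X).Perm (G.filter (fun a => !(inc z a)))) (hz : deg G z ≤ 3) :
    ∃ w ∈ words (G.filter (fun a => inc z a)).length,
      Ok n B ((G.filter (fun a => inc z a)).zip w ++ X) := by
  set g := G.filter (fun a => inc z a) with hg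
  have hlen : g.length ≤ 3 := by rw [hg, c2_length_inc G z hG.loopless]; exact hz
  have hXz : ∀ a ∈ X, inc z a.1 = false := by
    intro a ha
    have h1 : a.1 ∈ arcs X := List.mem_map.2 ⟨a, ha, rfl⟩
    have h2 := (List.mem_filter.1 (hXG.mem_iff.1 h1)).2
    simpa using h2
  have hatz : ∀ a ∈ g, C2Atz n z a := by
    intro a ha
    obtain ⟨h1, h2⟩ := List.mem_filter.1 ha
    have h3 := hG.loopless a h1
    have h4 := hG.lt a h1
    have h5 : a.1 = z ∨ a.2 = z := by simpa [inc] using h2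
    rcases h5 with h5 | h5
    · exact Or.inl ⟨h5, fun h => h3 (h5.trans h.symm), h4.2⟩
    · exact Or.inr ⟨h5, fun h => h3 (h.trans h5.symm), h4.1⟩
  have hD : C2Dg B X g := by
    have ho : ∀ v, outd g v + c2oX X v = outd G v := fun v => c2_count (fun a => a.1 == v) hXG
    have hi : ∀ v, ind g v + c2iX X v = ind G v := fun v => c2_count (fun a => a.2 == v) hXG
    exact ⟨fun v => (ho v).le.trans (hG.out v), fun v => (hi v).le.trans (hG.inn v),
      fun b hb => (ho b).le.trans (hG.bout b hb), fun b hb => (hi b).le.trans (hG.binn b hb)⟩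
  have hex : C2Ex n B X g := by
    by_cases hzn : z < n
    · exact c2_core hzn hX hXz g hatz hD hlen
    · have hnil : g = [] := by
        rw [List.eq_nil_iff_forall_not_mem]
        intro a ha
        have h4 := hG.lt a (List.mem_filter.1 ha).1
        rcases hatz a ha with h | h
        · have := h.1
          omega
        · have := h.1
          omega
      rw [hnil]
      exact ⟨[], rfl, hX⟩
  obtain ⟨Y, hY, hO⟩ := hex
  refine ⟨Y.map (fun a => a.2), mem_words.2 ⟨?_, ?_⟩, ?_⟩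
  · rw [List.length_map, ← hY, List.length_map]
  · intro c hc
    obtain ⟨a, ha, rfl⟩ := List.mem_map.1 hc
    exact hO.col a (List.mem_append_left _ ha)
  · have hzip : g.zip (Y.map (fun a => a.2)) = Y := by
      rw [← hY, List.zip_map']
      simp
    rw [hzip]
    exact hO

end Vale.Agent.Lib.P333.Alg
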