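import Mathlib
import Vale.Agent.Lib.P333.ElimDefs
import Vale.Agent.Lib.P333.Col0
import Vale.Agent.Lib.P333.Col2

/-! P333, module ELIM: blueprint 5.2 -/

namespace Vale.Agent.Lib.P333.Alg

/-! ### auxiliary facts -/

theorem length_filter_filter_le {α : Type*} (p q : α → Bool) (l : List α) :
    ((l.filter q).filter p).length ≤ (l.filter p).length := by
  rw [List.filter_filter]
  induction l with
  | nil => simp
  | cons a l ih =>
    simp only [List.filter_cons]
    cases p a <;> cases q a <;> simp <;> omega

theorem length_filter_or_le {α : Type*} (p q : α → Bool) (l : List α) :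
    (l.filter (fun a => p a || q a)).length ≤ (l.filter p).length + (l.filter q).length := by
  induction l with
  | nil => simp
  | cons a l ih =>
    simp only [List.filter_cons]
    cases p a <;> cases q a <;> simp <;> omega

theorem deg_filter_le (q : Arc → Bool) (G : List Arc) (v : ℕ) : deg (G.filter q) v ≤ deg G v := by
  unfold deg
  exact Nat.add_le_add (length_filter_filter_le _ _ _) (length_filter_filter_le _ _ _)

theorem Good.filter {n : ℕ} {B : List ℕ} {G : List Arc} (hG : Good n B G) (q : Arc → Bool) :
    Good n B (G.filter q) where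
  lt a ha := hG.lt a (List.mem_of_mem_filter ha)
  loopless a ha := hG.loopless a (List.mem_of_mem_filter ha)
  out v := (length_filter_filter_le _ _ _).trans (hG.out v)
  inn v := (length_filter_filter_le _ _ _).trans (hG.inn v)
  bout b hb := (length_filter_filter_le _ _ _).trans (hG.bout b hb)
  binn b hb := (length_filter_filter_le _ _ _).trans (hG.binn b hb)

theorem Good.deg_le {n : ℕ} {B : List ℕ} {G : List Arc} (hG : Good n B G) (v : ℕ) :
    deg G v ≤ 4 := by
  have h1 := hG.out v
  have h2 := hG.inn v
  unfold outd at h1
  unfold ind at h2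
  unfold deg
  omega

theorem deg_pos_iff {G : List Arc} {v : ℕ} : 0 < deg G v ↔ ∃ a ∈ G, inc v a = true := by
  unfold deg inc
  constructor
  · intro h
    rcases Nat.eq_zero_or_pos (G.filter (fun a => a.1 == v)).length with h0 | h0
    · have h1 : 0 < (G.filter (fun a => a.2 == v)).length := by omega
      obtain ⟨a, ha⟩ := List.length_pos_iff_exists_mem.mp h1
      rw [List.mem_filter] at ha
      exact ⟨a, ha.1, by simp [ha.2]⟩
    · obtain ⟨a, ha⟩ := List.length_pos_iff_exists_mem.mp h0
      rw [List.mem_filter] at ha
      exact ⟨a, ha.1, by simp [ha.2]⟩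
  · rintro ⟨a, ha, h⟩
    rw [Bool.or_eq_true] at h
    rcases h with h | h
    · have : 0 < (G.filter (fun a => a.1 == v)).length :=
        List.length_pos_iff_exists_mem.mpr ⟨a, List.mem_filter.mpr ⟨ha, h⟩⟩
      omega
    · have : 0 < (G.filter (fun a => a.2 == v)).length :=
        List.length_pos_iff_exists_mem.mpr ⟨a, List.mem_filter.mpr ⟨ha, h⟩⟩
      omega

/-- an arc at `z` and `v` is lost by deleting `z` -/
theorem deg_delete_lt {G : List Arc} {v z : ℕ} {a : Arc} (ha : a ∈ G) (hv : inc v a = true)
    (hz : inc z a = true) : deg (G.filter (fun a => !(inc z a))) v < deg G v := by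
  have key : ∀ p : Arc → Bool, p a = true →
      ((G.filter (fun a => !(inc z a))).filter p).length < (G.filter p).length := by
    intro p hp
    rw [List.filter_filter]
    have h1 : (G.filter (fun a => p a && !(inc z a))) = (G.filter p).filter (fun a => !(inc z a)) := by
      rw [List.filter_filter]
      congr 1
      funext x
      exact Bool.and_comm _ _
    rw [h1]
    refine List.length_filter_lt_length_iff_exists.mpr ⟨a, List.mem_filter.mpr ⟨ha, hp⟩, ?_⟩
    simp [hz]
  unfold inc at hv
  rw [Bool.or_eq_true] at hv
  unfold deg
  rcases hv with hv | hv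
  · have h1 := key (fun a => a.1 == v) hv
    have h2 := length_filter_filter_le (fun a : Arc => a.2 == v) (fun a => !(inc z a)) G
    omega
  · have h1 := key (fun a => a.2 == v) hv
    have h2 := length_filter_filter_le (fun a : Arc => a.1 == v) (fun a => !(inc z a)) G
    omega

theorem deg_delete_self (G : List Arc) (z : ℕ) : deg (G.filter (fun a => !(inc z a))) z = 0 := by
  by_contra h
  obtain ⟨a, ha, hz⟩ := deg_pos_iff.mp (Nat.pos_of_ne_zero h)
  rw [List.mem_filter] at ha
  simp [hz] at ha

theorem Conn.deg_pos {G : List Arc} {u v : ℕ} (h : Conn G u v) (hu : 0 < deg G u) :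
    0 < deg G v := by
  induction h with
  | refl => exact hu
  | tail _ hbc _ =>
    rcases hbc with h | h
    · exact deg_pos_iff.mpr ⟨_, h, by simp [inc]⟩
    · exact deg_pos_iff.mpr ⟨_, h, by simp [inc]⟩

theorem conn_delete {n : ℕ} {B : List ℕ} {G : List Arc} (hG : Good n B G) (z : ℕ) {w x : ℕ}
    (hw : 0 < deg (G.filter (fun a => !(inc z a))) w) (h : Conn G w x) :
    Conn (G.filter (fun a => !(inc z a))) w x ∨
      ∃ u, Conn (G.filter (fun a => !(inc z a))) w u ∧
        0 < deg (G.filter (fun a => !(inc z a))) u ∧
        deg (G.filter (fun a => !(inc z a))) u ≤ 3 := by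
  induction h with
  | refl => exact Or.inl Relation.ReflTransGen.refl
  | @tail y x _ hyx ih =>
    rcases ih with ih | ih
    · have hy := Conn.deg_pos ih hw
      have hyz : y ≠ z := by
        rintro rfl
        rw [deg_delete_self] at hy
        exact lt_irrefl _ hy
      by_cases hxz : x = z
      · right
        refine ⟨y, ih, hy, ?_⟩
        have h4 := hG.deg_le y
        have h5 : deg (G.filter (fun a => !(inc z a))) y < deg G y := by
          rcases hyx with h | h
          · exact deg_delete_lt h (by simp [inc]) (by simp [inc, hxz])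
          · exact deg_delete_lt h (by simp [inc]) (by simp [inc, hxz])
        omega
      · left
        refine Relation.ReflTransGen.tail ih ?_
        rcases hyx with h | h
        · left; exact List.mem_filter.mpr ⟨h, by simp [inc, hyz, hxz]⟩
        · right; exact List.mem_filter.mpr ⟨h, by simp [inc, hyz, hxz]⟩
    · exact Or.inr ih

theorem Deficient.delete {n : ℕ} {B : List ℕ} {G : List Arc} (hG : Good n B G)
    (hD : Deficient G) (z : ℕ) : Deficient (G.filter (fun a => !(inc z a))) := by
  intro w hw
  obtain ⟨u, hu, hu0, hu3⟩ := hD w (hw.trans_le (deg_filter_le _ _ _))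
  rcases conn_delete hG z hw hu with h | h
  · exact ⟨u, h, Conn.deg_pos h hw, (deg_filter_le _ _ _).trans hu3⟩
  · exact h

theorem deficient_delete {n : ℕ} {B : List ℕ} {G : List Arc} (hG : Good n B G) (z : ℕ)
    (h : ∀ v, 0 < deg G v → Conn G v z) : Deficient (G.filter (fun a => !(inc z a))) := by
  intro w hw
  rcases conn_delete hG z hw (h w (hw.trans_le (deg_filter_le _ _ _))) with h1 | h1
  · have := Conn.deg_pos h1 hw
    rw [deg_delete_self] at this
    exact absurd this (lt_irrefl _)
  · exact h1

/-! ### ELIM -/

/-- number of vertices of positive degree -/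
def posv (n : ℕ) (G : List Arc) : ℕ := ((List.range n).filter (fun v => decide (0 < deg G v))).length

theorem posv_delete_lt {n : ℕ} {G : List Arc} {z : ℕ} (hz : z < n) (hd : 0 < deg G z) :
    posv n (G.filter (fun a => !(inc z a))) < posv n G := by
  unfold posv
  have h1 : (List.range n).filter (fun v => decide (0 < deg (G.filter (fun a => !(inc z a))) v)) =
      ((List.range n).filter (fun v => decide (0 < deg G v))).filter
        (fun v => decide (0 < deg (G.filter (fun a => !(inc z a))) v)) := by
    rw [List.filter_filter]
    refine List.filter_congr fun v _ => ?_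
    by_cases h : 0 < deg (G.filter (fun a => !(inc z a))) v
    · have := h.trans_le (deg_filter_le _ _ _)
      simp [h, this]
    · simp [h]
  rw [h1]
  refine List.length_filter_lt_length_iff_exists.mpr ⟨z, ?_, ?_⟩
  · exact List.mem_filter.mpr ⟨List.mem_range.mpr hz, by simp [hd]⟩
  · rw [deg_delete_self]; simp

/-- the invariant of the elimination -/
structure ElimInv (n : ℕ) (B : List ℕ) (G : List Arc) (s : List Arc × List (List Arc)) :
    Prop where
  good : Good n B s.1
  defi : Deficient s.1
  ext : ∀ X : List CArc, Ok n B X → (arcs X).Perm s.1 →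
    Ok n B (colour n B X s.2) ∧ (arcs (colour n B X s.2)).Perm G

theorem ElimInv.step {n : ℕ} {B : List ℕ} {G : List Arc} {s : List Arc × List (List Arc)}
    (h : ElimInv n B G s) : ElimInv n B G (elimStep n s) := by
  unfold elimStep
  split
  · exact h
  · rename_i v hv
    have hv' := List.find?_some hv
    rw [Bool.and_eq_true, decide_eq_true_eq, decide_eq_true_eq] at hv'
    refine ⟨h.good.filter _, Deficient.delete h.good h.defi v, ?_⟩
    intro X hX hXp
    have hlen : (s.1.filter (fun a => inc v a)).length ≤ 4 := by
      have h1 := length_filter_or_le (fun a : Arc => a.1 == v) (fun a => a.2 == v) s.1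
      have h2 : deg s.1 v ≤ 3 := hv'.2
      unfold deg at h2
      have h3 : (s.1.filter (fun a => inc v a)).length ≤ 3 := h1.trans h2
      omega
    have hext := ext_small h.good hX hXp hv'.2
    obtain ⟨h1, w, hw, h2⟩ := insertGroup_ok hX hlen hext
    have hwl : w.length = (s.1.filter (fun a => inc v a)).length := (mem_words.mp hw).1
    have hp : (arcs (insertGroup n B X (s.1.filter (fun a => inc v a)))).Perm s.1 := by
      rw [h2]
      unfold arcs
      rw [List.map_append, List.map_fst_zip (by omega)]
      have h3 : (List.map (fun a : CArc => a.1) X).Perm (s.1.filter (fun a => !(inc v a))) := hXp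
      exact (List.Perm.append_left _ h3).trans (List.filter_append_perm (fun a => inc v a) s.1)
    exact h.ext _ h1 hp

theorem elim_iter {n : ℕ} {B : List ℕ} {G : List Arc} (hG : Good n B G) (hD : Deficient G)
    (k : ℕ) :
    let s := (List.range k).foldl (fun s _ => elimStep n s) (G, [])
    ElimInv n B G s ∧ (s.1 = [] ∨ posv n s.1 + k ≤ n) := by
  induction k with
  | zero =>
    refine ⟨⟨hG, hD, fun X hX hp => ⟨hX, hp⟩⟩, Or.inr ?_⟩
    simp only [List.range_zero, List.foldl_nil, Nat.add_zero]
    unfold posv
    exact (List.length_filter_le _ _).trans (by simp)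
  | succ k ih =>
    simp only [List.range_succ, List.foldl_append, List.foldl_cons, List.foldl_nil]
    set s := (List.range k).foldl (fun s _ => elimStep n s) (G, []) with hs
    obtain ⟨hI, hk⟩ := ih
    refine ⟨hI.step, ?_⟩
    by_cases he : s.1 = []
    · left
      unfold elimStep
      split
      · exact he
      · simp [he]
    · right
      have hk' := hk.resolve_left he
      obtain ⟨a, ha⟩ := List.exists_mem_of_ne_nil _ he
      have ha0 : 0 < deg s.1 a.1 := deg_pos_iff.mpr ⟨a, ha, by simp [inc]⟩
      obtain ⟨u, -, hu0, hu3⟩ := hI.defi _ ha0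
      have hun : u < n := by
        obtain ⟨b, hb, hub⟩ := deg_pos_iff.mp hu0
        have := hI.good.lt b hb
        unfold inc at hub
        rw [Bool.or_eq_true, beq_iff_eq, beq_iff_eq] at hub
        omega
      have hf : ∃ v, (List.range n).find?
          (fun v => decide (0 < deg s.1 v) && decide (deg s.1 v ≤ 3)) = some v := by
        rw [← Option.isSome_iff_exists, List.find?_isSome]
        exact ⟨u, List.mem_range.mpr hun, by simp [hu0, hu3]⟩
      obtain ⟨v, hv⟩ := hf
      have hv' := List.find?_some hv
      have hvn := List.mem_range.mp (List.mem_of_find?_eq_some hv)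
      rw [Bool.and_eq_true, decide_eq_true_eq, decide_eq_true_eq] at hv'
      have hstep : elimStep n s = (s.1.filter (fun a => !(inc v a)),
          (s.1.filter (fun a => inc v a)) :: s.2) := by
        unfold elimStep
        rw [hv]
      rw [hstep]
      have := posv_delete_lt hvn hv'.1
      simp only
      omega

/-- blueprint 5.2 -/
theorem elim_colour {n : ℕ} {B : List ℕ} {G : List Arc} (hG : Good n B G) (hD : Deficient G) :
    Ok n B (colour n B [] (elim n G)) ∧ (arcs (colour n B [] (elim n G))).Perm G := by
  obtain ⟨hI, hk⟩ := elim_iter hG hD n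
  set s := (List.range n).foldl (fun s _ => elimStep n s) (G, []) with hs
  have hnil : s.1 = [] := by
    rcases hk with h | h
    · exact h
    · by_contra he
      obtain ⟨a, ha⟩ := List.exists_mem_of_ne_nil _ he
      have ha0 : 0 < deg s.1 a.1 := deg_pos_iff.mpr ⟨a, ha, by simp [inc]⟩
      have hn := (hI.good.lt a ha).1
      have h0 : posv n s.1 = 0 := by omega
      unfold posv at h0
      rw [List.length_eq_zero_iff, List.filter_eq_nil_iff] at h0
      have := h0 a.1 (List.mem_range.mpr hn)
      simp [ha0] at this
  have hOk : Ok n B ([] : List CArc) := by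
    refine ⟨by simp, ?_, by simp⟩
    intro c _
    have : cls c ([] : List CArc) = [] := rfl
    rw [this, pc_iff_acyclic]
    refine ⟨by simp, by simp, by simp, ?_⟩
    intro v hv
    obtain ⟨b, hb, -⟩ := Relation.TransGen.head'_iff.mp hv
    simp at hb
  exact hI.ext [] hOk (by rw [hnil]; rfl)

end Vale.Agent.Lib.P333.Alg
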