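import Mathlib
import Vale.Agent.Lib.P333.ElimDefs
import Vale.Agent.Lib.P333.Col0
import Vale.Agent.Lib.P333.Col1

/-! P333, module SPEC: blueprint 5.3 -/

namespace Vale.Agent.Lib.P333.Alg

/-! ### SPEC: blueprint 5.3 -/

theorem spec_mem_arcs {X : List CArc} {a : CArc} (h : a ∈ X) : a.1 ∈ arcs X :=
  List.mem_map.2 ⟨a, h, rfl⟩

theorem spec_arcs_append (X Y : List CArc) : arcs (X ++ Y) = arcs X ++ arcs Y := by
  unfold arcs
  rw [List.map_append]

theorem spec_arcs_zip {g : List Arc} {w : List ℕ} (h : w.length = g.length) :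
    arcs (g.zip w) = g := by
  unfold arcs
  exact List.map_fst_zip (by omega)

/-- if at most one arc enters `v` then the entering arcs are all equal -/
theorem spec_ind_unique {X : List CArc} {v : ℕ} (h : ind (arcs X) v ≤ 1) :
    ∀ a ∈ X, ∀ b ∈ X, a.1.2 = v → b.1.2 = v → a = b := by
  unfold ind arcs at h
  rw [List.filter_map, List.length_map] at h
  intro a ha b hb hav hbv
  have ha' : a ∈ X.filter ((fun a : Arc => a.2 == v) ∘ (fun a : CArc => a.1)) := by
    rw [List.mem_filter]
    exact ⟨ha, by simp [hav]⟩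
  have hb' : b ∈ X.filter ((fun a : Arc => a.2 == v) ∘ (fun a : CArc => a.1)) := by
    rw [List.mem_filter]
    exact ⟨hb, by simp [hbv]⟩
  match hl : X.filter ((fun a : Arc => a.2 == v) ∘ (fun a : CArc => a.1)) with
  | [] => rw [hl] at ha'; simp at ha'
  | [c] =>
    rw [hl] at ha' hb'
    rw [List.mem_singleton.1 ha', List.mem_singleton.1 hb']
  | c :: d :: l =>
    rw [hl] at h
    simp at h

/-- if at most one arc leaves `v` then the leaving arcs are all equal -/
theorem spec_outd_unique {X : List CArc} {v : ℕ} (h : outd (arcs X) v ≤ 1) :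
    ∀ a ∈ X, ∀ b ∈ X, a.1.1 = v → b.1.1 = v → a = b := by
  unfold outd arcs at h
  rw [List.filter_map, List.length_map] at h
  intro a ha b hb hav hbv
  have ha' : a ∈ X.filter ((fun a : Arc => a.1 == v) ∘ (fun a : CArc => a.1)) := by
    rw [List.mem_filter]
    exact ⟨ha, by simp [hav]⟩
  have hb' : b ∈ X.filter ((fun a : Arc => a.1 == v) ∘ (fun a : CArc => a.1)) := by
    rw [List.mem_filter]
    exact ⟨hb, by simp [hbv]⟩
  match hl : X.filter ((fun a : Arc => a.1 == v) ∘ (fun a : CArc => a.1)) with
  | [] => rw [hl] at ha'; simp at ha'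
  | [c] =>
    rw [hl] at ha' hb'
    rw [List.mem_singleton.1 ha', List.mem_singleton.1 hb']
  | c :: d :: l =>
    rw [hl] at h
    simp at h

theorem spec_two (x : ℕ) (hx : x < 3) :
    ∃ y z : ℕ, y < 3 ∧ z < 3 ∧ x ≠ y ∧ x ≠ z ∧ y ≠ z := by
  interval_cases x
  · exact ⟨1, 2, by norm_num⟩
  · exact ⟨0, 2, by norm_num⟩
  · exact ⟨0, 1, by norm_num⟩

theorem spec_third (x y : ℕ) (hx : x < 3) (hy : y < 3) (_hxy : x ≠ y) :
    ∃ z : ℕ, z < 3 ∧ x ≠ z ∧ y ≠ z := by
  interval_cases x <;> interval_cases y
  · exact ⟨1, by norm_num⟩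
  · exact ⟨2, by norm_num⟩
  · exact ⟨1, by norm_num⟩
  · exact ⟨2, by norm_num⟩
  · exact ⟨2, by norm_num⟩
  · exact ⟨0, by norm_num⟩
  · exact ⟨1, by norm_num⟩
  · exact ⟨0, by norm_num⟩
  · exact ⟨1, by norm_num⟩

/-- the colours used at the break vertex `v` -/
theorem spec_colours {n : ℕ} {B : List ℕ} {X : List CArc} {v : ℕ} (hX : Ok n B X) (hv : v ∈ B)
    (hout : outd (arcs X) v ≤ 1) (hin : ind (arcs X) v ≤ 1) :
    ∃ α β γ : ℕ, α < 3 ∧ β < 3 ∧ γ < 3 ∧ α ≠ β ∧ α ≠ γ ∧ β ≠ γ ∧
      (∀ a ∈ X, a.1.2 = v → a.2 = α) ∧ (∀ a ∈ X, a.1.1 = v → a.2 = β) := by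
  by_cases h1 : ∃ a ∈ X, a.1.2 = v
  · obtain ⟨a, ha, hav⟩ := h1
    by_cases h2 : ∃ b ∈ X, b.1.1 = v
    · obtain ⟨b, hb, hbv⟩ := h2
      have hne : a.2 ≠ b.2 := hX.brk v hv a ha b hb hav hbv
      obtain ⟨c, hc, hac, hbc⟩ := spec_third a.2 b.2 (hX.col a ha) (hX.col b hb) hne
      refine ⟨a.2, b.2, c, hX.col a ha, hX.col b hb, hc, hne, hac, hbc, ?_, ?_⟩
      · intro a' ha' hav'
        rw [spec_ind_unique hin a' ha' a ha hav' hav]
      · intro b' hb' hbv'
        rw [spec_outd_unique hout b' hb' b hb hbv' hbv]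
    · obtain ⟨y, z, hy, hz, h3, h4, h5⟩ := spec_two a.2 (hX.col a ha)
      refine ⟨a.2, y, z, hX.col a ha, hy, hz, h3, h4, h5, ?_, ?_⟩
      · intro a' ha' hav'
        rw [spec_ind_unique hin a' ha' a ha hav' hav]
      · intro b' hb' hbv'
        exact absurd ⟨b', hb', hbv'⟩ h2
  · by_cases h2 : ∃ b ∈ X, b.1.1 = v
    · obtain ⟨b, hb, hbv⟩ := h2
      obtain ⟨y, z, hy, hz, h3, h4, h5⟩ := spec_two b.2 (hX.col b hb)
      refine ⟨y, b.2, z, hy, hX.col b hb, hz, h3.symm, h5, h4, ?_, ?_⟩
      · intro a' ha' hav'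
        exact absurd ⟨a', ha', hav'⟩ h1
      · intro b' hb' hbv'
        rw [spec_outd_unique hout b' hb' b hb hbv' hbv]
    · refine ⟨0, 1, 2, by norm_num, by norm_num, by norm_num, by norm_num, by norm_num,
        by norm_num, ?_, ?_⟩
      · intro a' ha' hav'
        exact absurd ⟨a', ha', hav'⟩ h1
      · intro b' hb' hbv'
        exact absurd ⟨b', hb', hbv'⟩ h2

theorem spec_group_ends (W : Mat) (p : Arc) : ∀ a ∈ specGroup W p,
    (a.1 = p.1 ∧ a.2 = p.2) ∨ (a.1 = p.2 ∧ a.2 = p.1) := by
  intro a ha
  unfold specGroup at ha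
  simp only [List.mem_cons, List.not_mem_nil, or_false] at ha
  rcases ha with rfl | rfl | ha
  · exact Or.inr ⟨rfl, rfl⟩
  · exact Or.inl ⟨rfl, rfl⟩
  · split_ifs at ha
    · subst ha
      exact Or.inr ⟨rfl, rfl⟩
    · subst ha
      exact Or.inl ⟨rfl, rfl⟩

theorem spec_group_length (W : Mat) (p : Arc) : (specGroup W p).length = 3 := rfl

/-- one special pair -/
theorem spec_one {n : ℕ} {B : List ℕ} {X : List CArc} (W : Mat) {p : Arc} (hX : Ok n B X)
    (hp : p.2 ∈ B) (h1 : p.1 < n) (h2 : p.2 < n) (hne : p.1 ≠ p.2)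
    (hiso : ∀ a ∈ arcs X, inc p.1 a = false)
    (hout : outd (arcs X) p.2 ≤ 1) (hin : ind (arcs X) p.2 ≤ 1) :
    ∃ w ∈ words (specGroup W p).length, Ok n [] ((specGroup W p).zip w ++ X) := by
  obtain ⟨α, β, γ, hα, hβ, hγ, hαβ, hαγ, hβγ, hA, hB⟩ := spec_colours hX hp hout hin
  have hX0 : Ok n [] X := ⟨hX.col, hX.pc, by simp⟩
  refine ⟨[α, β, γ], ?_, ?_⟩
  · rw [mem_words]
    refine ⟨rfl, ?_⟩
    intro c hc
    simp only [List.mem_cons, List.not_mem_nil, or_false] at hc
    rcases hc with rfl | rfl | rfl <;> assumption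
  · have hinc : ∀ a ∈ X, a.1.1 ≠ p.1 ∧ a.1.2 ≠ p.1 := by
      intro a ha
      have h := hiso a.1 (spec_mem_arcs ha)
      unfold inc at h
      simpa using h
    have hz : (specGroup W p).zip [α, β, γ] = [((p.2, p.1), α), ((p.1, p.2), β),
      ((if ent W p.1 p.2 < ent W p.2 p.1 then (p.2, p.1) else (p.1, p.2)), γ)] := rfl
    have hmem : ∀ a ∈ (specGroup W p).zip [α, β, γ],
        (a = ((p.2, p.1), α)) ∨ (a = ((p.1, p.2), β)) ∨ (a = ((p.2, p.1), γ)) ∨
          (a = ((p.1, p.2), γ)) := by
      intro a ha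
      rw [hz] at ha
      simp only [List.mem_cons, List.not_mem_nil, or_false] at ha
      rcases ha with h | h | h
      · exact Or.inl h
      · exact Or.inr (Or.inl h)
      · split_ifs at h
        · exact Or.inr (Or.inr (Or.inl h))
        · exact Or.inr (Or.inr (Or.inr h))
    have hcls : ∀ c, (cls c ((specGroup W p).zip [α, β, γ])).length ≤ 1 := by
      intro c
      unfold cls
      rw [hz, List.length_map]
      by_cases ha : α = c
      · have hb : β ≠ c := fun h => hαβ (ha.trans h.symm)
        have hc : γ ≠ c := fun h => hαγ (ha.trans h.symm)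
        simp [ha, hb, hc]
      · by_cases hb : β = c
        · have hc : γ ≠ c := fun h => hβγ (hb.trans h.symm)
          simp [ha, hb, hc]
        · by_cases hc : γ = c
          · simp [ha, hb, hc]
          · simp [ha, hb, hc]
    have hnod : ∀ (f : Arc → ℕ) (l : List Arc), l.length ≤ 1 → (l.map f).Nodup := by
      intro f l hl
      match l with
      | [] => simp
      | [a] => simp
      | a :: b :: l => simp at hl
    apply ok_insert (z := p.1) h1 hX0
    · intro a ha
      exact hiso a.1 (spec_mem_arcs ha)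
    · intro a ha
      rcases hmem a ha with rfl | rfl | rfl | rfl
      · exact Or.inr ⟨rfl, hne.symm, h2⟩
      · exact Or.inl ⟨rfl, hne.symm, h2⟩
      · exact Or.inr ⟨rfl, hne.symm, h2⟩
      · exact Or.inl ⟨rfl, hne.symm, h2⟩
    · intro a ha
      rcases hmem a ha with rfl | rfl | rfl | rfl <;> assumption
    · intro c _
      exact hnod _ _ (hcls c)
    · intro c _
      exact hnod _ _ (hcls c)
    · intro a ha a' ha' hc he
      rcases hmem a ha with rfl | rfl | rfl | rfl
      · exact hαβ (hc.trans (hB a' ha' he.symm))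
      · exact (hinc a' ha').1 he.symm
      · exact hβγ (hc.trans (hB a' ha' he.symm)).symm
      · exact (hinc a' ha').1 he.symm
    · intro a ha a' ha' hc he
      rcases hmem a ha with rfl | rfl | rfl | rfl
      · exact (hinc a' ha').2 he.symm
      · exact hαβ (hc.trans (hA a' ha' he.symm)).symm
      · exact (hinc a' ha').2 he.symm
      · exact hαγ (hc.trans (hA a' ha' he.symm)).symm
    · intro b hb
      simp at hb
    · intro x y c hx hy
      exfalso
      have e1 : c = α ∨ c = γ ∧ ent W p.1 p.2 < ent W p.2 p.1 := by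
        rw [hz] at hx
        simp only [List.mem_cons, List.not_mem_nil, or_false, Prod.mk.injEq] at hx
        rcases hx with h | h | h
        · exact Or.inl h.2
        · exact absurd h.1.2 hne
        · split_ifs at h with hif
          · exact Or.inr ⟨h.2, hif⟩
          · simp only [Prod.mk.injEq] at h
            exact absurd h.1.2 hne
      have e2 : c = β ∨ c = γ ∧ ¬ ent W p.1 p.2 < ent W p.2 p.1 := by
        rw [hz] at hy
        simp only [List.mem_cons, List.not_mem_nil, or_false, Prod.mk.injEq] at hy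
        rcases hy with h | h | h
        · exact absurd h.1.1 hne
        · exact Or.inl h.2
        · split_ifs at h with hif
          · simp only [Prod.mk.injEq] at h
            exact absurd h.1.1 hne
          · exact Or.inr ⟨h.2, hif⟩
      rcases e1 with e1 | ⟨e1, e1'⟩ <;> rcases e2 with e2 | ⟨e2, e2'⟩
      · exact hαβ (e1.symm.trans e2)
      · exact hαγ (e1.symm.trans e2)
      · exact hβγ (e2.symm.trans e1)
      · exact e2' e1'

theorem spec_aux {n : ℕ} (W : Mat) (spp : List Arc) : ∀ (X : List CArc),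
    Ok n (spp.map (fun p => p.2)) X →
    (∀ p ∈ spp, p.1 < n ∧ p.2 < n) →
    (spp.map (fun p => p.1) ++ spp.map (fun p => p.2)).Nodup →
    (∀ p ∈ spp, ∀ a ∈ arcs X, inc p.1 a = false) →
    (∀ p ∈ spp, outd (arcs X) p.2 ≤ 1) → (∀ p ∈ spp, ind (arcs X) p.2 ≤ 1) →
    Ok n [] (colour n [] X (spp.map (specGroup W))) ∧
      (arcs (colour n [] X (spp.map (specGroup W)))).Perm
        (arcs X ++ spp.flatMap (specGroup W)) := by
  induction spp with
  | nil =>
    intro X hX _ _ _ _ _
    simp only [List.map_nil, List.flatMap_nil, List.append_nil]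
    unfold colour
    rw [List.foldl_nil]
    exact ⟨⟨hX.col, hX.pc, by simp⟩, List.Perm.refl _⟩
  | cons p spp ih =>
    intro X hX hlt hnd hiso hout hin
    have hpm : p ∈ p :: spp := List.mem_cons_self
    have hnd1 : p.1 ≠ p.2 ∧ (∀ q ∈ spp, q.1 ≠ p.1 ∧ q.2 ≠ p.1 ∧ q.1 ≠ p.2 ∧ q.2 ≠ p.2) ∧
        (spp.map (fun p => p.1) ++ spp.map (fun p => p.2)).Nodup := by
      rw [List.map_cons, List.map_cons, List.cons_append, List.nodup_cons,
        List.nodup_append_comm, List.cons_append, List.nodup_cons] at hnd
      obtain ⟨ha, hb, hc⟩ := hnd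
      refine ⟨?_, ?_, ?_⟩
      · intro h
        apply ha
        rw [List.mem_append]
        right
        rw [h]
        exact List.mem_cons_self
      · intro q hq
        refine ⟨?_, ?_, ?_, ?_⟩
        · intro h
          apply ha
          rw [List.mem_append]
          left
          rw [← h]
          exact List.mem_map.2 ⟨q, hq, rfl⟩
        · intro h
          apply ha
          rw [List.mem_append]
          right
          rw [← h]
          exact List.mem_cons_of_mem _ (List.mem_map.2 ⟨q, hq, rfl⟩)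
        · intro h
          apply hb
          rw [List.mem_append]
          right
          rw [← h]
          exact List.mem_map.2 ⟨q, hq, rfl⟩
        · intro h
          apply hb
          rw [List.mem_append]
          left
          rw [← h]
          exact List.mem_map.2 ⟨q, hq, rfl⟩
      · rw [List.nodup_append_comm]
        exact hc
    obtain ⟨hne, hdis, hnd2⟩ := hnd1
    have hX0 : Ok n [] X := ⟨hX.col, hX.pc, by simp⟩
    obtain ⟨hok, w, hw, he⟩ := insertGroup_ok (g := specGroup W p) hX0
      (by rw [spec_group_length]; norm_num)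
      (spec_one W hX (by rw [List.map_cons]; exact List.mem_cons_self) (hlt p hpm).1
        (hlt p hpm).2 hne (hiso p hpm) (hout p hpm) (hin p hpm))
    have hwl : w.length = (specGroup W p).length := (mem_words.1 hw).1
    have harcs : arcs ((specGroup W p).zip w ++ X) = specGroup W p ++ arcs X := by
      rw [spec_arcs_append, spec_arcs_zip hwl]
    have hzip : ∀ a ∈ (specGroup W p).zip w, a.1 ∈ specGroup W p := by
      intro a ha
      have := spec_mem_arcs ha
      rwa [spec_arcs_zip hwl] at this
    rw [he] at hok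
    have hih := ih ((specGroup W p).zip w ++ X) ?_ (fun q hq => hlt q (List.mem_cons_of_mem _ hq))
      hnd2 ?_ ?_ ?_
    · have hcol : colour n [] X ((p :: spp).map (specGroup W))
          = colour n [] ((specGroup W p).zip w ++ X) (spp.map (specGroup W)) := by
        unfold colour
        rw [List.map_cons, List.foldl_cons, he]
      rw [hcol]
      refine ⟨hih.1, hih.2.trans ?_⟩
      rw [harcs, List.flatMap_cons]
      rw [List.append_assoc]
      have h1 : (specGroup W p ++ (arcs X ++ spp.flatMap (specGroup W))).Perm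
          (arcs X ++ spp.flatMap (specGroup W) ++ specGroup W p) := List.perm_append_comm
      refine h1.trans ?_
      rw [List.append_assoc]
      exact List.Perm.append_left _ List.perm_append_comm
    · refine ⟨hok.col, hok.pc, ?_⟩
      intro b hb a ha a' ha' hab ha'b
      obtain ⟨q, hq, hqb⟩ := List.mem_map.1 hb
      have hd := hdis q hq
      have hbb : b ≠ p.1 ∧ b ≠ p.2 := by
        rw [← hqb]
        exact ⟨hd.2.1, hd.2.2.2⟩
      rcases List.mem_append.1 ha with ha | ha
      · exfalso
        rcases spec_group_ends W p a.1 (hzip a ha) with h | h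
        · exact hbb.2 (hab.symm.trans h.2)
        · exact hbb.1 (hab.symm.trans h.2)
      rcases List.mem_append.1 ha' with ha' | ha'
      · exfalso
        rcases spec_group_ends W p a'.1 (hzip a' ha') with h | h
        · exact hbb.1 (ha'b.symm.trans h.1)
        · exact hbb.2 (ha'b.symm.trans h.1)
      exact hX.brk b (by rw [List.map_cons]; exact List.mem_cons_of_mem _ hb) a ha a' ha' hab ha'b
    · intro q hq a ha
      have hd := hdis q hq
      rw [harcs] at ha
      rcases List.mem_append.1 ha with ha | ha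
      · unfold inc
        rcases spec_group_ends W p a ha with h | h
        · rw [h.1, h.2]
          simp [Ne.symm hd.1, Ne.symm hd.2.2.1]
        · rw [h.1, h.2]
          simp [Ne.symm hd.1, Ne.symm hd.2.2.1]
      · exact hiso q (List.mem_cons_of_mem _ hq) a ha
    · intro q hq
      have hd := hdis q hq
      have h0 : outd (specGroup W p) q.2 = 0 := by
        unfold outd
        rw [List.length_eq_zero_iff, List.filter_eq_nil_iff]
        intro a ha
        rcases spec_group_ends W p a ha with h | h
        · rw [h.1]; simp [Ne.symm hd.2.1]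
        · rw [h.1]; simp [Ne.symm hd.2.2.2]
      have h1 : outd (arcs ((specGroup W p).zip w ++ X)) q.2
          = outd (specGroup W p) q.2 + outd (arcs X) q.2 := by
        rw [harcs]
        unfold outd
        rw [List.filter_append, List.length_append]
      rw [h1, h0, Nat.zero_add]
      exact hout q (List.mem_cons_of_mem _ hq)
    · intro q hq
      have hd := hdis q hq
      have h0 : ind (specGroup W p) q.2 = 0 := by
        unfold ind
        rw [List.length_eq_zero_iff, List.filter_eq_nil_iff]
        intro a ha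
        rcases spec_group_ends W p a ha with h | h
        · rw [h.2]; simp [Ne.symm hd.2.2.2]
        · rw [h.2]; simp [Ne.symm hd.2.1]
      have h1 : ind (arcs ((specGroup W p).zip w ++ X)) q.2
          = ind (specGroup W p) q.2 + ind (arcs X) q.2 := by
        rw [harcs]
        unfold ind
        rw [List.filter_append, List.length_append]
      rw [h1, h0, Nat.zero_add]
      exact hin q (List.mem_cons_of_mem _ hq)

/-- adding the arcs of the special pairs: `spp` all special pairs `(u, v)`, `u` isolated in the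
coloured graph, `v` a break vertex; `spp'` those which are to be added -/
theorem spec_colour {n : ℕ} {X : List CArc} {spp spp' : List Arc} (W : Mat)
    (hX : Ok n (spp.map (fun p => p.2)) X)
    (hsub : spp'.Sublist spp)
    (hlt : ∀ p ∈ spp, p.1 < n ∧ p.2 < n)
    (hnd : (spp.map (fun p => p.1) ++ spp.map (fun p => p.2)).Nodup)
    (hiso : ∀ p ∈ spp, ∀ a ∈ arcs X, inc p.1 a = false)
    (hout : ∀ p ∈ spp, outd (arcs X) p.2 ≤ 1) (hin : ∀ p ∈ spp, ind (arcs X) p.2 ≤ 1) :
    Ok n [] (colour n [] X (spp'.map (specGroup W))) ∧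
      (arcs (colour n [] X (spp'.map (specGroup W)))).Perm
        (arcs X ++ spp'.flatMap (specGroup W)) := by
  have hmem : ∀ p ∈ spp', p ∈ spp := fun p hp => hsub.subset hp
  apply spec_aux W spp' X
  · refine ⟨hX.col, hX.pc, ?_⟩
    intro b hb
    exact hX.brk b ((hsub.map _).subset hb)
  · exact fun p hp => hlt p (hmem p hp)
  · exact ((hsub.map _).append (hsub.map _)).nodup hnd
  · exact fun p hp => hiso p (hmem p hp)
  · exact fun p hp => hout p (hmem p hp)
  · exact fun p hp => hin p (hmem p hp)

theorem spec_wt_split (W : Mat) (X : List CArc) (h : ∀ a ∈ X, a.2 < 3) :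
    wt W (arcs X) = wt W (cls 0 X) + wt W (cls 1 X) + wt W (cls 2 X) := by
  induction X with
  | nil => rfl
  | cons a X ih =>
    have ih' := ih (fun b hb => h b (List.mem_cons_of_mem _ hb))
    have ha := h a List.mem_cons_self
    have hw : wt W (arcs (a :: X)) = ent W a.1.1 a.1.2 + wt W (arcs X) := by
      unfold arcs wt
      simp
    have hc : ∀ c, wt W (cls c (a :: X))
        = (if a.2 = c then ent W a.1.1 a.1.2 else 0) + wt W (cls c X) := by
      intro c
      unfold cls wt
      rw [List.filter_cons]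
      by_cases hac : a.2 = c
      · simp [hac]
      · simp [hac]
    rw [hw, hc 0, hc 1, hc 2, ih']
    have : a.2 = 0 ∨ a.2 = 1 ∨ a.2 = 2 := by omega
    rcases this with h | h | h <;> rw [h] <;> simp <;> omega

/-- some class of a coloured arc list has at least a third of the total weight -/
theorem exists_class (W : Mat) {X : List CArc} (h : ∀ a ∈ X, a.2 < 3) :
    ∃ c < 3, wt W (arcs X) ≤ 3 * wt W (cls c X) := by
  have hs := spec_wt_split W X h
  by_contra hcon
  push Not at hcon
  have h0 := hcon 0 (by norm_num)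
  have h1 := hcon 1 (by norm_num)
  have h2 := hcon 2 (by norm_num)
  omega

end Vale.Agent.Lib.P333.Alg
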