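import Mathlib
import Vale.Agent.Lib.P333.CovDefs
import Vale.Agent.Lib.P333.Cov1
import Vale.Agent.Lib.P333.Elim
import Vale.Agent.Lib.P333.Spec

/-! P333, module COV3 -/

namespace Vale.Agent.Lib.P333.Alg

namespace Cov3

/-! #### counting -/

theorem outd_append (G H : List Arc) (v : ℕ) : outd (G ++ H) v = outd G v + outd H v := by
  simp [outd]

theorem ind_append (G H : List Arc) (v : ℕ) : ind (G ++ H) v = ind G v + ind H v := by
  simp [ind]

theorem outd_sub {G H : List Arc} (h : G.Sublist H) (v : ℕ) : outd G v ≤ outd H v :=
  (h.filter _).length_le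

theorem ind_sub {G H : List Arc} (h : G.Sublist H) (v : ℕ) : ind G v ≤ ind H v :=
  (h.filter _).length_le

theorem outd_perm {G H : List Arc} (h : G.Perm H) (v : ℕ) : outd G v = outd H v :=
  (h.filter _).length_eq

theorem ind_perm {G H : List Arc} (h : G.Perm H) (v : ℕ) : ind G v = ind H v :=
  (h.filter _).length_eq

theorem outd_le_one {G : List Arc} (h : (G.map (fun a => a.1)).Nodup) (v : ℕ) :
    outd G v ≤ 1 := by
  induction G with
  | nil => simp [outd]
  | cons a G ih =>
    rw [List.map_cons, List.nodup_cons] at h
    unfold outd at ih ⊢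
    rw [List.filter_cons]
    split_ifs with hv
    · have hv' : a.1 = v := by simpa using hv
      have h0 : G.filter (fun a => a.1 == v) = [] := by
        rw [List.filter_eq_nil_iff]
        intro b hb hbv
        apply h.1
        rw [List.mem_map]
        exact ⟨b, hb, by rw [hv']; simpa using hbv⟩
      rw [h0]
      simp
    · exact ih h.2

theorem ind_le_one {G : List Arc} (h : (G.map (fun a => a.2)).Nodup) (v : ℕ) :
    ind G v ≤ 1 := by
  induction G with
  | nil => simp [ind]
  | cons a G ih =>
    rw [List.map_cons, List.nodup_cons] at h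
    unfold ind at ih ⊢
    rw [List.filter_cons]
    split_ifs with hv
    · have hv' : a.2 = v := by simpa using hv
      have h0 : G.filter (fun a => a.2 == v) = [] := by
        rw [List.filter_eq_nil_iff]
        intro b hb hbv
        apply h.1
        rw [List.mem_map]
        exact ⟨b, hb, by rw [hv']; simpa using hbv⟩
      rw [h0]
      simp
    · exact ih h.2

theorem outd_zero {G : List Arc} {v : ℕ} (h : ∀ a ∈ G, a.1 ≠ v) : outd G v = 0 := by
  unfold outd
  rw [List.length_eq_zero_iff, List.filter_eq_nil_iff]
  intro a ha hav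
  exact h a ha (by simpa using hav)

theorem ind_zero {G : List Arc} {v : ℕ} (h : ∀ a ∈ G, a.2 ≠ v) : ind G v = 0 := by
  unfold ind
  rw [List.length_eq_zero_iff, List.filter_eq_nil_iff]
  intro a ha hav
  exact h a ha (by simpa using hav)

theorem deg_eq (G : List Arc) (v : ℕ) : deg G v = outd G v + ind G v := rfl

theorem deg_pos_of_mem_left {G : List Arc} {a b : ℕ} (h : (a, b) ∈ G) : 0 < deg G a := by
  have h1 : (a, b) ∈ G.filter (fun x => x.1 == a) := by
    rw [List.mem_filter]
    exact ⟨h, by simp⟩
  have h2 := List.length_pos_of_mem h1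
  unfold deg
  omega

theorem deg_pos_of_mem_right {G : List Arc} {a b : ℕ} (h : (a, b) ∈ G) : 0 < deg G b := by
  have h1 : (a, b) ∈ G.filter (fun x => x.2 == b) := by
    rw [List.mem_filter]
    exact ⟨h, by simp⟩
  have h2 := List.length_pos_of_mem h1
  unfold deg
  omega

theorem exists_mem_of_deg_pos {G : List Arc} {v : ℕ} (h : 0 < deg G v) :
    ∃ x, (v, x) ∈ G ∨ (x, v) ∈ G := by
  by_contra hcon
  push Not at hcon
  have h1 : outd G v = 0 := by
    apply outd_zero
    rintro ⟨a, b⟩ ha rfl
    exact (hcon b).1 ha
  have h2 : ind G v = 0 := by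
    apply ind_zero
    rintro ⟨a, b⟩ ha rfl
    exact (hcon a).2 ha
  rw [deg_eq] at h
  omega

/-! #### weights -/

theorem wt_append (W : Mat) (P Q : List Arc) : wt W (P ++ Q) = wt W P + wt W Q := by
  simp [wt]

theorem wt_perm (W : Mat) {P Q : List Arc} (h : P.Perm Q) : wt W P = wt W Q :=
  (h.map _).sum_eq

theorem wt_sub (W : Mat) {P Q : List Arc} (h : P.Sublist Q) : wt W P ≤ wt W Q :=
  List.Sublist.sum_le_sum (h.map _) (fun _ _ => Nat.zero_le _)

theorem wt_subset (W : Mat) {P Q : List Arc} (hP : P.Nodup) (h : ∀ a ∈ P, a ∈ Q) :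
    wt W P ≤ wt W Q := by
  obtain ⟨l, hl, hl'⟩ := List.subperm_of_subset hP h
  rw [← wt_perm W hl]
  exact wt_sub W hl'

theorem wt_split (W : Mat) (f : Arc → Bool) (P : List Arc) :
    wt W P = wt W (P.filter (fun a => !(f a))) + wt W (P.filter f) := by
  induction P with
  | nil => simp [wt]
  | cons a P ih =>
    unfold wt at ih ⊢
    rw [List.filter_cons, List.filter_cons]
    cases hf : f a with
    | false => simp [ih, Nat.add_assoc]
    | true => simp [ih, Nat.add_left_comm]

theorem wt_flatMap (W : Mat) {α : Type} (l : List α) (f : α → List Arc) :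
    wt W (l.flatMap f) = (l.map (fun x => wt W (f x))).sum := by
  induction l with
  | nil => simp [wt]
  | cons a l ih => rw [List.flatMap_cons, wt_append, ih, List.map_cons, List.sum_cons]

/-! #### permutations -/

variable {n : ℕ} {C : List ℕ} {D spp : List Arc}

theorem getD_lt (h : Cov n C D spp) {i : ℕ} (hi : i < n) : C.getD i 0 < n := by
  rw [List.getD_eq_getElem _ _ (by rw [h.clen]; exact hi)]
  exact h.clt _ (List.getElem_mem _)

theorem getD_inj (h : Cov n C D spp) {i j : ℕ} (hi : i < n) (hj : j < n)
    (hij : C.getD i 0 = C.getD j 0) : i = j := by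
  rw [List.getD_eq_getElem _ _ (by rw [h.clen]; exact hi),
    List.getD_eq_getElem _ _ (by rw [h.clen]; exact hj)] at hij
  exact (List.Nodup.getElem_inj_iff h.cnd).1 hij

theorem mem_permArcs {n : ℕ} {C : List ℕ} {a b : ℕ} :
    (a, b) ∈ permArcs n C ↔ a < n ∧ C.getD a 0 = b ∧ a ≠ b := by
  unfold permArcs
  rw [List.mem_filter, List.mem_map]
  constructor
  · rintro ⟨⟨i, hi, hia⟩, hab⟩
    rw [Prod.mk.injEq] at hia
    obtain ⟨rfl, rfl⟩ := hia
    refine ⟨List.mem_range.1 hi, rfl, by simpa using hab⟩
  · rintro ⟨ha, rfl, hne⟩
    exact ⟨⟨a, List.mem_range.2 ha, rfl⟩, by simpa using hne⟩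

theorem permArcs_tails (n : ℕ) (C : List ℕ) : ((permArcs n C).map (fun a => a.1)).Nodup := by
  have h1 : ((permArcs n C).map (fun a => a.1)).Sublist
      (((List.range n).map (fun i => (i, C.getD i 0))).map (fun a => a.1)) :=
    List.Sublist.map _ List.filter_sublist
  apply h1.nodup
  rw [List.map_map]
  have : ((fun a : ℕ × ℕ => a.1) ∘ fun i => (i, C.getD i 0)) = id := rfl
  rw [this, List.map_id]
  exact List.nodup_range

theorem permArcs_heads (h : Cov n C D spp) : ((permArcs n C).map (fun a => a.2)).Nodup := by
  have h1 : ((permArcs n C).map (fun a => a.2)).Sublist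
      (((List.range n).map (fun i => (i, C.getD i 0))).map (fun a => a.2)) :=
    List.Sublist.map _ List.filter_sublist
  apply h1.nodup
  rw [List.map_map]
  refine List.Nodup.map_on ?_ List.nodup_range
  intro i hi j hj hij
  exact getD_inj h (List.mem_range.1 hi) (List.mem_range.1 hj) hij

theorem full_lt (h : Cov n C D spp) : ∀ a ∈ full n C D, a.1 < n ∧ a.2 < n := by
  rintro ⟨a, b⟩ ha
  unfold full at ha
  rw [List.mem_append] at ha
  rcases ha with ha | ha
  · rw [mem_permArcs] at ha
    obtain ⟨h1, rfl, _⟩ := ha
    exact ⟨h1, getD_lt h h1⟩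
  · exact h.dlt _ ha

theorem ne_of_mem (h : Cov n C D spp) {p : Arc} (hp : p ∈ spp) : p.1 ≠ p.2 := by
  intro heq
  have h1 := List.disjoint_of_nodup_append h.snd
  apply h1 (List.mem_map.2 ⟨p, hp, rfl⟩)
  rw [heq]
  exact List.mem_map.2 ⟨p, hp, rfl⟩

theorem mem_permArcs12 (h : Cov n C D spp) {p : Arc} (hp : p ∈ spp) :
    (p.1, p.2) ∈ permArcs n C := by
  rw [mem_permArcs]
  exact ⟨(h.slt p hp).1, (h.sC p hp).1, ne_of_mem h hp⟩

theorem mem_permArcs21 (h : Cov n C D spp) {p : Arc} (hp : p ∈ spp) :
    (p.2, p.1) ∈ permArcs n C := by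
  rw [mem_permArcs]
  exact ⟨(h.slt p hp).2, (h.sC p hp).2, (ne_of_mem h hp).symm⟩

/-- arcs of `C` at a special vertex -/
theorem arc_special (h : Cov n C D spp) {p a : Arc} (hp : p ∈ spp) (ha : a ∈ permArcs n C)
    (hi : inc p.1 a = true) : a = (p.1, p.2) ∨ a = (p.2, p.1) := by
  obtain ⟨x, y⟩ := a
  rw [mem_permArcs] at ha
  obtain ⟨hx, rfl, hne⟩ := ha
  unfold inc at hi
  rw [Bool.or_eq_true, beq_iff_eq, beq_iff_eq] at hi
  rcases hi with hi | hi
  · left
    have hi' : x = p.1 := hi
    subst hi'
    rw [(h.sC p hp).1]
  · right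
    have hi' : C.getD x 0 = p.1 := hi
    have hx2 : x = p.2 := getD_inj h hx (h.slt p hp).2 (by rw [hi', (h.sC p hp).2])
    rw [hi', hx2]

/-- arcs of `C` at a partner -/
theorem arc_partner (h : Cov n C D spp) {p a : Arc} (hp : p ∈ spp) (ha : a ∈ permArcs n C)
    (hi : a.1 = p.2 ∨ a.2 = p.2) : inc p.1 a = true := by
  obtain ⟨x, y⟩ := a
  rw [mem_permArcs] at ha
  obtain ⟨hx, rfl, hne⟩ := ha
  unfold inc
  rw [Bool.or_eq_true, beq_iff_eq, beq_iff_eq]
  rcases hi with hi | hi
  · right
    have hi' : x = p.2 := hi
    subst hi'
    exact (h.sC p hp).2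
  · left
    have hi' : C.getD x 0 = p.2 := hi
    exact getD_inj h hx (h.slt p hp).1 (by rw [hi', (h.sC p hp).1])

theorem conn_symm {G : List Arc} {u v : ℕ} (h : Conn G u v) : Conn G v u := by
  unfold Conn at h ⊢
  induction h with
  | refl => exact Relation.ReflTransGen.refl
  | tail _ hbc ih => exact Relation.ReflTransGen.head (Or.symm hbc) ih

end Cov3

open Cov3

/-! ### COV3: the coloured graph has a vertex of degree at most 3 in every component -/

theorem cand_deficient {n : ℕ} {W : Mat} {C : List ℕ} {D spp : List Arc} (h : Cov n C D spp)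
    {v : ℕ} (hv : v < n)
    (hdef : (∃ p ∈ spp, p.1 ∈ comp n (full n C D) v) ∨
      ∃ u ∈ comp n (full n C D) v, deg (full n C D) u ≤ 3) :
    ∃ P ∈ candidates n W C D spp (comp n (full n C D) v), isPC n P = true ∧
      inside (comp n (full n C D) v) P = true ∧
      wt2 n W C D spp (comp n (full n C D) v) ≤ 6 * wt W P := by
  have hmem : ∀ u, u ∈ comp n (full n C D) v ↔ Conn (full n C D) v u :=
    fun u => mem_comp (full_lt h) hv
  generalize comp n (full n C D) v = S at *
  -- closure of `S`
  have hcl : ∀ a ∈ full n C D, a.1 ∈ S ↔ a.2 ∈ S := by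
    rintro ⟨a, b⟩ hab
    show a ∈ S ↔ b ∈ S
    rw [hmem, hmem]
    constructor
    · intro h1
      exact Relation.ReflTransGen.tail h1 (Or.inl hab)
    · intro h1
      exact Relation.ReflTransGen.tail h1 (Or.inr hab)
  set sp : Arc → Bool := fun a => spp.any (fun p => inc p.1 a) with hsp
  set GW := (colGraph n C D spp).filter (fun a => S.contains a.1) with hGW
  have hGWsub : GW.Sublist (full n C D) := by
    rw [hGW]
    refine List.filter_sublist.trans ?_
    unfold colGraph full
    exact List.filter_sublist.append_right _
  -- arcs of `GW`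
  have hGWS : ∀ a ∈ GW, a.1 ∈ S ∧ a.2 ∈ S := by
    intro a ha
    have h1 : a.1 ∈ S := by
      rw [hGW, List.mem_filter] at ha
      simpa using ha.2
    exact ⟨h1, (hcl a (hGWsub.subset ha)).1 h1⟩
  have hGWp : ∀ p ∈ spp, ∀ a ∈ GW, inc p.1 a = false := by
    intro p hp a ha
    rw [hGW, List.mem_filter] at ha
    have h1 := ha.1
    unfold colGraph at h1
    rw [List.mem_append, List.mem_filter] at h1
    rcases h1 with ⟨_, h1⟩ | h1
    · by_contra hcon
      rw [Bool.not_eq_false] at hcon
      rw [Bool.not_eq_true', List.any_eq_false] at h1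
      exact h1 p hp hcon
    · exact h.sD p hp a h1
  have hmemGW : ∀ a ∈ full n C D, a.1 ∈ S → (∀ p ∈ spp, inc p.1 a = false) → a ∈ GW := by
    intro a ha haS hap
    rw [hGW, List.mem_filter]
    refine ⟨?_, by simpa using haS⟩
    unfold colGraph
    unfold full at ha
    rw [List.mem_append] at ha
    rw [List.mem_append, List.mem_filter]
    rcases ha with ha | ha
    · left
      refine ⟨ha, ?_⟩
      rw [Bool.not_eq_true', List.any_eq_false]
      intro p hp
      rw [hap p hp]
      simp
    · exact Or.inr ha
  -- degrees
  have hout : ∀ u, outd GW u ≤ 2 := by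
    intro u
    have h1 := outd_sub hGWsub u
    unfold full at h1
    rw [outd_append] at h1
    have h2 := outd_le_one (permArcs_tails n C) u
    have h3 := outd_le_one h.dout u
    omega
  have hin : ∀ u, ind GW u ≤ 2 := by
    intro u
    have h1 := ind_sub hGWsub u
    unfold full at h1
    rw [ind_append] at h1
    have h2 := ind_le_one (permArcs_heads h) u
    have h3 := ind_le_one h.din u
    omega
  have hGWs : GW.Sublist (colGraph n C D spp) := List.filter_sublist
  have hbout : ∀ p ∈ spp, outd GW p.2 ≤ 1 := by
    intro p hp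
    have h1 := outd_sub hGWs p.2
    unfold colGraph at h1
    rw [outd_append] at h1
    have h2 : outd ((permArcs n C).filter (fun a => !(spp.any (fun p => inc p.1 a)))) p.2 = 0 := by
      apply outd_zero
      intro a ha hap
      rw [List.mem_filter, Bool.not_eq_true', List.any_eq_false] at ha
      exact ha.2 p hp (arc_partner h hp ha.1 (Or.inl hap))
    have h3 := outd_le_one h.dout p.2
    omega
  have hbin : ∀ p ∈ spp, ind GW p.2 ≤ 1 := by
    intro p hp
    have h1 := ind_sub hGWs p.2
    unfold colGraph at h1
    rw [ind_append] at h1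
    have h2 : ind ((permArcs n C).filter (fun a => !(spp.any (fun p => inc p.1 a)))) p.2 = 0 := by
      apply ind_zero
      intro a ha hap
      rw [List.mem_filter, Bool.not_eq_true', List.any_eq_false] at ha
      exact ha.2 p hp (arc_partner h hp ha.1 (Or.inr hap))
    have h3 := ind_le_one h.din p.2
    omega
  have hdz : ∀ p ∈ spp, deg GW p.1 = 0 := by
    intro p hp
    rw [deg_eq]
    have h1 : outd GW p.1 = 0 := by
      apply outd_zero
      intro a ha hap
      have h2 := hGWp p hp a ha
      unfold inc at h2
      simp [hap] at h2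
    have h2 : ind GW p.1 = 0 := by
      apply ind_zero
      intro a ha hap
      have h2 := hGWp p hp a ha
      unfold inc at h2
      simp [hap] at h2
    omega
  have hGood : Good n (spp.map (fun p => p.2)) GW := by
    refine ⟨fun a ha => full_lt h a (hGWsub.subset ha), ?_, hout, hin, ?_, ?_⟩
    · rintro ⟨a, b⟩ ha
      have h1 := hGWsub.subset ha
      unfold full at h1
      rw [List.mem_append] at h1
      rcases h1 with h1 | h1
      · exact (mem_permArcs.1 h1).2.2
      · exact h.dloop _ h1
    · intro b hb
      rw [List.mem_map] at hb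
      obtain ⟨p, hp, rfl⟩ := hb
      exact hbout p hp
    · intro b hb
      rw [List.mem_map] at hb
      obtain ⟨p, hp, rfl⟩ := hb
      exact hbin p hp
  -- deficiency
  have hDef : Deficient GW := by
    intro w hw
    by_contra hcon
    push Not at hcon
    have hpos : ∀ u, Conn GW w u → 0 < deg GW u := by
      intro u hu
      rcases Relation.ReflTransGen.cases_tail hu with rfl | ⟨x, _, hx⟩
      · exact hw
      · rcases hx with hx | hx
        · exact deg_pos_of_mem_right hx
        · exact deg_pos_of_mem_left hx
    have h4 : ∀ u, Conn GW w u → 3 < deg GW u := fun u hu => hcon u hu (hpos u hu)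
    have hwS : w ∈ S := by
      obtain ⟨x, hx⟩ := exists_mem_of_deg_pos hw
      rcases hx with hx | hx
      · exact (hGWS _ hx).1
      · exact (hGWS _ hx).2
    have hup : ∀ u, Conn (full n C D) w u → Conn GW w u := by
      intro u hu
      unfold Conn at hu
      induction hu with
      | refl => exact Relation.ReflTransGen.refl
      | @tail y z hwy hyz ih =>
        have hyS : y ∈ S := by
          rw [hmem]
          exact Relation.ReflTransGen.trans ((hmem w).1 hwS) hwy
        have hy4 := h4 y ih
        -- the arc is in `GW`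
        have key : ∀ a ∈ full n C D, (a.1 = y ∨ a.2 = y) → a ∈ GW := by
          intro a ha hay
          have haS : a.1 ∈ S := by
            rcases hay with hay | hay
            · rw [hay]; exact hyS
            · rw [hcl a ha, hay]; exact hyS
          apply hmemGW a ha haS
          intro p hp
          by_contra hinc
          rw [Bool.not_eq_false] at hinc
          have haP : a ∈ permArcs n C := by
            unfold full at ha
            rw [List.mem_append] at ha
            rcases ha with ha | ha
            · exact ha
            · rw [h.sD p hp a ha] at hinc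
              exact absurd hinc (by simp)
          have h5 := arc_special h hp haP hinc
          have h6 : y = p.1 ∨ y = p.2 := by
            rcases h5 with rfl | rfl
            · rcases hay with hay | hay
              · exact Or.inl hay.symm
              · exact Or.inr hay.symm
            · rcases hay with hay | hay
              · exact Or.inr hay.symm
              · exact Or.inl hay.symm
          rcases h6 with rfl | rfl
          · rw [hdz p hp] at hy4
            omega
          · have h7 := hbout p hp
            have h8 := hbin p hp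
            rw [deg_eq] at hy4
            omega
        refine Relation.ReflTransGen.tail ih ?_
        rcases hyz with hyz | hyz
        · exact Or.inl (key _ hyz (Or.inl rfl))
        · exact Or.inr (key _ hyz (Or.inr rfl))
    have hall : ∀ u ∈ S, 3 < deg GW u := by
      intro u hu
      apply h4 u
      apply hup
      exact Relation.ReflTransGen.trans (conn_symm ((hmem w).1 hwS)) ((hmem u).1 hu)
    rcases hdef with ⟨p, hp, hpS⟩ | ⟨u, huS, hu⟩
    · have h5 := hall _ hpS
      rw [hdz p hp] at h5
      omega
    · have h5 := hall _ huS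
      have h6 := outd_sub hGWsub u
      have h7 := ind_sub hGWsub u
      rw [deg_eq] at hu h5
      omega
  -- colouring
  obtain ⟨hX, hXG⟩ := elim_colour hGood hDef
  set X := colour n (spp.map (fun p => p.2)) [] (elim n GW) with hXdef
  set spp' := spp.filter (fun p => S.contains p.1) with hspp'
  have hsubs : spp'.Sublist spp := List.filter_sublist
  obtain ⟨hY, hYG⟩ := spec_colour (spp' := spp') W hX hsubs h.slt h.snd
    (fun p hp a ha => hGWp p hp a (hXG.subset ha))
    (fun p hp => by rw [outd_perm hXG]; exact hbout p hp)
    (fun p hp => by rw [ind_perm hXG]; exact hbin p hp)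
  set Y := colour n [] X (spp'.map (specGroup W)) with hYdef
  obtain ⟨c, hc, hcw⟩ := exists_class W hY.col
  have hpS : ∀ p ∈ spp', p.1 ∈ S ∧ p.2 ∈ S := by
    intro p hp
    have h1 : p.1 ∈ S := by
      rw [hspp', List.mem_filter] at hp
      simpa using hp.2
    refine ⟨h1, ?_⟩
    have h2 : (p.1, p.2) ∈ full n C D := by
      unfold full
      exact List.mem_append_left _ (mem_permArcs12 h (hsubs.subset hp))
    exact (hcl _ h2).1 h1
  refine ⟨cls c Y, ?_, (isPC_iff n _).2 (hY.pc c hc), ?_, ?_⟩
  · unfold candidates
    rw [List.mem_append, List.mem_append, List.mem_append]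
    left; left; right
    unfold cand1 classes
    rw [List.mem_map]
    exact ⟨c, List.mem_range.2 hc, rfl⟩
  · unfold inside
    rw [List.all_eq_true]
    intro a ha
    have haY : a ∈ arcs Y := by
      unfold cls at ha
      unfold arcs
      rw [List.mem_map] at ha ⊢
      obtain ⟨b, hb, rfl⟩ := ha
      exact ⟨b, (List.mem_filter.1 hb).1, rfl⟩
    have h1 := hYG.subset haY
    rw [List.mem_append] at h1
    have h2 : a.1 ∈ S ∧ a.2 ∈ S := by
      rcases h1 with h1 | h1
      · exact hGWS a (hXG.subset h1)
      · rw [List.mem_flatMap] at h1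
        obtain ⟨p, hp, hap⟩ := h1
        have h3 := hpS p hp
        unfold specGroup at hap
        simp only [List.mem_cons, List.not_mem_nil, or_false] at hap
        rcases hap with rfl | rfl | rfl
        · exact ⟨h3.2, h3.1⟩
        · exact h3
        · split_ifs
          · exact ⟨h3.2, h3.1⟩
          · exact h3
    simpa using h2
  · -- weights
    have hwY : wt W (arcs Y) = wt W GW + wt W (spp'.flatMap (specGroup W)) := by
      rw [wt_perm W hYG, wt_append, wt_perm W hXG]
    have hwGW : wt W GW = wt W (restr S ((permArcs n C).filter (fun a => !(sp a)))) +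
        wt W (restr S D) := by
      rw [hGW]
      unfold colGraph restr
      rw [List.filter_append, wt_append]
    have hwP : wt W (restr S (permArcs n C)) =
        wt W (restr S ((permArcs n C).filter (fun a => !(sp a)))) +
        wt W (restr S ((permArcs n C).filter sp)) := by
      rw [wt_split W sp (restr S (permArcs n C))]
      unfold restr
      rw [List.filter_comm, List.filter_comm sp]
    have hnd : (restr S ((permArcs n C).filter sp)).Nodup := by
      unfold restr
      exact ((List.Nodup.of_map _ (permArcs_tails n C)).filter _).filter _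
    have hw3 : wt W (restr S ((permArcs n C).filter sp)) ≤
        wt W (spp'.flatMap (fun p => [(p.1, p.2), (p.2, p.1)])) := by
      apply wt_subset W hnd
      intro a ha
      unfold restr at ha
      rw [List.mem_filter, List.mem_filter, hsp, List.any_eq_true] at ha
      obtain ⟨⟨haP, p, hp, hpa⟩, haS⟩ := ha
      have haS' : a.1 ∈ S := by simpa using haS
      have h5 := arc_special h hp haP hpa
      have h6 : p.1 ∈ S := by
        rcases h5 with rfl | rfl
        · exact haS'
        · have h7 : (p.2, p.1) ∈ full n C D := by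
            unfold full
            exact List.mem_append_left _ haP
          exact (hcl _ h7).1 haS'
      rw [List.mem_flatMap]
      refine ⟨p, ?_, ?_⟩
      · rw [hspp', List.mem_filter]
        exact ⟨hp, by simpa using h6⟩
      · simpa using h5
    rw [wt_flatMap] at hw3 hwY
    have hw4 : (spp'.map (fun p => ent W p.1 p.2 + ent W p.2 p.1)).sum +
        2 * (spp'.map (fun p => wt W [(p.1, p.2), (p.2, p.1)])).sum ≤
        2 * (spp'.map (fun p => wt W (specGroup W p))).sum := by
      generalize spp' = l
      induction l with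
      | nil => simp
      | cons p l ih =>
        rw [List.map_cons, List.map_cons, List.map_cons, List.sum_cons, List.sum_cons,
          List.sum_cons]
        have h9 : (ent W p.1 p.2 + ent W p.2 p.1) + 2 * wt W [(p.1, p.2), (p.2, p.1)] ≤
            2 * wt W (specGroup W p) := by
          unfold specGroup wt
          split_ifs with hlt
          · simp
            omega
          · simp
            omega
        omega
    unfold wt2
    have h10 : restr S spp = spp' := rfl
    rw [h10]
    omega

end Vale.Agent.Lib.P333.Alg
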