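import Mathlib
import Vale.Agent.Lib.P333.Col
import Vale.Agent.Lib.P333.Col0
import Vale.Agent.Lib.P333.Col1

/-! P333, module COL3 -/

namespace Vale.Agent.Lib.P333.Alg

/-! ### COL3: full vertex, bridge case 5.4 (a1) -/

theorem col3_one_colour (l : List CArc) (P : CArc → Bool) (hc : ∀ a ∈ l, a.2 < 3)
    (h : (l.filter P).length ≤ 1) : ∃ c < 3, ∀ a ∈ l, P a = true → a.2 = c := by
  match hl : l.filter P with
  | [] =>
    refine ⟨0, by norm_num, fun a ha hP => ?_⟩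
    have : a ∈ l.filter P := List.mem_filter.2 ⟨ha, hP⟩
    rw [hl] at this
    exact absurd this List.not_mem_nil
  | [b] =>
    have hb : b ∈ l.filter P := by rw [hl]; exact List.mem_cons_self
    refine ⟨b.2, hc b (List.mem_of_mem_filter hb), fun a ha hP => ?_⟩
    have : a ∈ l.filter P := List.mem_filter.2 ⟨ha, hP⟩
    rw [hl, List.mem_singleton] at this
    rw [this]
  | b :: b' :: t =>
    rw [hl] at h
    simp at h

/-- at most one coloured arc satisfies `P` if `G` has at most two of them, one of which is at `z` -/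
theorem col3_unique {G : List Arc} {X : List CArc} {z : ℕ}
    (hXG : (arcs X).Perm (G.filter (fun a => !(inc z a)))) (P : Arc → Bool)
    (h2 : (G.filter P).length ≤ 2) {a0 : Arc} (ha0 : a0 ∈ G) (hi : inc z a0 = true)
    (hP : P a0 = true) : (X.filter (fun a => P a.1)).length ≤ 1 := by
  have e1 : (X.filter (fun a => P a.1)).length = (G.filter (fun a => !(inc z a))).countP P := by
    rw [← hXG.countP_eq, arcs, List.countP_map, List.countP_eq_length_filter]
    rfl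
  have e2 : (G.filter P).length = (G.filter (fun a => inc z a)).countP P +
      (G.filter (fun a => !(inc z a))).countP P := by
    rw [← List.countP_eq_length_filter, List.countP_eq_countP_filter_add G P (fun a => inc z a)]
  have e3 : 0 < (G.filter (fun a => inc z a)).countP P := by
    rw [List.countP_pos_iff]
    exact ⟨a0, List.mem_filter.2 ⟨ha0, hi⟩, hP⟩
  omega

theorem col3_zip_map (g : List Arc) (f : Arc → ℕ) :
    g.zip (g.map f) = g.map (fun a => (a, f a)) := by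
  induction g with
  | nil => rfl
  | cons a g ih => simp [ih]

/-- the finite check -/
theorem col3_check_aux : ∀ q : (Fin 3 × Fin 3) × (Fin 3 × Fin 3),
    ∃ r : (Fin 3 × Fin 3) × (Fin 3 × Fin 3),
      (r.1.1 ≠ q.1.1 ∧ r.1.2 ≠ q.1.2) ∧ (r.1.1 ≠ r.1.2 ∧ r.2.1 ≠ q.2.1) ∧
      (r.2.1 ≠ r.1.1 ∧ r.2.2 ≠ q.2.2) ∧ (r.2.2 ≠ r.1.2 ∧ r.2.1 ≠ r.2.2) := by
  decide

theorem col3_check (β δ s t : Fin 3) : ∃ c1 c2 c3 c4 : Fin 3,
    c1 ≠ β ∧ c2 ≠ δ ∧ c1 ≠ c2 ∧ c3 ≠ s ∧ c3 ≠ c1 ∧ c4 ≠ t ∧ c4 ≠ c2 ∧ c3 ≠ c4 := by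
  obtain ⟨r, ⟨h1, h2⟩, ⟨h3, h4⟩, ⟨h5, h6⟩, ⟨h7, h8⟩⟩ := col3_check_aux ((β, δ), (s, t))
  exact ⟨r.1.1, r.1.2, r.2.1, r.2.2, h1, h2, h3, h4, h5, h6, h7, h8⟩

/-- assignment of colours to the four arcs -/
theorem col3_fun {z p x y : ℕ} (hyp : y ≠ p) (hxp : x ≠ p) (hpz : p ≠ z) (hyz : y ≠ z)
    (c1 c2 c3 c4 : ℕ) (h1 : c1 < 3) (h2 : c2 < 3) (h3 : c3 < 3) (h4 : c4 < 3) :
    ∃ f : Arc → ℕ, f (y, z) = c1 ∧ f (z, x) = c2 ∧ f (p, z) = c3 ∧ f (z, p) = c4 ∧
      ∀ a, f a < 3 := by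
  refine ⟨fun a =>
    if a = (y, z) then c1 else if a = (z, x) then c2 else if a = (p, z) then c3 else c4,
    ?_, ?_, ?_, ?_, ?_⟩
  · simp
  · simp [hyz.symm]
  · simp [hyp.symm, hpz]
  · simp [hyz.symm, hpz.symm, hxp.symm]
  · intro a
    simp only
    split_ifs <;> assumption

/-- nodup of the arcs at `z` -/
theorem col3_nodup {G : List Arc} {z : ℕ} (e1 : (G.filter (fun a => a.2 == z)).Nodup)
    (e2 : (G.filter (fun a => a.1 == z)).Nodup) : (G.filter (fun a => inc z a)).Nodup := by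
  rw [List.nodup_iff_count_le_one] at e1 e2 ⊢
  intro a
  by_cases ha : a.2 = z
  · have := e1 a
    rw [List.count_filter (by simpa using ha)] at this
    have hi : inc z a = true := by simp [inc, ha]
    rw [List.count_filter hi]
    exact this
  · by_cases ha1 : a.1 = z
    · have := e2 a
      rw [List.count_filter (by simpa using ha1)] at this
      have hi : inc z a = true := by simp [inc, ha1]
      rw [List.count_filter hi]
      exact this
    · rw [List.count_eq_zero_of_not_mem]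
      · omega
      · rw [List.mem_filter, inc]
        simp [ha, ha1]

/-- the core: the arcs at `z` with their colours -/
theorem col3_core {n : ℕ} {B : List ℕ} {g : List Arc} {X : List CArc} {z p x y : ℕ}
    {c1 c2 c3 c4 s t β δ : ℕ} {f : Arc → ℕ}
    (hX : Ok n B X) (hXz : ∀ a ∈ X, inc z a.1 = false)
    (hmg : ∀ a : Arc, a ∈ g ↔ a = (p, z) ∨ a = (y, z) ∨ a = (z, p) ∨ a = (z, x))
    (hgn : g.Nodup) (hyp : y ≠ p) (hxp : x ≠ p) (hpz : p ≠ z) (hyz : y ≠ z) (hzx : z ≠ x)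
    (hzn : z < n) (hpn : p < n) (hyn : y < n) (hxn : x < n)
    (hBz : z ∉ B) (hBp : p ∉ B) (hBx : x ∉ B) (hBy : y ∉ B)
    (h1 : ∀ c < 3, ¬ Reach (cls c X) x p) (h2 : ∀ c < 3, ¬ Reach (cls c X) p y)
    (hβ' : ∀ a ∈ X, a.1.1 = y → a.2 = β) (hδ' : ∀ a ∈ X, a.1.2 = x → a.2 = δ)
    (hs' : ∀ a ∈ X, a.1.1 = p → a.2 = s) (ht' : ∀ a ∈ X, a.1.2 = p → a.2 = t)
    (hc1 : c1 < 3) (hc2 : c2 < 3) (hc3 : c3 < 3) (hc4 : c4 < 3)
    (n1 : c1 ≠ β) (n2 : c2 ≠ δ) (n12 : c1 ≠ c2) (n3 : c3 ≠ s) (n31 : c3 ≠ c1) (n4 : c4 ≠ t)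
    (n42 : c4 ≠ c2) (n34 : c3 ≠ c4)
    (fyz : f (y, z) = c1) (fzx : f (z, x) = c2) (fpz : f (p, z) = c3) (fzp : f (z, p) = c4) :
    Ok n B (g.map (fun a => (a, f a)) ++ X) := by
  have hmY : ∀ a : CArc, a ∈ g.map (fun a => (a, f a)) ↔
      a = ((p, z), c3) ∨ a = ((y, z), c1) ∨ a = ((z, p), c4) ∨ a = ((z, x), c2) := by
    intro a
    rw [List.mem_map]
    constructor
    · rintro ⟨b, hb, rfl⟩
      rcases (hmg b).1 hb with rfl | rfl | rfl | rfl
      · left; rw [fpz]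
      · right; left; rw [fyz]
      · right; right; left; rw [fzp]
      · right; right; right; rw [fzx]
    · rintro (rfl | rfl | rfl | rfl)
      · exact ⟨(p, z), (hmg _).2 (Or.inl rfl), by rw [fpz]⟩
      · exact ⟨(y, z), (hmg _).2 (Or.inr (Or.inl rfl)), by rw [fyz]⟩
      · exact ⟨(z, p), (hmg _).2 (Or.inr (Or.inr (Or.inl rfl))), by rw [fzp]⟩
      · exact ⟨(z, x), (hmg _).2 (Or.inr (Or.inr (Or.inr rfl))), by rw [fzx]⟩
  have hYn : (g.map (fun a => (a, f a))).Nodup := by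
    refine hgn.map ?_
    intro a b hab
    exact congrArg Prod.fst hab
  have hcls : ∀ c, ∀ a ∈ cls c (g.map (fun a => (a, f a))), a ∈ g ∧ f a = c := by
    intro c a ha
    simp only [cls, List.mem_map, List.mem_filter, beq_iff_eq] at ha
    obtain ⟨b, ⟨⟨d, hd, rfl⟩, hb2⟩, rfl⟩ := ha
    exact ⟨hd, hb2⟩
  have hinjT : ∀ c, ∀ a ∈ cls c (g.map (fun a => (a, f a))),
      ∀ a' ∈ cls c (g.map (fun a => (a, f a))), a.1 = a'.1 → a = a' := by
    intro c a ha a' ha' haa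
    obtain ⟨hd, hb2⟩ := hcls c a ha
    obtain ⟨hd', hb2'⟩ := hcls c a' ha'
    rcases (hmg a).1 hd with rfl | rfl | rfl | rfl <;>
      rcases (hmg a').1 hd' with rfl | rfl | rfl | rfl <;>
      first
        | rfl
        | (exfalso; simp only at haa; omega)
  have hinjH : ∀ c, ∀ a ∈ cls c (g.map (fun a => (a, f a))),
      ∀ a' ∈ cls c (g.map (fun a => (a, f a))), a.2 = a'.2 → a = a' := by
    intro c a ha a' ha' haa
    obtain ⟨hd, hb2⟩ := hcls c a ha
    obtain ⟨hd', hb2'⟩ := hcls c a' ha'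
    rcases (hmg a).1 hd with rfl | rfl | rfl | rfl <;>
      rcases (hmg a').1 hd' with rfl | rfl | rfl | rfl <;>
      first
        | rfl
        | (exfalso; simp only at haa; omega)
  have hclsn : ∀ c, (cls c (g.map (fun a => (a, f a)))).Nodup := by
    intro c
    rw [cls]
    refine List.Nodup.map_on ?_ (hYn.filter _)
    intro a ha b hb hab
    rw [List.mem_filter, List.mem_map] at ha hb
    obtain ⟨⟨d, _, rfl⟩, _⟩ := ha
    obtain ⟨⟨d', _, rfl⟩, _⟩ := hb
    simp only at hab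
    rw [hab]
  refine ok_insert hzn hX hXz ?_ ?_ ?_ ?_ ?_ ?_ ?_ ?_
  · intro a ha
    rcases (hmY a).1 ha with rfl | rfl | rfl | rfl
    · exact Or.inr ⟨rfl, hpz, hpn⟩
    · exact Or.inr ⟨rfl, hyz, hyn⟩
    · exact Or.inl ⟨rfl, hpz, hpn⟩
    · exact Or.inl ⟨rfl, hzx.symm, hxn⟩
  · intro a ha
    rcases (hmY a).1 ha with rfl | rfl | rfl | rfl <;> assumption
  · intro c hc
    exact List.Nodup.map_on (fun a ha b hb hab => hinjT c a ha b hb hab) (hclsn c)
  · intro c hc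
    exact List.Nodup.map_on (fun a ha b hb hab => hinjH c a ha b hb hab) (hclsn c)
  · intro a ha a' ha' hcol htail
    have hz' := hXz a' ha'
    simp only [inc, Bool.or_eq_false_iff, beq_eq_false_iff_ne, ne_eq] at hz'
    rcases (hmY a).1 ha with rfl | rfl | rfl | rfl
    · have := hs' a' ha' htail.symm
      simp only at hcol
      omega
    · have := hβ' a' ha' htail.symm
      simp only at hcol
      omega
    · exact hz'.1 htail.symm
    · exact hz'.1 htail.symm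
  · intro a ha a' ha' hcol hhead
    have hz' := hXz a' ha'
    simp only [inc, Bool.or_eq_false_iff, beq_eq_false_iff_ne, ne_eq] at hz'
    rcases (hmY a).1 ha with rfl | rfl | rfl | rfl
    · exact hz'.2 hhead.symm
    · exact hz'.2 hhead.symm
    · have := ht' a' ha' hhead.symm
      simp only at hcol
      omega
    · have := hδ' a' ha' hhead.symm
      simp only at hcol
      omega
  · intro b hb a ha a' ha' hab ha'b
    rcases List.mem_append.1 ha with ha | ha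
    · exfalso
      rcases (hmY a).1 ha with rfl | rfl | rfl | rfl <;> simp only at hab <;> subst hab <;>
        contradiction
    · rcases List.mem_append.1 ha' with ha' | ha'
      · exfalso
        rcases (hmY a').1 ha' with rfl | rfl | rfl | rfl <;> simp only at ha'b <;> subst ha'b <;>
          contradiction
      · exact hX.brk b hb a ha a' ha' hab ha'b
  · intro p' q' c hp' hq' hR
    have e1 : (p' = p ∧ c = c3) ∨ (p' = y ∧ c = c1) := by
      rcases (hmY _).1 hp' with e | e | e | e <;> simp only [Prod.mk.injEq] at e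
      · exact Or.inl ⟨e.1.1, e.2⟩
      · exact Or.inr ⟨e.1.1, e.2⟩
      · exact absurd e.1.2.symm hpz
      · exact absurd e.1.2 hzx
    have e2 : (q' = p ∧ c = c4) ∨ (q' = x ∧ c = c2) := by
      rcases (hmY _).1 hq' with e | e | e | e <;> simp only [Prod.mk.injEq] at e
      · exact absurd e.1.1.symm hpz
      · exact absurd e.1.1.symm hyz
      · exact Or.inl ⟨e.1.2, e.2⟩
      · exact Or.inr ⟨e.1.2, e.2⟩
    rcases e1 with ⟨rfl, rfl⟩ | ⟨rfl, rfl⟩
    · rcases e2 with ⟨_, h⟩ | ⟨rfl, h⟩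
      · exact n34 h
      · exact h1 _ hc3 hR
    · rcases e2 with ⟨rfl, h⟩ | ⟨_, h⟩
      · exact h2 _ hc1 hR
      · exact n12 h

theorem ext_bridge {n : ℕ} {B : List ℕ} {G : List Arc} {X : List CArc} {z p x y : ℕ}
    (hG : Good n B G) (hX : Ok n B X) (hXG : (arcs X).Perm (G.filter (fun a => !(inc z a))))
    (hin : (G.filter (fun a => a.2 == z)).Perm [(p, z), (y, z)])
    (hout : (G.filter (fun a => a.1 == z)).Perm [(z, p), (z, x)])
    (hyp : y ≠ p) (hxp : x ≠ p)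
    (hB : z ∉ B ∧ p ∉ B ∧ x ∉ B ∧ y ∉ B)
    (h1 : ∀ c < 3, ¬ Reach (cls c X) x p) (h2 : ∀ c < 3, ¬ Reach (cls c X) p y) :
    ∃ w ∈ words (G.filter (fun a => inc z a)).length,
      Ok n B ((G.filter (fun a => inc z a)).zip w ++ X) := by
  obtain ⟨hBz, hBp, hBx, hBy⟩ := hB
  have hmin : ∀ a : Arc, a ∈ G ∧ a.2 = z ↔ a = (p, z) ∨ a = (y, z) := by
    intro a
    have := hin.mem_iff (a := a)
    simpa using this
  have hmout : ∀ a : Arc, a ∈ G ∧ a.1 = z ↔ a = (z, p) ∨ a = (z, x) := by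
    intro a
    have := hout.mem_iff (a := a)
    simpa using this
  have gpz : (p, z) ∈ G := ((hmin (p, z)).2 (Or.inl rfl)).1
  have gyz : (y, z) ∈ G := ((hmin (y, z)).2 (Or.inr rfl)).1
  have gzp : (z, p) ∈ G := ((hmout (z, p)).2 (Or.inl rfl)).1
  have gzx : (z, x) ∈ G := ((hmout (z, x)).2 (Or.inr rfl)).1
  have hpz : p ≠ z := hG.loopless _ gpz
  have hyz : y ≠ z := hG.loopless _ gyz
  have hzx : z ≠ x := hG.loopless _ gzx
  have hzn : z < n := (hG.lt _ gzp).1
  -- colours of the other arcs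
  obtain ⟨β, hβ, hβ'⟩ := col3_one_colour X (fun a => a.1.1 == y) hX.col
    (col3_unique hXG (fun a => a.1 == y) (hG.out y) gyz (by simp [inc]) (by simp))
  obtain ⟨δ, hδ, hδ'⟩ := col3_one_colour X (fun a => a.1.2 == x) hX.col
    (col3_unique hXG (fun a => a.2 == x) (hG.inn x) gzx (by simp [inc]) (by simp))
  obtain ⟨s, hs, hs'⟩ := col3_one_colour X (fun a => a.1.1 == p) hX.col
    (col3_unique hXG (fun a => a.1 == p) (hG.out p) gpz (by simp [inc]) (by simp))
  obtain ⟨t, ht, ht'⟩ := col3_one_colour X (fun a => a.1.2 == p) hX.col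
    (col3_unique hXG (fun a => a.2 == p) (hG.inn p) gzp (by simp [inc]) (by simp))
  obtain ⟨c1, c2, c3, c4, n1, n2, n12, n3, n31, n4, n42, n34⟩ :=
    col3_check ⟨β, hβ⟩ ⟨δ, hδ⟩ ⟨s, hs⟩ ⟨t, ht⟩
  obtain ⟨f, fyz, fzx, fpz, fzp, hf3⟩ :=
    col3_fun hyp hxp hpz hyz c1 c2 c3 c4 c1.2 c2.2 c3.2 c4.2
  refine ⟨(G.filter (fun a => inc z a)).map f, mem_words.2 ⟨by simp, ?_⟩, ?_⟩
  · intro c hc
    obtain ⟨a, _, rfl⟩ := List.mem_map.1 hc
    exact hf3 a
  rw [col3_zip_map]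
  refine col3_core (c1 := c1) (c2 := c2) (c3 := c3) (c4 := c4) (s := s) (t := t) (β := β) (δ := δ)
    hX ?_ ?_ ?_ hyp hxp hpz hyz hzx hzn (hG.lt _ gpz).1 (hG.lt _ gyz).1 (hG.lt _ gzx).2
    hBz hBp hBx hBy h1 h2 (fun a ha h => hβ' a ha (by simpa using h))
    (fun a ha h => hδ' a ha (by simpa using h)) (fun a ha h => hs' a ha (by simpa using h))
    (fun a ha h => ht' a ha (by simpa using h)) c1.2 c2.2 c3.2 c4.2
    (fun h => n1 (Fin.ext h)) (fun h => n2 (Fin.ext h)) (fun h => n12 (Fin.ext h))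
    (fun h => n3 (Fin.ext h)) (fun h => n31 (Fin.ext h)) (fun h => n4 (Fin.ext h))
    (fun h => n42 (Fin.ext h)) (fun h => n34 (Fin.ext h)) fyz fzx fpz fzp
  · intro a ha
    have : a.1 ∈ G.filter (fun a => !(inc z a)) := hXG.mem_iff.1 (List.mem_map.2 ⟨a, ha, rfl⟩)
    simpa using (List.mem_filter.1 this).2
  · intro a
    have e1 : a ∈ G.filter (fun a => inc z a) ↔ (a ∈ G ∧ a.2 = z) ∨ (a ∈ G ∧ a.1 = z) := by
      rw [List.mem_filter, inc]
      simp only [Bool.or_eq_true, beq_iff_eq]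
      tauto
    rw [e1, hmin, hmout]
    tauto
  · refine col3_nodup ?_ ?_
    · rw [hin.nodup_iff]
      simp [hyp.symm]
    · rw [hout.nodup_iff]
      simp [hxp.symm]

end Vale.Agent.Lib.P333.Alg
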