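import Mathlib
import Vale.Agent.Lib.P333.Col
import Vale.Agent.Lib.P333.Col0
import Vale.Agent.Lib.P333.Col1

/-! P333, module COL4 -/

namespace Vale.Agent.Lib.P333.Alg

/-! ### COL4: full vertex, loop case 5.4 (a2) -/

namespace Col4

/-- a list whose first components are a permutation of `g` is a permutation of `g.zip w` -/
theorem exists_zip (g : List Arc) : ∀ (Y : List CArc), g.Perm (arcs Y) →
    ∃ w : List ℕ, w.length = g.length ∧ (g.zip w).Perm Y := by
  induction g with
  | nil =>
    intro Y h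
    refine ⟨[], rfl, ?_⟩
    have : arcs Y = [] := List.Perm.eq_nil h.symm
    unfold arcs at this
    rw [List.map_eq_nil_iff] at this
    rw [this]
    exact List.Perm.refl _
  | cons a g ih =>
    intro Y h
    have ha : a ∈ arcs Y := h.subset List.mem_cons_self
    unfold arcs at ha
    rw [List.mem_map] at ha
    obtain ⟨b, hb, hba⟩ := ha
    have hY : Y.Perm (b :: Y.erase b) := List.perm_cons_erase hb
    have h2 : (a :: g).Perm (a :: arcs (Y.erase b)) := by
      refine h.trans ?_
      have := hY.map (fun a : CArc => a.1)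
      rw [List.map_cons, hba] at this
      exact this
    obtain ⟨w, hw, hp⟩ := ih (Y.erase b) (List.Perm.cons_inv h2)
    refine ⟨b.2 :: w, by simp [hw], ?_⟩
    rw [List.zip_cons_cons]
    have : (a, b.2) = b := by rw [← hba]
    rw [this]
    exact (hp.cons b).trans hY.symm

theorem mem_cls {c : ℕ} {X : List CArc} {a : Arc} : a ∈ cls c X ↔ (a, c) ∈ X := by
  unfold cls
  simp only [List.mem_map, List.mem_filter, beq_iff_eq]
  constructor
  · rintro ⟨b, ⟨hb, hc⟩, rfl⟩
    rw [← hc]
    exact hb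
  · intro h
    exact ⟨(a, c), ⟨h, rfl⟩, rfl⟩

theorem cls_perm {c : ℕ} {X Y : List CArc} (h : X.Perm Y) : (cls c X).Perm (cls c Y) :=
  (h.filter _).map _

theorem cls_sublist {c : ℕ} {X Y : List CArc} (h : X.Sublist Y) : (cls c X).Sublist (cls c Y) :=
  (h.filter _).map _

theorem pc_perm {n : ℕ} {P Q : List Arc} (h : P.Perm Q) (hP : PC n P) : PC n Q := by
  rw [pc_iff_acyclic] at hP ⊢
  obtain ⟨h1, h2, h3, h4⟩ := hP
  refine ⟨(h.map _).nodup_iff.mp h1, (h.map _).nodup_iff.mp h2, fun a ha => h3 a (h.mem_iff.mpr ha),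
    fun v hv => h4 v (Relation.TransGen.mono (fun a b hab => h.mem_iff.mpr hab) _ _ hv)⟩

theorem pc_sublist {n : ℕ} {P Q : List Arc} (h : P.Sublist Q) (hP : PC n Q) : PC n P := by
  rw [pc_iff_acyclic] at hP ⊢
  obtain ⟨h1, h2, h3, h4⟩ := hP
  exact ⟨h1.sublist (h.map _), h2.sublist (h.map _), fun a ha => h3 a (h.subset ha),
    fun v hv => h4 v (Relation.TransGen.mono (fun a b hab => h.subset hab) _ _ hv)⟩

theorem ok_perm {n : ℕ} {B : List ℕ} {X Y : List CArc} (h : X.Perm Y) (hX : Ok n B X) :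
    Ok n B Y :=
  ⟨fun a ha => hX.col a (h.mem_iff.mpr ha), fun c hc => pc_perm (cls_perm h) (hX.pc c hc),
    fun b hb a ha a' ha' => hX.brk b hb a (h.mem_iff.mpr ha) a' (h.mem_iff.mpr ha')⟩

theorem ok_sublist {n : ℕ} {B : List ℕ} {X Y : List CArc} (h : X.Sublist Y) (hY : Ok n B Y) :
    Ok n B X :=
  ⟨fun a ha => hY.col a (h.subset ha), fun c hc => pc_sublist (cls_sublist h) (hY.pc c hc),
    fun b hb a ha a' ha' => hY.brk b hb a (h.subset ha) a' (h.subset ha')⟩

theorem eq_of_countP_le {α : Type} (q : α → Bool) : ∀ (l : List α), l.countP q ≤ 1 →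
    ∀ a ∈ l, ∀ b ∈ l, q a = true → q b = true → a = b := by
  intro l h a ha b hb hqa hqb
  rw [List.countP_eq_length_filter] at h
  have ha' : a ∈ l.filter q := List.mem_filter.mpr ⟨ha, hqa⟩
  have hb' : b ∈ l.filter q := List.mem_filter.mpr ⟨hb, hqb⟩
  rcases hl : l.filter q with _ | ⟨c, t⟩
  · rw [hl] at ha'
    simp at ha'
  · rw [hl] at ha' hb' h
    have ht : t = [] := by
      cases t with
      | nil => rfl
      | cons d t' => simp at h
    rw [ht] at ha' hb'
    rw [List.mem_singleton] at ha' hb'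
    rw [ha', hb']

theorem nodup_cls {f : Arc → ℕ} {Y : List CArc}
    (h : Y.Pairwise (fun a b => a.2 = b.2 → f a.1 ≠ f b.1)) (c : ℕ) :
    ((cls c Y).map f).Nodup := by
  unfold cls
  rw [List.map_map, List.Nodup, List.pairwise_map]
  refine (h.filter (fun a => a.2 == c)).imp_of_mem ?_
  intro a b ha hb hab
  rw [List.mem_filter] at ha hb
  have ha2 : a.2 = c := by simpa using ha.2
  have hb2 : b.2 = c := by simpa using hb.2
  exact hab (ha2.trans hb2.symm)

theorem countP_arcs (q : Arc → Bool) (X : List CArc) :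
    (arcs X).countP q = X.countP (fun a => q a.1) := by
  unfold arcs
  rw [List.countP_map]
  rfl

/-- the choice of the colours -/
theorem choice {O I Oy : ℕ → Prop} {Ix : ℕ → Prop} {Rxp Rpy Rxy : ℕ → Prop} {l : ℕ} (hl : l < 3)
    {yp xp : Prop}
    (hO : ∀ c c', O c → O c' → c = c') (hI : ∀ c c', I c → I c' → c = c')
    (hOy : ∀ c c', Oy c → Oy c' → c = c')
    (hOyp : yp → ∀ c, ¬ O c) (hIxp : xp → ∀ c, ¬ I c)
    (hOyl : ¬ Oy l) (hIxl : ¬ Ix l)
    (hR1 : ∀ c, ¬ I c → ¬ xp → ¬ Rxp c) (hR2 : ∀ c, ¬ O c → ¬ yp → ¬ Rpy c)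
    (hR3 : ¬ Rxy l) :
    ∃ c1 c2 c3 c4 : ℕ, c1 < 3 ∧ c2 < 3 ∧ c3 < 3 ∧ c4 < 3 ∧ c1 ≠ c2 ∧ c3 ≠ c4 ∧
      ¬ O c1 ∧ ¬ Oy c2 ∧ ¬ I c3 ∧ ¬ Ix c4 ∧ c1 ≠ c3 ∧ (c1 = c4 → ¬ Rxp c1) ∧
      (c2 = c3 → ¬ Rpy c2) ∧ (c2 = c4 → ¬ Rxy c2) := by
  obtain ⟨m, k, hm, hk, hmk, hml, hkl⟩ : ∃ m k : ℕ, m < 3 ∧ k < 3 ∧ m ≠ k ∧ m ≠ l ∧ k ≠ l := by
    interval_cases l
    · exact ⟨1, 2, by omega⟩
    · exact ⟨0, 2, by omega⟩
    · exact ⟨0, 1, by omega⟩
  -- the generic case
  have gen : ∀ a b : ℕ, a < 3 → b < 3 → a ≠ b → a ≠ l → b ≠ l → ¬ O a → ¬ I b →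
      ∃ c1 c2 c3 c4 : ℕ, c1 < 3 ∧ c2 < 3 ∧ c3 < 3 ∧ c4 < 3 ∧ c1 ≠ c2 ∧ c3 ≠ c4 ∧
      ¬ O c1 ∧ ¬ Oy c2 ∧ ¬ I c3 ∧ ¬ Ix c4 ∧ c1 ≠ c3 ∧ (c1 = c4 → ¬ Rxp c1) ∧
      (c2 = c3 → ¬ Rpy c2) ∧ (c2 = c4 → ¬ Rxy c2) := by
    intro a b ha hb hab hal hbl hOa hIb
    exact ⟨a, l, b, l, ha, hl, hb, hl, hal, hbl, hOa, hOyl, hIb, hIxl, hab,
      fun h => absurd h hal, fun h => absurd h.symm hbl, fun _ => hR3⟩
  -- the special case
  have spec : ∀ a b : ℕ, a < 3 → b < 3 → a ≠ b → a ≠ l → b ≠ l → O a → I a →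
      ∃ c1 c2 c3 c4 : ℕ, c1 < 3 ∧ c2 < 3 ∧ c3 < 3 ∧ c4 < 3 ∧ c1 ≠ c2 ∧ c3 ≠ c4 ∧
      ¬ O c1 ∧ ¬ Oy c2 ∧ ¬ I c3 ∧ ¬ Ix c4 ∧ c1 ≠ c3 ∧ (c1 = c4 → ¬ Rxp c1) ∧
      (c2 = c3 → ¬ Rpy c2) ∧ (c2 = c4 → ¬ Rxy c2) := by
    intro a b ha hb hab hal hbl hOa hIa
    have hyp : ¬ yp := fun h => hOyp h a hOa
    have hxp : ¬ xp := fun h => hIxp h a hIa
    have hOl : ¬ O l := fun h => hal (hO a l hOa h)
    have hIl : ¬ I l := fun h => hal (hI a l hIa h)
    have hOb : ¬ O b := fun h => hab (hO a b hOa h)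
    have hIb : ¬ I b := fun h => hab (hI a b hIa h)
    by_cases hy : Oy a
    · have hyb : ¬ Oy b := fun h => hab (hOy a b hy h)
      exact ⟨l, b, b, l, hl, hb, hb, hl, Ne.symm hbl, hbl, hOl, hyb, hIb, hIxl, Ne.symm hbl,
        fun _ => hR1 l hIl hxp, fun _ => hR2 b hOb hyp, fun h => absurd h hbl⟩
    · exact ⟨l, a, b, l, hl, ha, hb, hl, Ne.symm hal, hbl, hOl, hy, hIb, hIxl, Ne.symm hbl,
        fun _ => hR1 l hIl hxp, fun h => absurd h hab, fun h => absurd h hal⟩
  by_cases h1 : ¬ O m ∧ ¬ I k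
  · exact gen m k hm hk hmk hml hkl h1.1 h1.2
  by_cases h2 : ¬ O k ∧ ¬ I m
  · exact gen k m hk hm (Ne.symm hmk) hkl hml h2.1 h2.2
  by_cases hOm : O m
  · have hOk : ¬ O k := fun h => hmk (hO m k hOm h)
    have hIm : I m := by
      by_contra h
      exact h2 ⟨hOk, h⟩
    exact spec m k hm hk hmk hml hkl hOm hIm
  · have hIk : I k := by
      by_contra h
      exact h1 ⟨hOm, h⟩
    have hIm : ¬ I m := fun h => hmk (hI m k h hIk)
    have hOk : O k := by
      by_contra h
      exact h2 ⟨h, hIm⟩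
    exact spec k m hk hm (Ne.symm hmk) hkl hml hOk hIk

end Col4

open Col4

theorem ext_loop {n : ℕ} {B : List ℕ} {G : List Arc} {X : List CArc} {z p x y : ℕ}
    (hG : Good n B G) (hX : Ok n B X)
    (hXG : (arcs X).Perm ((y, x) :: G.filter (fun a => !(inc z a))))
    (hin : (G.filter (fun a => a.2 == z)).Perm [(p, z), (y, z)])
    (hout : (G.filter (fun a => a.1 == z)).Perm [(z, p), (z, x)])
    (hyx : y ≠ x) (hB : z ∉ B ∧ p ∉ B ∧ x ∉ B ∧ y ∉ B) :
    ∃ w ∈ words (G.filter (fun a => inc z a)).length,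
      Ok n B ((G.filter (fun a => inc z a)).zip w ++ X.eraseP (fun a => a.1 == (y, x))) := by
  -- arcs at `z` in `G`
  have hpz : (p, z) ∈ G := List.mem_of_mem_filter (hin.mem_iff.mpr (by simp))
  have hyz : (y, z) ∈ G := List.mem_of_mem_filter (hin.mem_iff.mpr (by simp))
  have hzp : (z, p) ∈ G := List.mem_of_mem_filter (hout.mem_iff.mpr (by simp))
  have hzx : (z, x) ∈ G := List.mem_of_mem_filter (hout.mem_iff.mpr (by simp))
  have npz : p ≠ z := hG.loopless _ hpz
  have nyz : y ≠ z := hG.loopless _ hyz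
  have nzx : z ≠ x := hG.loopless _ hzx
  have lz : z < n := (hG.lt _ hpz).2
  have lp : p < n := (hG.lt _ hpz).1
  have ly : y < n := (hG.lt _ hyz).1
  have lx : x < n := (hG.lt _ hzx).2
  obtain ⟨zB, pB, xB, yB⟩ := hB
  -- the group
  have hg : (G.filter (fun a => inc z a)).Perm [(p, z), (y, z), (z, p), (z, x)] := by
    have h1 := List.filter_append_perm (fun a : Arc => a.2 == z) (G.filter (fun a => inc z a))
    refine h1.symm.trans ?_
    have e1 : (G.filter (fun a => inc z a)).filter (fun a => a.2 == z)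
        = G.filter (fun a => a.2 == z) := by
      rw [List.filter_filter]
      refine List.filter_congr (fun a _ => ?_)
      unfold inc
      cases (a.2 == z) <;> simp
    have e2 : (G.filter (fun a => inc z a)).filter (fun a => !(a.2 == z))
        = G.filter (fun a => a.1 == z) := by
      rw [List.filter_filter]
      refine List.filter_congr (fun a ha => ?_)
      have hl := hG.loopless a ha
      unfold inc
      by_cases ha2 : a.2 = z
      · have ha1 : (a.1 == z) = false := by
          rw [beq_eq_false_iff_ne]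
          exact fun h => hl (h.trans ha2.symm)
        have ha3 : (a.2 == z) = true := by
          rw [beq_iff_eq]
          exact ha2
        rw [ha1, ha3]
        rfl
      · have ha3 : (a.2 == z) = false := by
          rw [beq_eq_false_iff_ne]
          exact ha2
        rw [ha3]
        simp
    rw [e1, e2]
    exact (hin.append hout)
  -- the removed arc
  obtain ⟨e0, he0, he0'⟩ : ∃ e ∈ X, e.1 = (y, x) := by
    have : (y, x) ∈ arcs X := hXG.mem_iff.mpr List.mem_cons_self
    unfold arcs at this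
    rw [List.mem_map] at this
    exact this
  obtain ⟨b, l₁, l₂, -, hb, hXe, hXe'⟩ := List.exists_of_eraseP
    (p := fun a : CArc => a.1 == (y, x)) he0 (by simp [he0'])
  have hb1 : b.1 = (y, x) := by simpa using hb
  set X' : List CArc := X.eraseP (fun a => a.1 == (y, x)) with hX'
  have hperm : X.Perm (b :: X') := by
    rw [hXe, hXe']
    exact List.perm_middle
  have hX1 : Ok n B (b :: X') := ok_perm hperm hX
  have hX2 : Ok n B X' := ok_sublist (List.sublist_cons_self b X') hX1
  set l : ℕ := b.2 with hl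
  have hl3 : l < 3 := hX1.col b List.mem_cons_self
  have hbl : b = ((y, x), l) := Prod.ext hb1 rfl
  have hXG' : (arcs X').Perm (G.filter (fun a => !(inc z a))) := by
    have h1 : (arcs (b :: X')).Perm ((y, x) :: G.filter (fun a => !(inc z a))) :=
      (hperm.map (fun a : CArc => a.1)).symm.trans hXG
    have h2 : arcs (b :: X') = (y, x) :: arcs X' := by
      unfold arcs
      rw [List.map_cons, hb1]
    rw [h2] at h1
    exact List.Perm.cons_inv h1
  have hXz : ∀ a ∈ X', inc z a.1 = false := by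
    intro a ha
    have h1 : a.1 ∈ arcs X' := List.mem_map_of_mem ha
    have h2 := hXG'.mem_iff.mp h1
    rw [List.mem_filter] at h2
    simpa using h2.2
  -- the colour class of the removed arc
  have hclsl : cls l (b :: X') = (y, x) :: cls l X' := by
    unfold cls
    rw [List.filter_cons, if_pos (by simp [hl]), List.map_cons, hb1]
  have hpcl := (pc_iff_acyclic n _).mp (hX1.pc l hl3)
  rw [hclsl] at hpcl
  have hOyl : ¬ ∃ a ∈ X', a.1.1 = y ∧ a.2 = l := by
    rintro ⟨a, ha, hay, hal⟩
    have h1 := hpcl.1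
    rw [List.map_cons, List.nodup_cons] at h1
    refine h1.1 (List.mem_map.mpr ⟨a.1, mem_cls.mpr ?_, hay⟩)
    rw [← hal]
    exact ha
  have hIxl : ¬ ∃ a ∈ X', a.1.2 = x ∧ a.2 = l := by
    rintro ⟨a, ha, hay, hal⟩
    have h1 := hpcl.2.1
    rw [List.map_cons, List.nodup_cons] at h1
    refine h1.1 (List.mem_map.mpr ⟨a.1, mem_cls.mpr ?_, hay⟩)
    rw [← hal]
    exact ha
  have hR3 : ¬ Reach (cls l X') x y := by
    intro h
    refine hpcl.2.2.2 y ?_
    refine Relation.TransGen.head' (b := x) List.mem_cons_self ?_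
    exact Relation.ReflTransGen.mono (fun a b hab => List.mem_cons_of_mem _ hab) _ _ h
  -- degrees
  have hcount : ∀ q : Arc → Bool, G.countP q
      = [(p, z), (y, z), (z, p), (z, x)].countP q + X'.countP (fun a => q a.1) := by
    intro q
    rw [List.countP_eq_countP_filter_add G q (fun a => inc z a), ← hg.countP_eq q,
      ← countP_arcs, hXG'.countP_eq q]
  have hop : X'.countP (fun a => a.1.1 == p) ≤ 1 ∧
      (y = p → X'.countP (fun a => a.1.1 == p) = 0) := by
    have h1 := hG.out p
    unfold outd at h1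
    rw [← List.countP_eq_length_filter, hcount (fun a => a.1 == p)] at h1
    simp only [List.countP_cons, List.countP_nil] at h1
    have e1 : (p == p) = true := by simp
    simp only [e1, if_true] at h1
    constructor
    · omega
    · intro hyp
      have e2 : (y == p) = true := by simp [hyp]
      simp only [e2, if_true] at h1
      omega
  have hip : X'.countP (fun a => a.1.2 == p) ≤ 1 ∧
      (x = p → X'.countP (fun a => a.1.2 == p) = 0) := by
    have h1 := hG.inn p
    unfold ind at h1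
    rw [← List.countP_eq_length_filter, hcount (fun a => a.2 == p)] at h1
    simp only [List.countP_cons, List.countP_nil] at h1
    have e1 : (p == p) = true := by simp
    simp only [e1, if_true] at h1
    constructor
    · omega
    · intro hxp
      have e2 : (x == p) = true := by simp [hxp]
      simp only [e2, if_true] at h1
      omega
  have hoy : X'.countP (fun a => a.1.1 == y) ≤ 1 := by
    have h1 := hG.out y
    unfold outd at h1
    rw [← List.countP_eq_length_filter, hcount (fun a => a.1 == y)] at h1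
    simp only [List.countP_cons, List.countP_nil] at h1
    have e1 : (y == y) = true := by simp
    simp only [e1, if_true] at h1
    omega
  have huniq : ∀ (q : CArc → Bool), X'.countP q ≤ 1 → ∀ c c' : ℕ,
      (∃ a ∈ X', q a = true ∧ a.2 = c) → (∃ a ∈ X', q a = true ∧ a.2 = c') → c = c' := by
    rintro q hq c c' ⟨a, ha, hqa, hac⟩ ⟨a', ha', hqa', hac'⟩
    rw [← hac, ← hac', eq_of_countP_le q X' hq a ha a' ha' hqa hqa']
  -- the colours
  obtain ⟨c1, c2, c3, c4, hc1, hc2, hc3, hc4, h12, h34, hO1, hO2, hI3, hI4, h13, hR14, hR23,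
    hR24⟩ := choice (l := l) (O := fun c => ∃ a ∈ X', (a.1.1 == p) = true ∧ a.2 = c)
      (I := fun c => ∃ a ∈ X', (a.1.2 == p) = true ∧ a.2 = c)
      (Oy := fun c => ∃ a ∈ X', (a.1.1 == y) = true ∧ a.2 = c)
      (Ix := fun c => ∃ a ∈ X', (a.1.2 == x) = true ∧ a.2 = c)
      (Rxp := fun c => Reach (cls c X') x p) (Rpy := fun c => Reach (cls c X') p y)
      (Rxy := fun c => Reach (cls c X') x y) (yp := y = p) (xp := x = p) hl3
      (huniq _ hop.1) (huniq _ hip.1) (huniq _ hoy)
      (fun h c hc => by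
        obtain ⟨a, ha, hqa, -⟩ := hc
        have := hop.2 h
        rw [List.countP_eq_zero] at this
        exact this a ha hqa)
      (fun h c hc => by
        obtain ⟨a, ha, hqa, -⟩ := hc
        have := hip.2 h
        rw [List.countP_eq_zero] at this
        exact this a ha hqa)
      (fun h => by
        obtain ⟨a, ha, hqa, hac⟩ := h
        exact hOyl ⟨a, ha, by simpa using hqa, hac⟩)
      (fun h => by
        obtain ⟨a, ha, hqa, hac⟩ := h
        exact hIxl ⟨a, ha, by simpa using hqa, hac⟩)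
      (fun c hc hxp hR => by
        rcases Relation.ReflTransGen.cases_tail hR with h | ⟨u, -, hu⟩
        · exact hxp h.symm
        · exact hc ⟨((u, p), c), mem_cls.mp hu, by simp, rfl⟩)
      (fun c hc hyp hR => by
        rcases Relation.ReflTransGen.cases_head hR with h | ⟨u, hu, -⟩
        · exact hyp h.symm
        · exact hc ⟨((p, u), c), mem_cls.mp hu, by simp, rfl⟩)
      hR3
  set Y : List CArc := [((p, z), c1), ((y, z), c2), ((z, p), c3), ((z, x), c4)] with hY
  obtain ⟨w, hw, hwY⟩ := exists_zip (G.filter (fun a => inc z a)) Y hg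
  have hOkY : Ok n B (Y ++ X') := by
    have memY : ∀ a ∈ Y, a = ((p, z), c1) ∨ a = ((y, z), c2) ∨ a = ((z, p), c3)
        ∨ a = ((z, x), c4) := by
      intro a ha
      simpa [hY] using ha
    have hXz' : ∀ a ∈ X', a.1.1 ≠ z ∧ a.1.2 ≠ z := by
      intro a ha
      have := hXz a ha
      unfold inc at this
      simpa using this
    refine ok_insert (z := z) lz hX2 hXz ?_ ?_ ?_ ?_ ?_ ?_ ?_ ?_
    · intro a ha
      rcases memY a ha with rfl | rfl | rfl | rfl
      · exact Or.inr ⟨rfl, npz, lp⟩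
      · exact Or.inr ⟨rfl, nyz, ly⟩
      · exact Or.inl ⟨rfl, npz, lp⟩
      · exact Or.inl ⟨rfl, Ne.symm nzx, lx⟩
    · intro a ha
      rcases memY a ha with rfl | rfl | rfl | rfl
      · exact hc1
      · exact hc2
      · exact hc3
      · exact hc4
    · intro c _
      refine nodup_cls (f := fun a => a.1) ?_ c
      rw [hY]
      refine List.Pairwise.cons ?_ (List.Pairwise.cons ?_ (List.Pairwise.cons ?_
        (List.Pairwise.cons ?_ List.Pairwise.nil)))
      · intro a ha
        simp only [List.mem_cons, List.not_mem_nil, or_false] at ha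
        rcases ha with rfl | rfl | rfl
        · exact fun h => absurd h h12
        · exact fun _ => npz
        · exact fun _ => npz
      · intro a ha
        simp only [List.mem_cons, List.not_mem_nil, or_false] at ha
        rcases ha with rfl | rfl
        · exact fun _ => nyz
        · exact fun _ => nyz
      · intro a ha
        simp only [List.mem_cons, List.not_mem_nil, or_false] at ha
        rcases ha with rfl
        exact fun h => absurd h h34
      · intro a ha
        exact absurd ha List.not_mem_nil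
    · intro c _
      refine nodup_cls (f := fun a => a.2) ?_ c
      rw [hY]
      refine List.Pairwise.cons ?_ (List.Pairwise.cons ?_ (List.Pairwise.cons ?_
        (List.Pairwise.cons ?_ List.Pairwise.nil)))
      · intro a ha
        simp only [List.mem_cons, List.not_mem_nil, or_false] at ha
        rcases ha with rfl | rfl | rfl
        · exact fun h => absurd h h12
        · exact fun _ => Ne.symm npz
        · exact fun _ => nzx
      · intro a ha
        simp only [List.mem_cons, List.not_mem_nil, or_false] at ha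
        rcases ha with rfl | rfl
        · exact fun _ => Ne.symm npz
        · exact fun _ => nzx
      · intro a ha
        simp only [List.mem_cons, List.not_mem_nil, or_false] at ha
        rcases ha with rfl
        exact fun h => absurd h h34
      · intro a ha
        exact absurd ha List.not_mem_nil
    · intro a ha a' ha' hc ht
      rcases memY a ha with rfl | rfl | rfl | rfl
      · exact hO1 ⟨a', ha', by simpa using ht.symm, hc.symm⟩
      · exact hO2 ⟨a', ha', by simpa using ht.symm, hc.symm⟩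
      · exact (hXz' a' ha').1 ht.symm
      · exact (hXz' a' ha').1 ht.symm
    · intro a ha a' ha' hc ht
      rcases memY a ha with rfl | rfl | rfl | rfl
      · exact (hXz' a' ha').2 ht.symm
      · exact (hXz' a' ha').2 ht.symm
      · exact hI3 ⟨a', ha', by simpa using ht.symm, hc.symm⟩
      · exact hI4 ⟨a', ha', by simpa using ht.symm, hc.symm⟩
    · intro b' hb' a ha a' ha' h1 h2
      have hYB : ∀ a ∈ Y, a.1.1 ∉ B ∧ a.1.2 ∉ B := by
        intro a ha
        rcases memY a ha with rfl | rfl | rfl | rfl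
        · exact ⟨pB, zB⟩
        · exact ⟨yB, zB⟩
        · exact ⟨zB, pB⟩
        · exact ⟨zB, xB⟩
      rcases List.mem_append.mp ha with ha | ha
      · exact absurd (h1 ▸ hb') (hYB a ha).2
      · rcases List.mem_append.mp ha' with ha' | ha'
        · exact absurd (h2 ▸ hb') (hYB a' ha').1
        · exact hX2.brk b' hb' a ha a' ha' h1 h2
    · intro p' q' c h1 h2
      have k1 : (p' = p ∧ c = c1) ∨ (p' = y ∧ c = c2) := by
        rcases memY _ h1 with h | h | h | h
        · simp only [Prod.mk.injEq] at h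
          exact Or.inl ⟨h.1.1, h.2⟩
        · simp only [Prod.mk.injEq] at h
          exact Or.inr ⟨h.1.1, h.2⟩
        · simp only [Prod.mk.injEq] at h
          exact absurd h.1.2.symm npz
        · simp only [Prod.mk.injEq] at h
          exact absurd h.1.2 nzx
      have k2 : (q' = p ∧ c = c3) ∨ (q' = x ∧ c = c4) := by
        rcases memY _ h2 with h | h | h | h
        · simp only [Prod.mk.injEq] at h
          exact absurd h.1.1.symm npz
        · simp only [Prod.mk.injEq] at h
          exact absurd h.1.1.symm nyz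
        · simp only [Prod.mk.injEq] at h
          exact Or.inl ⟨h.1.2, h.2⟩
        · simp only [Prod.mk.injEq] at h
          exact Or.inr ⟨h.1.2, h.2⟩
      rcases k1 with ⟨rfl, rfl⟩ | ⟨rfl, rfl⟩
      · rcases k2 with ⟨rfl, h⟩ | ⟨rfl, h⟩
        · exact absurd h h13
        · exact hR14 h
      · rcases k2 with ⟨rfl, h⟩ | ⟨rfl, h⟩
        · exact hR23 h
        · exact hR24 h
  have hfinal : Ok n B ((G.filter (fun a => inc z a)).zip w ++ X') :=
    ok_perm ((hwY.append_right X').symm) hOkY
  refine ⟨w, ?_, hfinal⟩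
  rw [mem_words]
  refine ⟨hw, ?_⟩
  intro c hc
  have : c ∈ ((G.filter (fun a => inc z a)).zip w).map (fun a => a.2) := by
    rw [List.map_snd_zip (by rw [hw])]
    exact hc
  obtain ⟨a, ha, hac⟩ := List.mem_map.mp this
  rw [← hac]
  exact hfinal.col a (List.mem_append_left _ ha)

end Vale.Agent.Lib.P333.Alg
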