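import Mathlib
import Vale.Agent.Lib.P333.CovDefs
import Vale.Agent.Lib.P333.Cov1
import Vale.Agent.Lib.P333.Elim
import Vale.Agent.Lib.P333.Spec
import Vale.Agent.Lib.P333.Col3
import Vale.Agent.Lib.P333.Col4

/-! P333, module COV4 -/

namespace Vale.Agent.Lib.P333.Alg

/-! ### connectivity -/

theorem cov4_conn_symm {G : List Arc} {u v : ℕ} (h : Conn G u v) : Conn G v u := by
  induction h with
  | refl => exact Relation.ReflTransGen.refl
  | tail _ hr ih => exact Relation.ReflTransGen.head hr.symm ih

theorem cov4_conn_mono {G G' : List Arc} (hG : ∀ a ∈ G, a ∈ G') {u v : ℕ} (h : Conn G u v) :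
    Conn G' u v := by
  induction h with
  | refl => exact Relation.ReflTransGen.refl
  | tail _ hr ih => exact Relation.ReflTransGen.tail ih (hr.imp (hG _) (hG _))

theorem cov4_reach_conn {P G : List Arc} (hG : ∀ a ∈ P, a ∈ G) {u v : ℕ} (h : Reach P u v) :
    Conn G u v := by
  induction h with
  | refl => exact Relation.ReflTransGen.refl
  | tail _ hr ih => exact Relation.ReflTransGen.tail ih (Or.inl (hG _ hr))

theorem cov4_deg_pos {G : List Arc} {v : ℕ} : 0 < deg G v ↔ ∃ a ∈ G, inc v a = true := by
  unfold deg inc
  constructor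
  · intro h
    by_contra hcon
    push Not at hcon
    have h1 : G.filter (fun a => a.1 == v) = [] := by
      rw [List.filter_eq_nil_iff]
      intro a ha h2
      exact hcon a ha (by rw [h2]; rfl)
    have h2 : G.filter (fun a => a.2 == v) = [] := by
      rw [List.filter_eq_nil_iff]
      intro a ha h2
      exact hcon a ha (by rw [h2, Bool.or_true])
    rw [h1, h2] at h
    exact absurd h (by decide)
  · rintro ⟨a, ha, h⟩
    rw [Bool.or_eq_true] at h
    rcases h with h | h
    · have : 0 < (G.filter (fun a => a.1 == v)).length :=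
        List.length_pos_of_mem (List.mem_filter.2 ⟨ha, h⟩)
      omega
    · have : 0 < (G.filter (fun a => a.2 == v)).length :=
        List.length_pos_of_mem (List.mem_filter.2 ⟨ha, h⟩)
      omega

theorem cov4_conn_deg {G : List Arc} {u v : ℕ} (h : Conn G u v) (hu : 0 < deg G u) :
    0 < deg G v := by
  rcases Relation.ReflTransGen.cases_tail h with rfl | ⟨w, -, hw⟩
  · exact hu
  · rw [cov4_deg_pos]
    rcases hw with hw | hw
    · exact ⟨_, hw, by simp [inc]⟩
    · exact ⟨_, hw, by simp [inc]⟩

/-- a walk inside a closed set uses only arcs with tails in the set -/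
theorem cov4_conn_restr {G : List Arc} {S : List ℕ} (hS : ∀ a ∈ G, a.1 ∈ S ↔ a.2 ∈ S) {w z : ℕ}
    (hw : w ∈ S) (h : Conn G w z) : Conn (G.filter (fun a => S.contains a.1)) w z ∧ z ∈ S := by
  induction h with
  | refl => exact ⟨Relation.ReflTransGen.refl, hw⟩
  | @tail b c _ hr ih =>
    obtain ⟨ih1, ih2⟩ := ih
    rcases hr with hr | hr
    · refine ⟨ih1.tail (Or.inl (List.mem_filter.2 ⟨hr, ?_⟩)), (hS _ hr).1 ih2⟩
      simpa using ih2
    · have h1 : c ∈ S := (hS _ hr).2 ih2
      refine ⟨ih1.tail (Or.inr (List.mem_filter.2 ⟨hr, ?_⟩)), h1⟩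
      simpa using h1

/-- a walk to `z` reaches a neighbour of `z` before -/
theorem cov4_conn_delete {G : List Arc} {z : ℕ} {N : List ℕ}
    (hN : ∀ w, (w, z) ∈ G ∨ (z, w) ∈ G → w ∈ N) {w : ℕ} (h : Conn G w z) (hw : w ≠ z) :
    ∃ t ∈ N, Conn (G.filter (fun a => !(inc z a))) w t := by
  induction h using Relation.ReflTransGen.head_induction_on with
  | refl => exact absurd rfl hw
  | @head a c hr _ ih =>
    by_cases hc : c = z
    · subst hc
      exact ⟨a, hN a hr, Relation.ReflTransGen.refl⟩
    · obtain ⟨t, ht, h1⟩ := ih hc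
      refine ⟨t, ht, Relation.ReflTransGen.head ?_ h1⟩
      rcases hr with hr | hr
      · refine Or.inl (List.mem_filter.2 ⟨hr, ?_⟩)
        simp [inc, hw, hc]
      · refine Or.inr (List.mem_filter.2 ⟨hr, ?_⟩)
        simp [inc, hw, hc]

/-! ### degrees -/

theorem cov4_filter_fst {P : List Arc} (h : (P.map (fun a => a.1)).Nodup) (v : ℕ) :
    (P.filter (fun a => a.1 == v)).length ≤ 1 := by
  have h1 : ((P.filter (fun a => a.1 == v)).map (fun a => a.1)).Nodup :=
    h.sublist (List.filter_sublist.map _)
  have h2 : (P.filter (fun a => a.1 == v)).map (fun a => a.1) =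
      List.replicate (P.filter (fun a => a.1 == v)).length v := by
    rw [List.eq_replicate_iff]
    refine ⟨List.length_map _, ?_⟩
    intro b hb
    obtain ⟨a, ha, rfl⟩ := List.mem_map.1 hb
    exact beq_iff_eq.1 (List.mem_filter.1 ha).2
  rw [h2, List.nodup_replicate] at h1
  exact h1

theorem cov4_filter_snd {P : List Arc} (h : (P.map (fun a => a.2)).Nodup) (v : ℕ) :
    (P.filter (fun a => a.2 == v)).length ≤ 1 := by
  have h1 : ((P.filter (fun a => a.2 == v)).map (fun a => a.2)).Nodup :=
    h.sublist (List.filter_sublist.map _)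
  have h2 : (P.filter (fun a => a.2 == v)).map (fun a => a.2) =
      List.replicate (P.filter (fun a => a.2 == v)).length v := by
    rw [List.eq_replicate_iff]
    refine ⟨List.length_map _, ?_⟩
    intro b hb
    obtain ⟨a, ha, rfl⟩ := List.mem_map.1 hb
    exact beq_iff_eq.1 (List.mem_filter.1 ha).2
  rw [h2, List.nodup_replicate] at h1
  exact h1

theorem cov4_mem_permArcs {n : ℕ} {C : List ℕ} {a : Arc} :
    a ∈ permArcs n C ↔ a.1 < n ∧ a.2 = C.getD a.1 0 ∧ a.1 ≠ a.2 := by
  unfold permArcs
  rw [List.mem_filter, List.mem_map]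
  constructor
  · rintro ⟨⟨i, hi, rfl⟩, h⟩
    refine ⟨List.mem_range.1 hi, rfl, ?_⟩
    simpa using h
  · rintro ⟨h1, h2, h3⟩
    refine ⟨⟨a.1, List.mem_range.2 h1, ?_⟩, ?_⟩
    · rw [← h2]
    · simpa using h3

theorem cov4_permArcs_fst (n : ℕ) (C : List ℕ) :
    ((permArcs n C).map (fun a => a.1)).Nodup := by
  have h : (((List.range n).map (fun i => (i, C.getD i 0))).map (fun a : Arc => a.1)).Nodup := by
    rw [List.map_map]
    have : ((fun a : Arc => a.1) ∘ fun i => (i, C.getD i 0)) = id := rfl
    rw [this, List.map_id]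
    exact List.nodup_range
  exact h.sublist (List.filter_sublist.map _)

theorem cov4_permArcs_snd {n : ℕ} {C : List ℕ} (h1 : C.length = n) (h2 : C.Nodup) :
    ((permArcs n C).map (fun a => a.2)).Nodup := by
  have h : (((List.range n).map (fun i => (i, C.getD i 0))).map (fun a : Arc => a.2)).Nodup := by
    rw [List.map_map]
    have : (List.range n).map ((fun a : Arc => a.2) ∘ fun i => (i, C.getD i 0)) = C := by
      apply List.ext_getElem
      · rw [List.length_map, List.length_range, h1]
      · intro i hi1 hi2
        simp only [List.getElem_map, List.getElem_range, Function.comp_apply]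
        exact List.getD_eq_getElem _ _ hi2
    rw [this]
    exact h2
  exact h.sublist (List.filter_sublist.map _)

section

variable {n : ℕ} {C : List ℕ} {D spp : List Arc} (h : Cov n C D spp)

include h

theorem Cov.full_lt : ∀ a ∈ full n C D, a.1 < n ∧ a.2 < n := by
  intro a ha
  rcases List.mem_append.1 ha with ha | ha
  · obtain ⟨h1, h2, -⟩ := cov4_mem_permArcs.1 ha
    refine ⟨h1, ?_⟩
    rw [h2]
    have h3 : a.1 < C.length := by rw [h.clen]; exact h1
    rw [List.getD_eq_getElem _ _ h3]
    exact h.clt _ (List.getElem_mem h3)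
  · exact h.dlt a ha

theorem Cov.full_loopless : ∀ a ∈ full n C D, a.1 ≠ a.2 := by
  intro a ha
  rcases List.mem_append.1 ha with ha | ha
  · exact (cov4_mem_permArcs.1 ha).2.2
  · exact h.dloop a ha

theorem Cov.full_out (v : ℕ) : outd (full n C D) v ≤ 2 := by
  unfold outd full
  rw [List.filter_append, List.length_append]
  have h1 := cov4_filter_fst (cov4_permArcs_fst n C) v
  have h2 := cov4_filter_fst h.dout v
  omega

theorem Cov.full_in (v : ℕ) : ind (full n C D) v ≤ 2 := by
  unfold ind full
  rw [List.filter_append, List.length_append]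
  have h1 := cov4_filter_snd (cov4_permArcs_snd h.clen h.cnd) v
  have h2 := cov4_filter_snd h.din v
  omega

theorem Cov.closed {v : ℕ} (hv : v < n) :
    ∀ a ∈ full n C D, a.1 ∈ comp n (full n C D) v ↔ a.2 ∈ comp n (full n C D) v := by
  intro a ha
  rw [mem_comp h.full_lt hv, mem_comp h.full_lt hv]
  exact ⟨fun h1 => h1.tail (Or.inl ha), fun h1 => h1.tail (Or.inr ha)⟩

theorem Cov.spp_mem {v : ℕ} (hv : v < n) : ∀ p ∈ spp, p.2 ∈ comp n (full n C D) v →
    p.1 ∈ comp n (full n C D) v := by
  intro p hp h1
  have h2 : p.2 ≠ p.1 := by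
    intro h3
    have h4 := h.snd
    rw [List.nodup_append] at h4
    exact h4.2.2 p.1 (List.mem_map_of_mem hp) p.2 (List.mem_map_of_mem hp) h3.symm
  have h3 : (p.2, p.1) ∈ full n C D := by
    apply List.mem_append_left
    rw [cov4_mem_permArcs]
    exact ⟨(h.slt p hp).2, (h.sC p hp).2.symm, h2⟩
  exact (h.closed hv _ h3).1 h1

theorem Cov.notB {v : ℕ} (hv : v < n) (hsp : ∀ p ∈ spp, p.1 ∉ comp n (full n C D) v) {u : ℕ}
    (hu : u ∈ comp n (full n C D) v) : u ∉ spp.map (fun p => p.2) := by
  intro h1
  obtain ⟨p, hp, rfl⟩ := List.mem_map.1 h1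
  exact hsp p hp (h.spp_mem hv p hp hu)

theorem Cov.gw_eq {v : ℕ} (hv : v < n) (hsp : ∀ p ∈ spp, p.1 ∉ comp n (full n C D) v) :
    (colGraph n C D spp).filter (fun a => (comp n (full n C D) v).contains a.1) =
      (full n C D).filter (fun a => (comp n (full n C D) v).contains a.1) := by
  unfold colGraph
  rw [show full n C D = permArcs n C ++ D from rfl, List.filter_append, List.filter_append,
    List.filter_filter]
  congr 1
  apply List.filter_congr
  intro a ha
  by_cases h1 : a.1 ∈ comp n (permArcs n C ++ D) v
  · have h2 : a.2 ∈ comp n (full n C D) v := (h.closed hv a (List.mem_append_left _ ha)).1 h1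
    have h3 : (spp.any (fun p => inc p.1 a)) = false := by
      rw [List.any_eq_false]
      intro p hp h4
      unfold inc at h4
      rw [Bool.or_eq_true, beq_iff_eq, beq_iff_eq] at h4
      rcases h4 with h4 | h4
      · exact hsp p hp (h4 ▸ h1)
      · exact hsp p hp (h4 ▸ h2)
    rw [h3]
    simp
  · have h2 : ((comp n (permArcs n C ++ D) v).contains a.1) = false := by
      rw [← Bool.not_eq_true]
      simpa using h1
    rw [h2]
    simp

omit h in
theorem Cov.spp_empty {v : ℕ} (hsp : ∀ p ∈ spp, p.1 ∉ comp n (full n C D) v) :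
    spp.filter (fun p => (comp n (full n C D) v).contains p.1) = [] := by
  rw [List.filter_eq_nil_iff]
  intro p hp h1
  exact hsp p hp (by simpa using h1)

omit h in
theorem Cov.wt2_eq (W : Mat) {v : ℕ} (hsp : ∀ p ∈ spp, p.1 ∉ comp n (full n C D) v) :
    wt2 n W C D spp (comp n (full n C D) v) =
      2 * wt W ((full n C D).filter (fun a => (comp n (full n C D) v).contains a.1)) := by
  unfold wt2 restr
  rw [Cov.spp_empty hsp]
  unfold full wt
  rw [List.filter_append, List.map_append, List.sum_append]
  simp only [List.map_nil, List.sum_nil]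
  ring

end

/-! ### sub-colourings -/

theorem cov4_pc_sub {n : ℕ} {P Q : List Arc} (h : P.Sublist Q) (hQ : PC n Q) : PC n P := by
  rw [pc_iff_acyclic] at hQ ⊢
  obtain ⟨h1, h2, h3, h4⟩ := hQ
  refine ⟨h1.sublist (h.map _), h2.sublist (h.map _), fun a ha => h3 a (h.subset ha), ?_⟩
  intro v hv
  have key : ∀ w, Relation.TransGen (fun a b => (a, b) ∈ P) v w →
      Relation.TransGen (fun a b => (a, b) ∈ Q) v w := by
    intro w hw
    induction hw with
    | single hr => exact Relation.TransGen.single (h.subset hr)
    | tail _ hr ih => exact Relation.TransGen.tail ih (h.subset hr)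
  exact h4 v (key v hv)

theorem cov4_ok_sub {n : ℕ} {B : List ℕ} {X Y : List CArc} (h : X.Sublist Y) (hY : Ok n B Y) :
    Ok n B X where
  col a ha := hY.col a (h.subset ha)
  pc c hc := cov4_pc_sub ((h.filter _).map _) (hY.pc c hc)
  brk b hb a ha a' ha' := hY.brk b hb a (h.subset ha) a' (h.subset ha')

theorem cov4_arcs_zip {g : List Arc} {w : List ℕ} (h : w.length = g.length) (X : List CArc) :
    arcs (g.zip w ++ X) = g ++ arcs X := by
  unfold arcs
  rw [List.map_append]
  congr 1
  exact List.map_fst_zip (by omega)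

theorem cov4_arcs_eraseP (e : Arc) : ∀ X : List CArc,
    arcs (X.eraseP (fun a => a.1 == e)) = (arcs X).erase e
  | [] => rfl
  | a :: X => by
    unfold arcs
    rw [List.eraseP_cons, List.map_cons, List.erase_cons]
    by_cases h : a.1 == e
    · rw [h]
      rfl
    · rw [Bool.not_eq_true] at h
      rw [h]
      simp only [cond_false, List.map_cons]
      have := cov4_arcs_eraseP e X
      unfold arcs at this
      rw [this]
      rfl

theorem cov4_classes {n : ℕ} {X : List CArc} {P : List Arc} :
    P ∈ classes n [] X ↔ ∃ c < 3, P = cls c X := by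
  unfold classes colour
  simp only [List.foldl_nil, List.mem_map, List.mem_range]
  constructor
  · rintro ⟨c, hc, rfl⟩
    exact ⟨c, hc, rfl⟩
  · rintro ⟨c, hc, rfl⟩
    exact ⟨c, hc, rfl⟩

theorem cov4_wt_perm (W : Mat) {P Q : List Arc} (h : P.Perm Q) : wt W P = wt W Q :=
  (h.map _).sum_eq

theorem cov4_cls_sub (c : ℕ) (X : List CArc) : ∀ a ∈ cls c X, a ∈ arcs X := by
  intro a ha
  obtain ⟨b, hb, rfl⟩ := List.mem_map.1 ha
  exact List.mem_map_of_mem (List.mem_filter.1 hb).1

/-- the conclusion from a valid colouring of the component -/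
theorem cov4_finish {n : ℕ} {W : Mat} {C : List ℕ} {D spp : List Arc} (h : Cov n C D spp)
    {v : ℕ} (hv : v < n) (hsp : ∀ p ∈ spp, p.1 ∉ comp n (full n C D) v) {B : List ℕ}
    {X : List CArc} (hX : Ok n B X)
    (hXG : (arcs X).Perm ((full n C D).filter (fun a => (comp n (full n C D) v).contains a.1)))
    {L : List (List Arc)} (hL : ∀ P ∈ classes n [] X, P ∈ L) :
    ∃ P ∈ L, isPC n P = true ∧ inside (comp n (full n C D) v) P = true ∧
      wt2 n W C D spp (comp n (full n C D) v) ≤ 6 * wt W P := by
  obtain ⟨c, hc, hw⟩ := exists_class W hX.col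
  refine ⟨cls c X, hL _ (cov4_classes.2 ⟨c, hc, rfl⟩), (isPC_iff _ _).2 (hX.pc c hc), ?_, ?_⟩
  · unfold inside
    rw [List.all_eq_true]
    intro a ha
    have h1 := hXG.mem_iff.1 (cov4_cls_sub c X a ha)
    obtain ⟨h2, h3⟩ := List.mem_filter.1 h1
    have h4 : a.1 ∈ comp n (full n C D) v := by simpa using h3
    have h5 := (h.closed hv a h2).1 h4
    rw [Bool.and_eq_true]
    exact ⟨h3, by simpa using h5⟩
  · rw [Cov.wt2_eq W hsp, ← cov4_wt_perm W hXG]
    omega

/-! ### COV4: full component with a vertex in exactly one 2-cycle -/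

theorem cand_full {n : ℕ} {W : Mat} {C : List ℕ} {D spp : List Arc} (h : Cov n C D spp)
    {v : ℕ} (hv : v < n)
    (hsp : ∀ p ∈ spp, p.1 ∉ comp n (full n C D) v)
    (hfull : ∀ u ∈ comp n (full n C D) v, deg (full n C D) u = 4)
    {z p x y : ℕ} (hz : z ∈ comp n (full n C D) v)
    (hin : ((full n C D).filter (fun a => a.2 == z)).Perm [(p, z), (y, z)])
    (hout : ((full n C D).filter (fun a => a.1 == z)).Perm [(z, p), (z, x)])
    (hyx : y ≠ x) :
    ∃ P ∈ candidates n W C D spp (comp n (full n C D) v), isPC n P = true ∧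
      inside (comp n (full n C D) v) P = true ∧
      wt2 n W C D spp (comp n (full n C D) v) ≤ 6 * wt W P := by
  classical
  set F := full n C D with hF
  set S := comp n F v with hS
  set GW := F.filter (fun a => S.contains a.1) with hGW
  set B := spp.map (fun p => p.2) with hB
  have hclosed := h.closed hv
  rw [← hF, ← hS] at hclosed
  -- arcs at z
  have hinF : ∀ w, (w, z) ∈ F ↔ w = p ∨ w = y := by
    intro w
    have h1 : (w, z) ∈ F ↔ (w, z) ∈ F.filter (fun a => a.2 == z) := by
      rw [List.mem_filter]
      simp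
    rw [h1, hin.mem_iff]
    simp
  have houtF : ∀ w, (z, w) ∈ F ↔ w = p ∨ w = x := by
    intro w
    have h1 : (z, w) ∈ F ↔ (z, w) ∈ F.filter (fun a => a.1 == z) := by
      rw [List.mem_filter]
      simp
    rw [h1, hout.mem_iff]
    simp
  have hpS : p ∈ S := (hclosed _ ((houtF p).2 (Or.inl rfl))).1 hz
  have hxS : x ∈ S := (hclosed _ ((houtF x).2 (Or.inr rfl))).1 hz
  have hyS : y ∈ S := (hclosed _ ((hinF y).2 (Or.inr rfl))).2 hz
  have hloop := h.full_loopless
  rw [← hF] at hloop
  have hpz : p ≠ z := hloop _ ((hinF p).2 (Or.inl rfl))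
  have hyz : y ≠ z := hloop _ ((hinF y).2 (Or.inr rfl))
  have hxz : x ≠ z := Ne.symm (hloop _ ((houtF x).2 (Or.inr rfl)))
  have hzB : z ∉ B := h.notB hv hsp hz
  have hpB : p ∉ B := h.notB hv hsp hpS
  have hxB : x ∉ B := h.notB hv hsp hxS
  have hyB : y ∉ B := h.notB hv hsp hyS
  have hBS : ∀ b ∈ B, b ∉ S := fun b hb hbS => h.notB hv hsp hbS hb
  -- filters of GW at z
  have hGWin : GW.filter (fun a => a.2 == z) = F.filter (fun a => a.2 == z) := by
    rw [hGW, List.filter_filter]
    apply List.filter_congr
    intro a ha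
    by_cases h1 : a.2 = z
    · have h2 : a.1 ∈ S := (hclosed a ha).2 (h1 ▸ hz)
      simp [h1, h2]
    · simp [h1]
  have hGWout : GW.filter (fun a => a.1 == z) = F.filter (fun a => a.1 == z) := by
    rw [hGW, List.filter_filter]
    apply List.filter_congr
    intro a ha
    by_cases h1 : a.1 = z
    · simp [h1, hz]
    · simp [h1]
  have hin' : (GW.filter (fun a => a.2 == z)).Perm [(p, z), (y, z)] := hGWin ▸ hin
  have hout' : (GW.filter (fun a => a.1 == z)).Perm [(z, p), (z, x)] := hGWout ▸ hout
  have hGWS : ∀ a ∈ GW, a ∈ F ∧ a.1 ∈ S ∧ a.2 ∈ S := by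
    intro a ha
    obtain ⟨h1, h2⟩ := List.mem_filter.1 ha
    have h3 : a.1 ∈ S := by simpa using h2
    exact ⟨h1, h3, (hclosed a h1).1 h3⟩
  have hGWsub : GW.Sublist F := List.filter_sublist
  have outGW : ∀ u, outd GW u ≤ outd F u := fun u => (hGWsub.filter _).length_le
  have inGW : ∀ u, ind GW u ≤ ind F u := fun u => (hGWsub.filter _).length_le
  have hgood : Good n B GW := by
    refine ⟨fun a ha => h.full_lt a (hGWS a ha).1, fun a ha => hloop a (hGWS a ha).1,
      fun u => (outGW u).trans (h.full_out u), fun u => (inGW u).trans (h.full_in u), ?_, ?_⟩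
    · intro b hb
      have : GW.filter (fun a => a.1 == b) = [] := by
        rw [List.filter_eq_nil_iff]
        intro a ha h1
        rw [beq_iff_eq] at h1
        exact hBS b hb (h1 ▸ (hGWS a ha).2.1)
      unfold outd
      rw [this]
      exact Nat.zero_le _
    · intro b hb
      have : GW.filter (fun a => a.2 == b) = [] := by
        rw [List.filter_eq_nil_iff]
        intro a ha h1
        rw [beq_iff_eq] at h1
        exact hBS b hb (h1 ▸ (hGWS a ha).2.2)
      unfold ind
      rw [this]
      exact Nat.zero_le _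
  -- connectivity
  have hconn : ∀ w, 0 < deg GW w → Conn GW w z := by
    intro w hw
    obtain ⟨a, ha, hia⟩ := cov4_deg_pos.1 hw
    have hwS : w ∈ S := by
      unfold inc at hia
      rw [Bool.or_eq_true, beq_iff_eq, beq_iff_eq] at hia
      rcases hia with h1 | h1
      · exact h1 ▸ (hGWS a ha).2.1
      · exact h1 ▸ (hGWS a ha).2.2
    have h1 : Conn F v w := (mem_comp h.full_lt hv).1 hwS
    have h2 : Conn F v z := (mem_comp h.full_lt hv).1 hz
    exact (cov4_conn_restr hclosed hwS ((cov4_conn_symm h1).trans h2)).1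
  set G' := GW.filter (fun a => !(inc z a)) with hG'
  set g := GW.filter (fun a => inc z a) with hg
  have hgood' : Good n B G' := by
    have hs : G'.Sublist GW := List.filter_sublist
    exact ⟨fun a ha => hgood.lt a (hs.subset ha), fun a ha => hgood.loopless a (hs.subset ha),
      fun u => ((hs.filter _).length_le).trans (hgood.out u),
      fun u => ((hs.filter _).length_le).trans (hgood.inn u),
      fun b hb => ((hs.filter _).length_le).trans (hgood.bout b hb),
      fun b hb => ((hs.filter _).length_le).trans (hgood.binn b hb)⟩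
  -- sizes
  have hglen : g.length ≤ 4 := by
    have h1 : g.length ≤ (GW.filter (fun a => a.1 == z)).length +
        (GW.filter (fun a => a.2 == z)).length := by
      have h2 : ∀ L : List Arc, (L.filter (fun a => inc z a)).length ≤
          (L.filter (fun a => a.1 == z)).length + (L.filter (fun a => a.2 == z)).length := by
        intro L
        induction L with
        | nil => simp
        | cons a L ih =>
          unfold inc at ih ⊢
          by_cases ha1 : a.1 == z <;> by_cases ha2 : a.2 == z <;>
            simp only [List.filter_cons, ha1, ha2, Bool.or_true, Bool.or_false,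
              if_true, if_false, List.length_cons, Bool.false_eq_true] <;> omega
      exact h2 GW
    have h3 := hin'.length_eq
    have h4 := hout'.length_eq
    simp only [List.length_cons, List.length_nil] at h3 h4
    omega
  have hsplit : (g ++ G').Perm GW := List.filter_append_perm _ _
  have hcand2 : ∀ P ∈ classes n [] (insertGroup n B (colour n B [] (elim n G')) g),
      P ∈ candidates n W C D spp S := by
    intro P hP
    unfold candidates
    rw [h.gw_eq hv hsp, Cov.spp_empty hsp]
    simp only [List.mem_append, List.mem_flatMap]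
    refine Or.inl (Or.inr ⟨z, hz, Or.inl ?_⟩)
    exact hP
  have hcand3 : ∀ P ∈ classes n [] (insertGroup n B
      ((colour n B [] (elim n ((y, x) :: G'))).eraseP (fun a => a.1 == (y, x))) g),
      P ∈ candidates n W C D spp S := by
    intro P hP
    unfold candidates
    rw [h.gw_eq hv hsp, Cov.spp_empty hsp]
    simp only [List.mem_append, List.mem_flatMap]
    refine Or.inl (Or.inr ⟨z, hz, Or.inr ⟨(y, x), ?_, hP⟩⟩)
    unfold shortcuts
    rw [List.mem_flatMap]
    refine ⟨(y, z), ?_, ?_⟩
    · change (y, z) ∈ GW.filter (fun a => a.2 == z)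
      rw [hin'.mem_iff]
      simp
    · rw [List.mem_map]
      refine ⟨(z, x), ?_, rfl⟩
      rw [List.mem_filter]
      refine ⟨?_, ?_⟩
      · have h1 : (z, x) ∈ GW.filter (fun a => a.1 == z) := by
          rw [hout'.mem_iff]
          simp
        exact (List.mem_filter.1 h1).1
      · simp [Ne.symm hyx]
  by_cases hbr : y ≠ p ∧ x ≠ p ∧ ¬ Conn G' p x ∧ ¬ Conn G' p y
  · -- bridge case
    obtain ⟨hyp, hxp, hb1, hb2⟩ := hbr
    obtain ⟨hok, hperm⟩ := elim_colour hgood' (deficient_delete hgood z hconn)
    have hsubX : ∀ c, ∀ a ∈ cls c (colour n B [] (elim n G')), a ∈ G' := fun c a ha =>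
      hperm.mem_iff.1 (cov4_cls_sub c _ a ha)
    have hext := ext_bridge hgood hok hperm hin' hout' hyp hxp ⟨hzB, hpB, hxB, hyB⟩
      (fun c _ hr => hb1 (cov4_conn_symm (cov4_reach_conn (hsubX c) hr)))
      (fun c _ hr => hb2 (cov4_reach_conn (hsubX c) hr))
    obtain ⟨hok2, w, hw, hins⟩ := insertGroup_ok hok hglen hext
    refine cov4_finish h hv hsp hok2 ?_ hcand2
    rw [hins, cov4_arcs_zip (mem_words.1 hw).1]
    exact (hperm.append_left g).trans hsplit
  · -- loop case
    have hconnp : Conn ((y, x) :: G') p x ∧ Conn ((y, x) :: G') p y := by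
      have hmono : ∀ a ∈ G', a ∈ (y, x) :: G' := fun a ha => List.mem_cons_of_mem _ ha
      have h1 : Conn ((y, x) :: G') y x :=
        Relation.ReflTransGen.single (Or.inl List.mem_cons_self)
      by_cases hyp : y = p
      · subst hyp
        exact ⟨h1, Relation.ReflTransGen.refl⟩
      · by_cases hxp : x = p
        · subst hxp
          exact ⟨Relation.ReflTransGen.refl, cov4_conn_symm h1⟩
        · by_cases hpx : Conn G' p x
          · have h2 := cov4_conn_mono hmono hpx
            exact ⟨h2, h2.trans (cov4_conn_symm h1)⟩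
          · by_cases hpy : Conn G' p y
            · have h2 := cov4_conn_mono hmono hpy
              exact ⟨h2.trans h1, h2⟩
            · exact absurd ⟨hyp, hxp, hpx, hpy⟩ hbr
    -- everything is connected to p
    have hall : ∀ w, 0 < deg ((y, x) :: G') w → Conn ((y, x) :: G') w p := by
      intro w hw
      obtain ⟨a, ha, hia⟩ := cov4_deg_pos.1 hw
      rcases List.mem_cons.1 ha with rfl | ha
      · unfold inc at hia
        rw [Bool.or_eq_true, beq_iff_eq, beq_iff_eq] at hia
        rcases hia with h1 | h1
        · simp only at h1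
          subst h1
          exact cov4_conn_symm hconnp.2
        · simp only at h1
          subst h1
          exact cov4_conn_symm hconnp.1
      · obtain ⟨ha1, ha2⟩ := List.mem_filter.1 ha
        have hwz : w ≠ z := by
          rintro rfl
          rw [hia] at ha2
          exact absurd ha2 (by decide)
        obtain ⟨t, ht, hct⟩ := cov4_conn_delete (N := [p, y, x]) (by
          intro u hu
          rcases hu with hu | hu
          · have h1 := (hinF u).1 (hGWS _ hu).1
            rcases h1 with rfl | rfl <;> simp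
          · have h1 := (houtF u).1 (hGWS _ hu).1
            rcases h1 with rfl | rfl <;> simp) (hconn w (cov4_deg_pos.2 ⟨a, ha1, hia⟩)) hwz
        have h2 : Conn ((y, x) :: G') w t :=
          cov4_conn_mono (fun a ha => List.mem_cons_of_mem _ ha) hct
        rw [List.mem_cons, List.mem_cons, List.mem_singleton] at ht
        rcases ht with rfl | rfl | rfl
        · exact h2
        · exact h2.trans (cov4_conn_symm hconnp.2)
        · exact h2.trans (cov4_conn_symm hconnp.1)
    -- degrees
    have key1 : ∀ u, outd G' u + (g.filter (fun a => a.1 == u)).length = outd GW u := by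
      intro u
      have h1 := ((hsplit.filter (fun a => a.1 == u)).length_eq)
      rw [List.filter_append, List.length_append] at h1
      unfold outd
      omega
    have key2 : ∀ u, ind G' u + (g.filter (fun a => a.2 == u)).length = ind GW u := by
      intro u
      have h1 := ((hsplit.filter (fun a => a.2 == u)).length_eq)
      rw [List.filter_append, List.length_append] at h1
      unfold ind
      omega
    have hmemin : ∀ u, u = p ∨ u = y → (u, z) ∈ GW := by
      intro u hu
      have h1 : (u, z) ∈ GW.filter (fun a => a.2 == z) := by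
        rw [hin'.mem_iff]
        rcases hu with rfl | rfl <;> simp
      exact (List.mem_filter.1 h1).1
    have hmemout : ∀ u, u = p ∨ u = x → (z, u) ∈ GW := by
      intro u hu
      have h1 : (z, u) ∈ GW.filter (fun a => a.1 == z) := by
        rw [hout'.mem_iff]
        rcases hu with rfl | rfl <;> simp
      exact (List.mem_filter.1 h1).1
    have hout1 : ∀ u, u = p ∨ u = y → outd G' u ≤ 1 := by
      intro u hu
      have h1 : 0 < (g.filter (fun a => a.1 == u)).length := by
        apply List.length_pos_of_mem (a := (u, z))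
        rw [List.mem_filter, hg, List.mem_filter]
        refine ⟨⟨hmemin u hu, ?_⟩, ?_⟩
        · simp [inc]
        · simp
      have h2 := key1 u
      have h3 := hgood.out u
      omega
    have hin1 : ∀ u, u = p ∨ u = x → ind G' u ≤ 1 := by
      intro u hu
      have h1 : 0 < (g.filter (fun a => a.2 == u)).length := by
        apply List.length_pos_of_mem (a := (z, u))
        rw [List.mem_filter, hg, List.mem_filter]
        refine ⟨⟨hmemout u hu, ?_⟩, ?_⟩
        · simp [inc]
        · simp
      have h2 := key2 u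
      have h3 := hgood.inn u
      omega
    have houtc : ∀ u, outd ((y, x) :: G') u = (if y = u then 1 else 0) + outd G' u := by
      intro u
      unfold outd
      rw [List.filter_cons]
      by_cases h1 : y = u
      · simp [h1, Nat.add_comm]
      · simp [h1]
    have hinc : ∀ u, ind ((y, x) :: G') u = (if x = u then 1 else 0) + ind G' u := by
      intro u
      unfold ind
      rw [List.filter_cons]
      by_cases h1 : x = u
      · simp [h1, Nat.add_comm]
      · simp [h1]
    have hgoodR : Good n B ((y, x) :: G') := by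
      refine ⟨?_, ?_, ?_, ?_, ?_, ?_⟩
      · intro a ha
        rcases List.mem_cons.1 ha with rfl | ha
        · exact ⟨(h.full_lt _ ((hinF y).2 (Or.inr rfl))).1,
            (h.full_lt _ ((houtF x).2 (Or.inr rfl))).2⟩
        · exact hgood'.lt a ha
      · intro a ha
        rcases List.mem_cons.1 ha with rfl | ha
        · exact hyx
        · exact hgood'.loopless a ha
      · intro u
        rw [houtc]
        by_cases h1 : y = u
        · have := hout1 u (Or.inr h1.symm)
          rw [if_pos h1]
          omega
        · rw [if_neg h1, Nat.zero_add]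
          exact hgood'.out u
      · intro u
        rw [hinc]
        by_cases h1 : x = u
        · have := hin1 u (Or.inr h1.symm)
          rw [if_pos h1]
          omega
        · rw [if_neg h1, Nat.zero_add]
          exact hgood'.inn u
      · intro b hb
        rw [houtc, if_neg (by rintro rfl; exact hyB hb), Nat.zero_add]
        exact hgood'.bout b hb
      · intro b hb
        rw [hinc, if_neg (by rintro rfl; exact hxB hb), Nat.zero_add]
        exact hgood'.binn b hb
    have hdegp : deg ((y, x) :: G') p ≤ 3 := by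
      have h1 : deg ((y, x) :: G') p = outd ((y, x) :: G') p + ind ((y, x) :: G') p := rfl
      rw [h1, houtc, hinc]
      have h2 := hout1 p (Or.inl rfl)
      have h3 := hin1 p (Or.inl rfl)
      by_cases h4 : y = p
      · have h5 : ¬ x = p := fun h5 => hyx (h4.trans h5.symm)
        rw [if_pos h4, if_neg h5]
        omega
      · rw [if_neg h4]
        split_ifs <;> omega
    have hdef : Deficient ((y, x) :: G') := by
      intro w hw
      have h1 := hall w hw
      exact ⟨p, h1, cov4_conn_deg h1 hw, hdegp⟩
    obtain ⟨hok, hperm⟩ := elim_colour hgoodR hdef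
    have hext := ext_loop hgood hok hperm hin' hout' hyx ⟨hzB, hpB, hxB, hyB⟩
    have hokE : Ok n B ((colour n B [] (elim n ((y, x) :: G'))).eraseP
        (fun a => a.1 == (y, x))) := cov4_ok_sub List.eraseP_sublist hok
    obtain ⟨hok2, w, hw, hins⟩ := insertGroup_ok hokE hglen hext
    refine cov4_finish h hv hsp hok2 ?_ hcand3
    rw [hins, cov4_arcs_zip (mem_words.1 hw).1, cov4_arcs_eraseP]
    have h1 : ((arcs (colour n B [] (elim n ((y, x) :: G')))).erase (y, x)).Perm G' := by
      have h2 := hperm.erase (y, x)
      rw [List.erase_cons_head] at h2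
      exact h2
    exact (h1.append_left g).trans hsplit

end Vale.Agent.Lib.P333.Alg
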