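import Mathlib
import Vale.Agent.Lib.P333.CovDefs
import Vale.Agent.Lib.P333.Cov1
import Vale.Agent.Lib.P333.Col0

/-! P333, module COV5 -/

namespace Vale.Agent.Lib.P333.Alg

/-! ### Alternating walks -/

/-- alternating walk: `a` first -/
def altW (a b : ℕ → ℕ) (s : ℕ) : ℕ → ℕ
  | 0 => s
  | i + 1 => if i % 2 = 0 then a (altW a b s i) else b (altW a b s i)

/-- two fixed point free involutions of `S`, nowhere equal -/
structure Ring2 (S : Finset ℕ) (a b : ℕ → ℕ) : Prop where
  amem : ∀ u ∈ S, a u ∈ S
  bmem : ∀ u ∈ S, b u ∈ S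
  aa : ∀ u ∈ S, a (a u) = u
  bb : ∀ u ∈ S, b (b u) = u
  ane : ∀ u ∈ S, a u ≠ u
  bne : ∀ u ∈ S, b u ≠ u
  ab : ∀ u ∈ S, a u ≠ b u

namespace Ring2

variable {S : Finset ℕ} {a b : ℕ → ℕ}

theorem swap (h : Ring2 S a b) : Ring2 S b a :=
  ⟨h.bmem, h.amem, h.bb, h.aa, h.bne, h.ane, fun u hu => (h.ab u hu).symm⟩

theorem mem (h : Ring2 S a b) {s : ℕ} (hs : s ∈ S) (i : ℕ) : altW a b s i ∈ S := by
  induction i with
  | zero => exact hs
  | succ i ih =>
    unfold altW
    split_ifs
    · exact h.amem _ ih
    · exact h.bmem _ ih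

/-- the involution used at step `i` -/
def stp (a b : ℕ → ℕ) (i : ℕ) : ℕ → ℕ := if i % 2 = 0 then a else b

theorem altW_succ (a b : ℕ → ℕ) (s i : ℕ) : altW a b s (i + 1) = stp a b i (altW a b s i) := by
  unfold stp
  rw [altW]
  split_ifs <;> rfl

theorem stp_stp (h : Ring2 S a b) (i : ℕ) {u : ℕ} (hu : u ∈ S) : stp a b i (stp a b i u) = u := by
  unfold stp
  split_ifs
  · exact h.aa u hu
  · exact h.bb u hu

theorem stp_ne (h : Ring2 S a b) (i : ℕ) {u : ℕ} (hu : u ∈ S) : stp a b i u ≠ u := by
  unfold stp
  split_ifs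
  · exact h.ane u hu
  · exact h.bne u hu

theorem back (h : Ring2 S a b) {s : ℕ} (hs : s ∈ S) (i : ℕ) :
    stp a b i (altW a b s (i + 1)) = altW a b s i := by
  rw [altW_succ, h.stp_stp i (h.mem hs i)]

theorem stp_congr {i j : ℕ} (hij : i % 2 = j % 2) : stp a b i = stp a b j := by
  unfold stp
  rw [hij]

theorem stp_cases (a b : ℕ → ℕ) (i j : ℕ) : stp a b j = stp a b i ∨ stp a b j = stp a b (i + 1) := by
  unfold stp
  rcases Nat.mod_two_eq_zero_or_one i with h1 | h1 <;>
    rcases Nat.mod_two_eq_zero_or_one j with h2 | h2 <;> simp [h1, h2, Nat.add_mod]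

theorem stp_ne_succ (h : Ring2 S a b) (i : ℕ) {u : ℕ} (hu : u ∈ S) :
    stp a b i u ≠ stp a b (i + 1) u := by
  have hab := h.ab u hu
  unfold stp
  rcases Nat.mod_two_eq_zero_or_one i with h1 | h1
  · have h2 : (i + 1) % 2 = 1 := by omega
    rw [if_pos h1, if_neg (by omega)]
    exact hab
  · have h2 : (i + 1) % 2 = 0 := by omega
    rw [if_neg (by omega), if_pos h2]
    exact hab.symm

/-- the first return of the alternating walk -/
theorem exists_return (h : Ring2 S a b) {s : ℕ} (hs : s ∈ S) :
    ∃ m, 0 < m ∧ m % 2 = 0 ∧ altW a b s m = s ∧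
      ∀ i < m, ∀ j < m, altW a b s i = altW a b s j → i = j := by
  classical
  -- pigeonhole
  have hex : ∃ m, ∃ j < m, altW a b s m = altW a b s j := by
    by_contra hcon
    push Not at hcon
    have hinj : Function.Injective (altW a b s) := by
      intro i j hij
      rcases lt_trichotomy i j with hlt | heq | hlt
      · exact absurd hij.symm (hcon j i hlt)
      · exact heq
      · exact absurd hij (hcon i j hlt)
    have h1 := Finset.card_le_card_of_injOn (s := Finset.range (S.card + 1)) (t := S)
      (altW a b s) (fun i _ => h.mem hs i) (hinj.injOn)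
    rw [Finset.card_range] at h1
    omega
  set m := Nat.find hex with hm
  obtain ⟨j, hjm, hj⟩ := Nat.find_spec hex
  rw [← hm] at hjm hj
  have hmin : ∀ k < m, ∀ l < k, altW a b s k ≠ altW a b s l := by
    intro k hk l hl heq
    exact Nat.find_min hex hk ⟨l, hl, heq⟩
  have hinj : ∀ i < m, ∀ j < m, altW a b s i = altW a b s j → i = j := by
    intro i hi j hj hij
    rcases lt_trichotomy i j with hlt | heq | hlt
    · exact absurd hij.symm (hmin j hj i hlt)
    · exact heq
    · exact absurd hij (hmin i hi j hlt)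
  obtain ⟨m', hm'⟩ : ∃ m', m = m' + 1 := ⟨m - 1, by omega⟩
  have hback := h.back hs m'
  rw [← hm', hj] at hback
  -- `hback : stp m' (x j) = x m'`
  have hj0 : j = 0 := by
    by_contra hj0
    obtain ⟨j', hj'⟩ : ∃ j', j = j' + 1 := ⟨j - 1, by omega⟩
    subst hj'
    rcases stp_cases a b j' m' with hc | hc
    · -- step back to `j'`
      rw [hc, h.back hs j'] at hback
      have := hinj j' (by omega) m' (by omega) hback
      omega
    · rw [hc, ← altW_succ] at hback
      by_cases h3 : j' + 1 + 1 = m
      · -- then `x m = x (m-1)`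
        have h4 : j' + 1 = m' := by omega
        rw [h3, hj] at hback
        have h5 := h.stp_ne m' (h.mem hs m')
        rw [← altW_succ, ← hm', hj, h4] at h5
        exact h5 rfl
      · have h4 := hinj (j' + 1 + 1) (by omega) m' (by omega) hback
        -- `m' = j + 1`, parity
        have h5 := h.stp_ne_succ (j' + 1) (h.mem hs m')
        have h6 : stp a b (j' + 1) (altW a b s m') = altW a b s (j' + 1) := by
          rw [← h4]
          exact h.back hs (j' + 1)
        have h7 : stp a b (j' + 1 + 1) (altW a b s m') = altW a b s (j' + 1) := by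
          rw [h4, ← altW_succ, ← hm', hj]
        exact h5 (h6.trans h7.symm)
  subst hj0
  have hret : altW a b s m = s := hj
  refine ⟨m, by omega, ?_, hret, hinj⟩
  by_contra hodd
  have hc : stp a b m' = stp a b 0 := stp_congr (by omega)
  rw [hc, ← altW_succ] at hback
  by_cases h1 : m' = 0
  · have h5 := h.stp_ne 0 (h.mem hs 0)
    rw [← altW_succ] at h5
    rw [hm', h1] at hj
    exact h5 hj
  · by_cases h2 : (0 + 1) < m
    · have := hinj (0 + 1) h2 m' (by omega) hback
      omega
    · omega

/-- the visited vertices are closed under both involutions -/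
theorem closed_return (h : Ring2 S a b) {s : ℕ} (hs : s ∈ S) {m : ℕ} (hm : 0 < m)
    (hm2 : m % 2 = 0) (hret : altW a b s m = s) (i : ℕ) (hi : i < m) :
    (∃ j < m, a (altW a b s i) = altW a b s j) ∧ (∃ j < m, b (altW a b s i) = altW a b s j) := by
  have hfwd : ∃ j < m, stp a b i (altW a b s i) = altW a b s j := by
    by_cases h1 : i + 1 < m
    · exact ⟨i + 1, h1, (altW_succ a b s i).symm⟩
    · refine ⟨0, hm, ?_⟩
      rw [← altW_succ, show i + 1 = m by omega]
      exact hret
  have hbwd : ∃ j < m, stp a b (i + 1) (altW a b s i) = altW a b s j := by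
    rcases Nat.eq_zero_or_pos i with h0 | h0
    · refine ⟨m - 1, by omega, ?_⟩
      subst h0
      have h1 := h.back hs (m - 1)
      rw [show m - 1 + 1 = m by omega, hret] at h1
      rw [← h1, stp_congr (i := m - 1) (j := 0 + 1) (by omega)]
      rfl
    · refine ⟨i - 1, by omega, ?_⟩
      have h1 := h.back hs (i - 1)
      rw [show i - 1 + 1 = i by omega] at h1
      rw [← h1, stp_congr (i := i + 1) (j := i - 1) (by omega)]
  unfold stp at hfwd hbwd
  rcases Nat.mod_two_eq_zero_or_one i with h1 | h1
  · have h2 : (i + 1) % 2 = 1 := by omega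
    rw [if_pos h1] at hfwd
    rw [if_neg (by omega)] at hbwd
    exact ⟨hfwd, hbwd⟩
  · have h2 : (i + 1) % 2 = 0 := by omega
    rw [if_neg (by omega)] at hfwd
    rw [if_pos h2] at hbwd
    exact ⟨hbwd, hfwd⟩

/-- if `S` has no proper closed subset the alternating walk visits `S` without repetition -/
theorem inj_of_conn (h : Ring2 S a b)
    (hconn : ∀ T ⊆ S, T.Nonempty → (∀ u ∈ T, a u ∈ T ∧ b u ∈ T) → T = S) {s : ℕ} (hs : s ∈ S) :
    ∀ i < S.card, ∀ j < S.card, altW a b s i = altW a b s j → i = j := by
  classical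
  obtain ⟨m, hm, hm2, hret, hinj⟩ := h.exists_return hs
  have hT := hconn ((Finset.range m).image (altW a b s))
    (by
      intro u hu
      rw [Finset.mem_image] at hu
      obtain ⟨i, -, rfl⟩ := hu
      exact h.mem hs i)
    ⟨s, Finset.mem_image.2 ⟨0, Finset.mem_range.2 hm, rfl⟩⟩
    (by
      intro u hu
      rw [Finset.mem_image] at hu
      obtain ⟨i, hi, rfl⟩ := hu
      obtain ⟨⟨j, hj, hj'⟩, ⟨k, hk, hk'⟩⟩ := h.closed_return hs hm hm2 hret i (Finset.mem_range.1 hi)
      exact ⟨Finset.mem_image.2 ⟨j, Finset.mem_range.2 hj, hj'.symm⟩,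
        Finset.mem_image.2 ⟨k, Finset.mem_range.2 hk, hk'.symm⟩⟩)
  have hcard : S.card = m := by
    rw [← hT, Finset.card_image_of_injOn, Finset.card_range]
    intro i hi j hj hij
    exact hinj i (by simpa using hi) j (by simpa using hj) hij
  rw [hcard]
  exact hinj

/-- the alternating walk permutes `S` -/
theorem sum_altW (h : Ring2 S a b) (i : ℕ) (f : ℕ → ℕ) :
    ∑ s ∈ S, f (altW a b s i) = ∑ u ∈ S, f u := by
  induction i generalizing f with
  | zero => rfl
  | succ i ih =>
    have h1 : ∑ s ∈ S, f (altW a b s (i + 1)) = ∑ s ∈ S, f (stp a b i (altW a b s i)) :=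
      Finset.sum_congr rfl fun s _ => by rw [altW_succ]
    rw [h1, ih (fun u => f (stp a b i u))]
    refine Finset.sum_nbij' (stp a b i) (stp a b i) ?_ ?_ ?_ ?_ ?_
    · intro u hu
      unfold stp
      split_ifs
      · exact h.amem u hu
      · exact h.bmem u hu
    · intro u hu
      unfold stp
      split_ifs
      · exact h.amem u hu
      · exact h.bmem u hu
    · intro u hu
      exact h.stp_stp i hu
    · intro u hu
      exact h.stp_stp i hu
    · intro u _
      rfl

theorem three_le_card (h : Ring2 S a b) {s : ℕ} (hs : s ∈ S) : 3 ≤ S.card := by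
  classical
  have h1 : ({s, a s, b s} : Finset ℕ) ⊆ S := by
    intro u hu
    simp only [Finset.mem_insert, Finset.mem_singleton] at hu
    rcases hu with rfl | rfl | rfl
    · exact hs
    · exact h.amem _ hs
    · exact h.bmem _ hs
  have h2 : ({s, a s, b s} : Finset ℕ).card = 3 :=
    Finset.card_eq_three.2 ⟨s, a s, b s, (h.ane s hs).symm, (h.bne s hs).symm, h.ab s hs, rfl⟩
  rw [← h2]
  exact Finset.card_le_card h1

/-- one of the alternating paths is heavy -/
theorem exists_heavy (h : Ring2 S a b) {s₀ : ℕ} (hs₀ : s₀ ∈ S) (w : ℕ → ℕ → ℕ) :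
    ∃ s ∈ S, (∑ u ∈ S, (w u (a u) + w u (b u)) ≤
        3 * ∑ i ∈ Finset.range (S.card - 1), w (altW a b s i) (altW a b s (i + 1))) ∨
      (∑ u ∈ S, (w u (a u) + w u (b u)) ≤
        3 * ∑ i ∈ Finset.range (S.card - 1), w (altW b a s i) (altW b a s (i + 1))) := by
  by_contra hcon
  push Not at hcon
  set w₀ := ∑ u ∈ S, (w u (a u) + w u (b u)) with hw₀
  have hL := h.three_le_card hs₀
  have key : ∀ i, ∑ s ∈ S, (w (altW a b s i) (altW a b s (i + 1)) +
      w (altW b a s i) (altW b a s (i + 1))) = w₀ := by
    intro i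
    rw [Finset.sum_add_distrib]
    have e1 : ∑ s ∈ S, w (altW a b s i) (altW a b s (i + 1)) =
        ∑ u ∈ S, w u (stp a b i u) := by
      rw [← h.sum_altW i (fun u => w u (stp a b i u))]
      exact Finset.sum_congr rfl fun s _ => by rw [altW_succ]
    have e2 : ∑ s ∈ S, w (altW b a s i) (altW b a s (i + 1)) =
        ∑ u ∈ S, w u (stp b a i u) := by
      rw [← h.swap.sum_altW i (fun u => w u (stp b a i u))]
      exact Finset.sum_congr rfl fun s _ => by rw [altW_succ]
    rw [e1, e2, hw₀, Finset.sum_add_distrib]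
    unfold stp
    split_ifs
    · rfl
    · exact add_comm _ _
  have hsum : ∑ s ∈ S, (∑ i ∈ Finset.range (S.card - 1), w (altW a b s i) (altW a b s (i + 1)) +
      ∑ i ∈ Finset.range (S.card - 1), w (altW b a s i) (altW b a s (i + 1))) =
      (S.card - 1) * w₀ := by
    have e1 : ∀ s ∈ S, (∑ i ∈ Finset.range (S.card - 1), w (altW a b s i) (altW a b s (i + 1)) +
      ∑ i ∈ Finset.range (S.card - 1), w (altW b a s i) (altW b a s (i + 1))) =
      ∑ i ∈ Finset.range (S.card - 1), (w (altW a b s i) (altW a b s (i + 1)) +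
        w (altW b a s i) (altW b a s (i + 1))) := fun s _ => Finset.sum_add_distrib.symm
    rw [Finset.sum_congr rfl e1, Finset.sum_comm, Finset.sum_congr rfl fun i _ => key i,
      Finset.sum_const, Finset.card_range, smul_eq_mul]
  have hlt : ∑ s ∈ S, 3 * (∑ i ∈ Finset.range (S.card - 1),
      w (altW a b s i) (altW a b s (i + 1)) +
      ∑ i ∈ Finset.range (S.card - 1), w (altW b a s i) (altW b a s (i + 1))) <
      ∑ s ∈ S, 2 * w₀ := by
    refine Finset.sum_lt_sum_of_nonempty ⟨s₀, hs₀⟩ fun s hs => ?_
    obtain ⟨h1, h2⟩ := hcon s hs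
    omega
  rw [← Finset.mul_sum, hsum, Finset.sum_const, smul_eq_mul] at hlt
  obtain ⟨t, ht⟩ := Nat.exists_eq_add_of_le hL
  rw [ht, show 3 + t - 1 = t + 2 by omega] at hlt
  nlinarith

end Ring2

/-! ### The executable alternating path -/

theorem altPath_aux (C D : List ℕ) (s k : ℕ) :
    (List.range k).foldl (fun (p : ℕ × List Arc) i =>
      let t := (if i % 2 = 0 then C else D).getD p.1 0
      (t, (p.1, t) :: p.2)) (s, []) =
    (altW (fun u => C.getD u 0) (fun u => D.getD u 0) s k,
      ((List.range k).map (fun i => (altW (fun u => C.getD u 0) (fun u => D.getD u 0) s i,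
        altW (fun u => C.getD u 0) (fun u => D.getD u 0) s (i + 1)))).reverse) := by
  induction k with
  | zero => rfl
  | succ k ih =>
    rw [List.range_succ, List.foldl_append, ih, List.map_append, List.reverse_append]
    simp only [List.foldl_cons, List.foldl_nil, List.map_cons, List.map_nil, List.reverse_cons,
      List.reverse_nil, List.nil_append, List.singleton_append]
    have e : altW (fun u => C.getD u 0) (fun u => D.getD u 0) s (k + 1) =
        (if k % 2 = 0 then C else D).getD
          (altW (fun u => C.getD u 0) (fun u => D.getD u 0) s k) 0 := by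
      rw [altW]
      split_ifs <;> rfl
    rw [e]

theorem altPath_eq (C D : List ℕ) (s k : ℕ) : altPath C D s k =
    ((List.range k).map (fun i => (altW (fun u => C.getD u 0) (fun u => D.getD u 0) s i,
        altW (fun u => C.getD u 0) (fun u => D.getD u 0) s (i + 1)))).reverse :=
  congrArg Prod.snd (altPath_aux C D s k)

theorem mem_altPath {C D : List ℕ} {s k : ℕ} {a : Arc} (h : a ∈ altPath C D s k) :
    ∃ i < k, a = (altW (fun u => C.getD u 0) (fun u => D.getD u 0) s i,
        altW (fun u => C.getD u 0) (fun u => D.getD u 0) s (i + 1)) := by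
  rw [altPath_eq, List.mem_reverse, List.mem_map] at h
  obtain ⟨i, hi, rfl⟩ := h
  exact ⟨i, List.mem_range.1 hi, rfl⟩

theorem wt_altPath (W : Mat) (C D : List ℕ) (s k : ℕ) : wt W (altPath C D s k) =
    ∑ i ∈ Finset.range k, ent W (altW (fun u => C.getD u 0) (fun u => D.getD u 0) s i)
        (altW (fun u => C.getD u 0) (fun u => D.getD u 0) s (i + 1)) := by
  unfold wt
  rw [altPath_eq, List.map_reverse, List.sum_reverse, List.map_map]
  induction k with
  | zero => rfl
  | succ k ih =>
    rw [List.range_succ, List.map_append, List.sum_append, ih, Finset.sum_range_succ]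
    simp

/-- an alternating path without repetition is a path cover -/
theorem isPC_altPath {n : ℕ} {C D : List ℕ} {s k : ℕ}
    (hlt : ∀ i ≤ k, altW (fun u => C.getD u 0) (fun u => D.getD u 0) s i < n)
    (hinj : ∀ i ≤ k, ∀ j ≤ k, altW (fun u => C.getD u 0) (fun u => D.getD u 0) s i =
      altW (fun u => C.getD u 0) (fun u => D.getD u 0) s j → i = j) :
    isPC n (altPath C D s k) = true := by
  rw [isPC_iff, pc_iff_acyclic]
  set x := altW (fun u => C.getD u 0) (fun u => D.getD u 0) s with hx
  refine ⟨?_, ?_, ?_, ?_⟩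
  · rw [altPath_eq, List.map_reverse, List.nodup_reverse, List.map_map]
    refine List.nodup_range.map_on fun i hi j hj hij => ?_
    rw [List.mem_range] at hi hj
    exact hinj i hi.le j hj.le hij
  · rw [altPath_eq, List.map_reverse, List.nodup_reverse, List.map_map]
    refine List.nodup_range.map_on fun i hi j hj hij => ?_
    rw [List.mem_range] at hi hj
    have := hinj (i + 1) hi (j + 1) hj hij
    omega
  · intro a ha
    obtain ⟨i, hi, rfl⟩ := mem_altPath ha
    exact ⟨hlt i hi.le, hlt (i + 1) hi⟩
  · have key : ∀ u v, Relation.TransGen (fun a b => (a, b) ∈ altPath C D s k) u v →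
        ∃ i j, i < j ∧ j ≤ k ∧ u = x i ∧ v = x j := by
      intro u v huv
      induction huv with
      | single h =>
        obtain ⟨i, hi, he⟩ := mem_altPath h
        exact ⟨i, i + 1, Nat.lt_succ_self i, hi, congrArg Prod.fst he, congrArg Prod.snd he⟩
      | tail _ h ih =>
        obtain ⟨i, j, hij, hjk, hu, hv⟩ := ih
        obtain ⟨l, hl, he⟩ := mem_altPath h
        have h1 : x j = x l := hv.symm.trans (congrArg Prod.fst he)
        have h2 := hinj j hjk l hl.le h1
        exact ⟨i, l + 1, by omega, hl, hu, congrArg Prod.snd he⟩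
    intro v hv
    obtain ⟨i, j, hij, hjk, h1, h2⟩ := key v v hv
    have := hinj i (by omega) j hjk (h1.symm.trans h2)
    omega

/-! ### The component -/

theorem r5_arcPerm_getD {n : ℕ} (D : List Arc) {u : ℕ} (hu : u < n) :
    (arcPerm n D).getD u 0 = (next D u).getD u := by
  unfold arcPerm
  rw [List.getD_eq_getElem?_getD, List.getElem?_map, List.getElem?_range hu]
  rfl

/-- the arc of `D` leaving `u` -/
theorem r5_arcPerm_mem {n : ℕ} (D : List Arc) {u : ℕ} (hu : u < n)
    (hne : (arcPerm n D).getD u 0 ≠ u) : (u, (arcPerm n D).getD u 0) ∈ D := by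
  rw [r5_arcPerm_getD D hu] at hne ⊢
  cases h : next D u with
  | none =>
    rw [h] at hne
    exact absurd rfl hne
  | some w =>
    exact next_mem h

/-- the arc of `D` leaving `a.1` -/
theorem r5_arcPerm_of_mem {n : ℕ} {D : List Arc} (hD : (D.map (fun a => a.1)).Nodup) {a : Arc}
    (ha : a ∈ D) (hlt : a.1 < n) : (arcPerm n D).getD a.1 0 = a.2 := by
  rw [r5_arcPerm_getD D hlt]
  cases h : next D a.1 with
  | none =>
    unfold next at h
    rw [Option.map_eq_none_iff, List.find?_eq_none] at h
    have := h _ ha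
    simp at this
  | some w =>
    have h1 := next_mem h
    have h2 := List.inj_on_of_nodup_map hD h1 ha rfl
    rw [← h2]
    rfl

theorem r5_mem_permArcs {n : ℕ} {C : List ℕ} {a : Arc} :
    a ∈ permArcs n C ↔ a.1 < n ∧ C.getD a.1 0 = a.2 ∧ a.1 ≠ a.2 := by
  unfold permArcs
  rw [List.mem_filter, List.mem_map]
  constructor
  · rintro ⟨⟨i, hi, rfl⟩, h⟩
    exact ⟨List.mem_range.1 hi, rfl, by simpa using h⟩
  · rintro ⟨h1, h2, h3⟩
    refine ⟨⟨a.1, List.mem_range.2 h1, ?_⟩, by simpa using h3⟩
    rw [h2]

theorem r5_conn_swap {G : List Arc} {u v : ℕ} (h : Conn G u v) : Conn G v u := by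
  induction h with
  | refl => exact Relation.ReflTransGen.refl
  | tail _ hbc ih => exact Relation.ReflTransGen.head (Or.symm hbc) ih

theorem cand_ring {n : ℕ} {W : Mat} {C : List ℕ} {D spp : List Arc} (h : Cov n C D spp)
    {v : ℕ} (hv : v < n)
    (hsp : ∀ p ∈ spp, p.1 ∉ comp n (full n C D) v)
    (hC : ∀ u ∈ comp n (full n C D) v, C.getD u 0 ≠ u ∧ C.getD (C.getD u 0) 0 = u)
    (hD : ∀ u ∈ comp n (full n C D) v, (arcPerm n D).getD u 0 ≠ u ∧
      (arcPerm n D).getD ((arcPerm n D).getD u 0) 0 = u) :
    ∃ P ∈ candidates n W C D spp (comp n (full n C D) v), isPC n P = true ∧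
      inside (comp n (full n C D) v) P = true ∧
      wt2 n W C D spp (comp n (full n C D) v) ≤ 6 * wt W P := by
  classical
  set S := comp n (full n C D) v with hS
  have hnd : S.Nodup := comp_nodup _ _ _
  -- facts on the graph
  have hClt : ∀ u, u < n → C.getD u 0 < n := by
    intro u hu
    apply h.clt
    rw [List.getD_eq_getElem _ _ (by rw [h.clen]; exact hu)]
    exact List.getElem_mem _
  have hG : ∀ a ∈ full n C D, a.1 < n ∧ a.2 < n := by
    intro a ha
    unfold full at ha
    rw [List.mem_append, r5_mem_permArcs] at ha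
    rcases ha with ⟨h1, h2, -⟩ | ha
    · exact ⟨h1, by rw [← h2]; exact hClt _ h1⟩
    · exact h.dlt a ha
  have hmem : ∀ u, u ∈ S ↔ Conn (full n C D) v u := fun u => mem_comp hG hv
  have hlt : ∀ u ∈ S, u < n := by
    intro u hu
    rw [hmem] at hu
    rcases Relation.ReflTransGen.cases_tail hu with h1 | ⟨w, -, h1⟩
    · rw [h1]
      exact hv
    · rcases h1 with h1 | h1
      · exact (hG _ h1).2
      · exact (hG _ h1).1
  have hstep : ∀ u ∈ S, ∀ w, ((u, w) ∈ full n C D ∨ (w, u) ∈ full n C D) → w ∈ S := by
    intro u hu w huw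
    rw [hmem] at hu ⊢
    exact hu.tail huw
  have hCarc : ∀ u ∈ S, (u, C.getD u 0) ∈ full n C D := by
    intro u hu
    unfold full
    rw [List.mem_append, r5_mem_permArcs]
    exact Or.inl ⟨hlt u hu, rfl, (hC u hu).1.symm⟩
  have hDarc' : ∀ u ∈ S, (u, (arcPerm n D).getD u 0) ∈ D := fun u hu =>
    r5_arcPerm_mem D (hlt u hu) (hD u hu).1
  have hDarc : ∀ u ∈ S, (u, (arcPerm n D).getD u 0) ∈ full n C D := fun u hu =>
    List.mem_append_right _ (hDarc' u hu)
  set c : ℕ → ℕ := fun u => C.getD u 0 with hc
  set d : ℕ → ℕ := fun u => (arcPerm n D).getD u 0 with hd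
  have hring : Ring2 S.toFinset c d := by
    refine ⟨?_, ?_, ?_, ?_, ?_, ?_, ?_⟩
    · intro u hu
      rw [List.mem_toFinset] at hu ⊢
      exact hstep u hu _ (Or.inl (hCarc u hu))
    · intro u hu
      rw [List.mem_toFinset] at hu ⊢
      exact hstep u hu _ (Or.inl (hDarc u hu))
    · intro u hu
      exact (hC u (List.mem_toFinset.1 hu)).2
    · intro u hu
      exact (hD u (List.mem_toFinset.1 hu)).2
    · intro u hu
      exact (hC u (List.mem_toFinset.1 hu)).1
    · intro u hu
      exact (hD u (List.mem_toFinset.1 hu)).1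
    · intro u hu heq
      rw [List.mem_toFinset] at hu
      have h1 := hDarc' u hu
      have h3 := h.pair _ h1 heq (by
        change C.getD ((arcPerm n D).getD u 0) 0 = u
        have h4 : (arcPerm n D).getD u 0 = C.getD u 0 := heq.symm
        rw [h4]
        exact (hC u hu).2)
      apply h3
      have h5 : (arcPerm n D).getD u 0 ∈ S := hstep u hu _ (Or.inl (hDarc u hu))
      have h6 := hDarc' _ h5
      rw [(hD u hu).2] at h6
      exact h6
  -- connectivity
  have hconn : ∀ T ⊆ S.toFinset, T.Nonempty → (∀ u ∈ T, c u ∈ T ∧ d u ∈ T) → T = S.toFinset := by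
    intro T hT ⟨t, ht⟩ hcl
    apply Finset.Subset.antisymm hT
    intro u hu
    rw [List.mem_toFinset] at hu
    have htS : t ∈ S := List.mem_toFinset.1 (hT ht)
    have h1 : Conn (full n C D) t u := by
      rw [hmem] at hu htS
      refine Relation.ReflTransGen.trans ?_ hu
      exact r5_conn_swap htS
    induction h1 with
    | refl => exact ht
    | tail hw hstep' ih =>
      rename_i w w'
      have hwS : w ∈ S := by
        rw [hmem]
        rw [hmem] at htS
        exact htS.trans hw
      have hwT : w ∈ T := ih hwS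
      obtain ⟨hcw, hdw⟩ := hcl w hwT
      unfold full at hstep'
      rw [List.mem_append, List.mem_append, r5_mem_permArcs, r5_mem_permArcs] at hstep'
      rcases hstep' with (⟨-, h2, -⟩ | h2) | (⟨-, h2, -⟩ | h2)
      · change c w = w' at h2
        rw [← h2]
        exact hcw
      · have h3 := r5_arcPerm_of_mem h.dout h2 (hlt w hwS)
        change d w = w' at h3
        rw [← h3]
        exact hdw
      · change c w' = w at h2
        have h3 : c (c w') = w' := (hC w' hu).2
        rw [h2] at h3
        rw [← h3]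
        exact hcw
      · have h3 := r5_arcPerm_of_mem h.dout h2 (hlt w' hu)
        change d w' = w at h3
        have h4 : d (d w') = w' := (hD w' hu).2
        rw [h3] at h4
        rw [← h4]
        exact hdw
  have hvS : v ∈ S := (hmem v).2 Relation.ReflTransGen.refl
  have hcard : S.toFinset.card = S.length := List.toFinset_card_of_nodup hnd
  have hlen : 0 < S.length := List.length_pos_of_mem hvS
  -- the weights
  have hwC : wt W (restr S (permArcs n C)) = ∑ u ∈ S.toFinset, ent W u (c u) := by
    have e1 : restr S (permArcs n C) =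
        ((List.range n).filter (fun u => S.contains u)).map (fun u => (u, C.getD u 0)) := by
      unfold restr permArcs
      rw [List.filter_filter, List.filter_map]
      congr 1
      apply List.filter_congr
      intro u _
      simp only [Function.comp_apply]
      by_cases hu : u ∈ S
      · have h1 : (u == C.getD u 0) = false := by
          rw [beq_eq_false_iff_ne]
          exact (hC u hu).1.symm
        rw [h1]
        simp [hu]
      · simp [hu]
    rw [e1]
    unfold wt
    rw [List.map_map, ← List.sum_toFinset _ (List.nodup_range.filter _)]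
    refine Finset.sum_congr ?_ fun u _ => rfl
    ext u
    simp only [List.mem_toFinset, List.mem_filter, List.mem_range, List.contains_iff_mem]
    exact ⟨fun h1 => h1.2, fun h1 => ⟨hlt u h1, h1⟩⟩
  have hwD : wt W (restr S D) = ∑ u ∈ S.toFinset, ent W u (d u) := by
    have e1 : (restr S D).map (fun a => ent W a.1 a.2) =
        ((restr S D).map (fun a => a.1)).map (fun u => ent W u (d u)) := by
      rw [List.map_map]
      refine List.map_congr_left fun a ha => ?_
      unfold restr at ha
      rw [List.mem_filter] at ha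
      have h1 : d a.1 = a.2 := r5_arcPerm_of_mem h.dout ha.1 (h.dlt a ha.1).1
      simp only [Function.comp_apply, h1]
    have e2 : ((restr S D).map (fun a => a.1)).Nodup :=
      List.Nodup.sublist (List.Sublist.map _ List.filter_sublist) h.dout
    unfold wt
    rw [e1, ← List.sum_toFinset _ e2]
    refine Finset.sum_congr ?_ fun u _ => rfl
    ext u
    rw [List.mem_toFinset, List.mem_toFinset, List.mem_map]
    constructor
    · rintro ⟨a, ha, rfl⟩
      unfold restr at ha
      rw [List.mem_filter, List.contains_iff_mem] at ha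
      exact ha.2
    · intro hu
      refine ⟨(u, d u), ?_, rfl⟩
      unfold restr
      rw [List.mem_filter, List.contains_iff_mem]
      exact ⟨hDarc' u hu, hu⟩
  have hw2 : wt2 n W C D spp S = 2 * ∑ u ∈ S.toFinset, (ent W u (c u) + ent W u (d u)) := by
    unfold wt2
    have e3 : restr S spp = [] := by
      unfold restr
      rw [List.filter_eq_nil_iff]
      intro p hp
      rw [List.contains_iff_mem]
      exact hsp p hp
    rw [hwC, hwD, e3, Finset.sum_add_distrib]
    simp only [List.map_nil, List.sum_nil]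
    ring
  -- the candidates
  have hgood : ∀ (C' D' : List ℕ), Ring2 S.toFinset (fun u => C'.getD u 0) (fun u => D'.getD u 0) →
      (∀ T ⊆ S.toFinset, T.Nonempty → (∀ u ∈ T, C'.getD u 0 ∈ T ∧ D'.getD u 0 ∈ T) →
        T = S.toFinset) → ∀ s ∈ S.toFinset,
      isPC n (altPath C' D' s (S.length - 1)) = true ∧
        inside S (altPath C' D' s (S.length - 1)) = true := by
    intro C' D' hr hcn s hs
    have hinj := hr.inj_of_conn hcn hs
    have hm := hr.mem hs
    constructor
    · apply isPC_altPath
      · intro i _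
        exact hlt _ (List.mem_toFinset.1 (hm i))
      · intro i hi j hj hij
        exact hinj i (by omega) j (by omega) hij
    · unfold inside
      rw [List.all_eq_true]
      intro a ha
      obtain ⟨i, -, rfl⟩ := mem_altPath ha
      rw [Bool.and_eq_true, List.contains_iff_mem, List.contains_iff_mem]
      exact ⟨List.mem_toFinset.1 (hm i), List.mem_toFinset.1 (hm (i + 1))⟩
  have hcand : ∀ s ∈ S, altPath C (arcPerm n D) s (S.length - 1) ∈ candidates n W C D spp S ∧
      altPath (arcPerm n D) C s (S.length - 1) ∈ candidates n W C D spp S := by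
    intro s hs
    unfold candidates
    constructor
    · refine List.mem_append_right _ (List.mem_flatMap.2 ⟨s, hs, ?_⟩)
      simp
    · refine List.mem_append_right _ (List.mem_flatMap.2 ⟨s, hs, ?_⟩)
      simp
  obtain ⟨s, hs, hh⟩ := hring.exists_heavy (List.mem_toFinset.2 hvS) (ent W)
  rw [hcard] at hh
  have hs' : s ∈ S := List.mem_toFinset.1 hs
  rcases hh with hh | hh
  · obtain ⟨g1, g2⟩ := hgood C (arcPerm n D) hring hconn s hs
    refine ⟨_, (hcand s hs').1, g1, g2, ?_⟩
    rw [hw2, wt_altPath]
    change 2 * _ ≤ 6 * ∑ i ∈ Finset.range (S.length - 1), ent W (altW c d s i) (altW c d s (i + 1))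
    omega
  · obtain ⟨g1, g2⟩ := hgood (arcPerm n D) C hring.swap
      (fun T hT hne hcl => hconn T hT hne fun u hu => (hcl u hu).symm) s hs
    refine ⟨_, (hcand s hs').2, g1, g2, ?_⟩
    rw [hw2, wt_altPath]
    change 2 * _ ≤ 6 * ∑ i ∈ Finset.range (S.length - 1), ent W (altW d c s i) (altW d c s (i + 1))
    omega

end Vale.Agent.Lib.P333.Alg
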