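import Mathlib
import Vale.Agent.Lib.P333.CovDefs
import Vale.Agent.Lib.P333.Cov1
import Vale.Agent.Lib.P333.Cov2
import Vale.Agent.Lib.P333.Cov3
import Vale.Agent.Lib.P333.Cov4
import Vale.Agent.Lib.P333.Cov5

/-! P333, module COV6 -/

namespace Vale.Agent.Lib.P333.Alg

/-! ### Basic facts on covers -/

theorem Cov.getD_lt {n : ℕ} {C : List ℕ} {D spp : List Arc} (h : Cov n C D spp) {i : ℕ}
    (hi : i < n) : C.getD i 0 < n := by
  have hi' : i < C.length := by rw [h.clen]; exact hi
  rw [List.getD_eq_getElem C 0 hi']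
  exact h.clt _ (List.getElem_mem hi')

theorem Cov.getD_inj {n : ℕ} {C : List ℕ} {D spp : List Arc} (h : Cov n C D spp) {i j : ℕ}
    (hi : i < n) (hj : j < n) (hij : C.getD i 0 = C.getD j 0) : i = j := by
  have hi' : i < C.length := by rw [h.clen]; exact hi
  have hj' : j < C.length := by rw [h.clen]; exact hj
  rw [List.getD_eq_getElem C 0 hi', List.getD_eq_getElem C 0 hj'] at hij
  exact (h.cnd.getElem_inj_iff).1 hij

theorem mem_permArcs {n : ℕ} {C : List ℕ} {a : Arc} :
    a ∈ permArcs n C ↔ a.1 < n ∧ a.2 = C.getD a.1 0 ∧ a.1 ≠ a.2 := by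
  unfold permArcs
  rw [List.mem_filter, List.mem_map]
  constructor
  · rintro ⟨⟨i, hi, rfl⟩, h2⟩
    rw [List.mem_range] at hi
    exact ⟨hi, rfl, by simpa using h2⟩
  · rintro ⟨h1, h2, h3⟩
    refine ⟨⟨a.1, List.mem_range.2 h1, Prod.ext rfl h2.symm⟩, by simpa using h3⟩

theorem permArcs_tails (n : ℕ) (C : List ℕ) : ((permArcs n C).map (fun a => a.1)).Nodup := by
  unfold permArcs
  refine List.Nodup.sublist (List.Sublist.map _ List.filter_sublist) ?_
  rw [List.map_map]
  have : ((fun a : Arc => a.1) ∘ fun i => (i, C.getD i 0)) = _root_.id := by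
    funext i; rfl
  rw [this, List.map_id]
  exact List.nodup_range

theorem Cov.permArcs_heads {n : ℕ} {C : List ℕ} {D spp : List Arc} (h : Cov n C D spp) :
    ((permArcs n C).map (fun a => a.2)).Nodup := by
  unfold permArcs
  refine List.Nodup.sublist (List.Sublist.map _ List.filter_sublist) ?_
  rw [List.map_map]
  refine List.Nodup.map_on ?_ List.nodup_range
  intro i hi j hj hij
  exact h.getD_inj (List.mem_range.1 hi) (List.mem_range.1 hj) hij

theorem filter_single {P : List Arc} {f : Arc → ℕ} (hnd : (P.map f).Nodup) (z : ℕ) :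
    P.filter (fun a => f a == z) = [] ∨
      ∃ a ∈ P, f a = z ∧ P.filter (fun a => f a == z) = [a] := by
  have h1 : ((P.filter (fun a => f a == z)).map f).Nodup :=
    List.Nodup.sublist (List.Sublist.map _ List.filter_sublist) hnd
  have h2 : ∀ a ∈ P.filter (fun a => f a == z), a ∈ P ∧ f a = z := by
    intro a ha
    rw [List.mem_filter] at ha
    exact ⟨ha.1, by simpa using ha.2⟩
  rcases hF : P.filter (fun a => f a == z) with _ | ⟨a, _ | ⟨b, l⟩⟩
  · exact Or.inl rfl
  · rw [hF] at h2
    have := h2 a (by simp)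
    exact Or.inr ⟨a, this.1, this.2, rfl⟩
  · rw [hF] at h1 h2
    have ha := (h2 a (by simp)).2
    have hb := (h2 b (by simp)).2
    simp [ha, hb] at h1

theorem Conn.symm {G : List Arc} {u v : ℕ} (h : Conn G u v) : Conn G v u := by
  induction h with
  | refl => exact Relation.ReflTransGen.refl
  | tail _ hbc ih => exact Relation.ReflTransGen.head (Or.symm hbc) ih

/-- the four arcs at a vertex of degree four -/
theorem Cov.four {n : ℕ} {C : List ℕ} {D spp : List Arc} (h : Cov n C D spp) {u : ℕ}
    (hd : 4 ≤ deg (full n C D) u) :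
    C.getD u 0 ≠ u ∧ ∃ ci x y, ci < n ∧ C.getD ci 0 = u ∧ (u, x) ∈ D ∧ (y, u) ∈ D ∧
      (full n C D).filter (fun a => a.1 == u) = [(u, C.getD u 0), (u, x)] ∧
      (full n C D).filter (fun a => a.2 == u) = [(ci, u), (y, u)] := by
  unfold deg full at hd
  unfold full
  simp only [List.filter_append, List.length_append] at hd ⊢
  have h1 := filter_single (permArcs_tails n C) u
  have h2 := filter_single h.permArcs_heads u
  have h3 := filter_single h.dout u
  have h4 := filter_single h.din u
  rcases h1 with h1 | ⟨a, ha, hau, h1⟩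
  · rcases h2 with h2 | ⟨b, -, -, h2⟩ <;> rcases h3 with h3 | ⟨c, -, -, h3⟩ <;>
      rcases h4 with h4 | ⟨d, -, -, h4⟩ <;> rw [h1, h2, h3, h4] at hd <;> simp at hd
  rcases h2 with h2 | ⟨b, hb, hbu, h2⟩
  · rcases h3 with h3 | ⟨c, -, -, h3⟩ <;>
      rcases h4 with h4 | ⟨d, -, -, h4⟩ <;> rw [h1, h2, h3, h4] at hd <;> simp at hd
  rcases h3 with h3 | ⟨c, hc, hcu, h3⟩
  · rcases h4 with h4 | ⟨d, -, -, h4⟩ <;> rw [h1, h2, h3, h4] at hd <;> simp at hd
  rcases h4 with h4 | ⟨d, hdD, hdu, h4⟩
  · rw [h1, h2, h3, h4] at hd; simp at hd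
  obtain ⟨a1, a2⟩ := a
  obtain ⟨b1, b2⟩ := b
  obtain ⟨c1, c2⟩ := c
  obtain ⟨d1, d2⟩ := d
  simp only at hau hbu hcu hdu
  subst hau hbu hcu hdu
  rw [mem_permArcs] at ha hb
  simp only at ha hb
  refine ⟨fun he => ha.2.2 (he ▸ ha.2.1.symm), b1, c2, d1, hb.1, hb.2.1.symm, hc, hdD, ?_, ?_⟩
  · rw [h1, h3, ha.2.1]; rfl
  · rw [h2, h4]; rfl

theorem next_of_nodup {P : List Arc} (hP : (P.map (fun a => a.1)).Nodup) {u w : ℕ}
    (h1 : (u, w) ∈ P) : next P u = some w := by
  cases h2 : next P u with
  | none =>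
    unfold next at h2
    rw [Option.map_eq_none_iff, List.find?_eq_none] at h2
    have := h2 _ h1
    simp at this
  | some x =>
    have h3 := List.inj_on_of_nodup_map hP h1 (next_mem h2) rfl
    have h4 : w = x := congrArg Prod.snd h3
    rw [h4]

theorem Cov.arcPerm_getD {n : ℕ} {C : List ℕ} {D spp : List Arc} (h : Cov n C D spp) {u x : ℕ}
    (hux : (u, x) ∈ D) : (arcPerm n D).getD u 0 = x := by
  have hu : u < n := (h.dlt _ hux).1
  unfold arcPerm
  rw [List.getD_eq_getElem _ 0 (by simpa using hu), List.getElem_map, List.getElem_range,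
    next_of_nodup h.dout hux]
  rfl

/-! ### COV6: every component has a good candidate; the whole cover -/

theorem exists_cand {n : ℕ} {W : Mat} {C : List ℕ} {D spp : List Arc} (h : Cov n C D spp)
    (hW : ∀ i, ent W i i = 0)
    (hopt : ∀ S : List ℕ, S.Nodup → (∀ u ∈ S, u < n) → (∀ u ∈ S, C.getD u 0 ∈ S) →
      ∀ P : List Arc, (P.map (fun a => a.1)).Nodup → (P.map (fun a => a.2)).Nodup →
        (∀ a ∈ P, a.1 ∈ S ∧ a.2 ∈ S) → wt W P ≤ wt W (restr S (permArcs n C)))
    {v : ℕ} (hv : v < n) :
    ∃ P ∈ candidates n W C D spp (comp n (full n C D) v), isPC n P = true ∧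
      inside (comp n (full n C D) v) P = true ∧
      wt2 n W C D spp (comp n (full n C D) v) ≤ 6 * wt W P := by
  have hG : ∀ a ∈ full n C D, a.1 < n ∧ a.2 < n := by
    intro a ha
    rcases List.mem_append.1 ha with ha | ha
    · rw [mem_permArcs] at ha
      exact ⟨ha.1, ha.2.1 ▸ h.getD_lt ha.1⟩
    · exact h.dlt a ha
  by_cases h1 : ∀ u ∈ comp n (full n C D) v, C.getD u 0 ≠ u → C.getD (C.getD u 0) 0 ≠ u
  · refine ⟨_, ?_, cand_long h hW hopt hv h1⟩
    unfold candidates
    simp
  by_cases h2 : (∃ p ∈ spp, p.1 ∈ comp n (full n C D) v) ∨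
      ∃ u ∈ comp n (full n C D) v, deg (full n C D) u ≤ 3
  · exact cand_deficient h hv h2
  push Not at h1 h2
  obtain ⟨u₀, hu₀, hne₀, htwo₀⟩ := h1
  obtain ⟨hsp, hdeg⟩ := h2
  have hmem : ∀ u, u ∈ comp n (full n C D) v ↔ Conn (full n C D) v u := fun u => mem_comp hG hv
  have hlt : ∀ u ∈ comp n (full n C D) v, u < n := by
    intro u hu
    rw [hmem] at hu
    rcases Relation.ReflTransGen.cases_tail hu with h3 | ⟨w, -, h3⟩
    · rw [h3]; exact hv
    · rcases h3 with h3 | h3
      · exact (hG _ h3).2
      · exact (hG _ h3).1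
  have hfour := fun u hu => h.four (hdeg u hu)
  have hfull : ∀ u ∈ comp n (full n C D) v, deg (full n C D) u = 4 := by
    intro u hu
    obtain ⟨-, ci, x, y, -, -, -, -, e1, e2⟩ := hfour u hu
    unfold deg
    rw [e1, e2]
    rfl
  by_contra hno
  -- a 2-cycle of `C` forces a 2-cycle of `D` and conversely
  have hAB : ∀ u ∈ comp n (full n C D) v, C.getD (C.getD u 0) 0 = u →
      ∃ x, (u, x) ∈ D ∧ (x, u) ∈ D := by
    intro u hu hA
    obtain ⟨hne, ci, x, y, hci, hCci, hx, hy, e1, e2⟩ := hfour u hu
    by_cases hyx : y = x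
    · exact ⟨x, hx, hyx ▸ hy⟩
    · exfalso
      have hci' : ci = C.getD u 0 :=
        h.getD_inj hci (h.getD_lt (hlt u hu)) (by rw [hCci, hA])
      refine hno (cand_full h hv hsp hfull hu (p := C.getD u 0) (x := x) (y := y) ?_ ?_ hyx)
      · rw [e2, hci']
      · rw [e1]
  have hBA : ∀ u ∈ comp n (full n C D) v, (∃ x, (u, x) ∈ D ∧ (x, u) ∈ D) →
      C.getD (C.getD u 0) 0 = u := by
    rintro u hu ⟨x', hx1, hx2⟩
    obtain ⟨hne, ci, x, y, hci, hCci, hx, hy, e1, e2⟩ := hfour u hu
    have hxx : x' = x := congrArg Prod.snd (List.inj_on_of_nodup_map h.dout hx1 hx rfl)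
    have hxy : x' = y := congrArg Prod.fst (List.inj_on_of_nodup_map h.din hx2 hy rfl)
    by_cases hc : ci = C.getD u 0
    · rw [← hc, hCci]
    · exfalso
      refine hno (cand_full h hv hsp hfull hu (p := x) (x := C.getD u 0) (y := ci) ?_ ?_ hc)
      · rw [e2, ← hxy, hxx]
        exact List.Perm.swap _ _ _
      · rw [e1]
        exact List.Perm.swap _ _ _
  -- propagation
  have hprop : ∀ u, Conn (full n C D) u₀ u → u ∈ comp n (full n C D) v ∧
      C.getD (C.getD u 0) 0 = u := by
    intro u hu
    induction hu with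
    | refl => exact ⟨hu₀, htwo₀⟩
    | tail hab hbc ih =>
      rename_i a b
      obtain ⟨haS, hA⟩ := ih
      have hbS : b ∈ comp n (full n C D) v := by
        rw [hmem] at haS ⊢
        exact Relation.ReflTransGen.tail haS hbc
      refine ⟨hbS, ?_⟩
      rcases hbc with hbc | hbc <;> rcases List.mem_append.1 hbc with hbc | hbc
      · rw [mem_permArcs] at hbc
        have hb : b = C.getD a 0 := hbc.2.1
        rw [hb, hA]
      · refine hBA b hbS ?_
        obtain ⟨x, hx1, hx2⟩ := hAB a haS hA
        have : x = b := congrArg Prod.snd (List.inj_on_of_nodup_map h.dout hx1 hbc rfl)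
        exact ⟨a, this ▸ hx2, hbc⟩
      · rw [mem_permArcs] at hbc
        have ha : a = C.getD b 0 := hbc.2.1
        have : C.getD a 0 = b := by
          refine h.getD_inj (h.getD_lt (hlt a haS)) (hlt b hbS) ?_
          rw [hA, ha]
        rw [← ha, this]
      · refine hBA b hbS ?_
        obtain ⟨x, hx1, hx2⟩ := hAB a haS hA
        have : x = b := congrArg Prod.fst (List.inj_on_of_nodup_map h.din hx2 hbc rfl)
        exact ⟨a, hbc, this ▸ hx1⟩
  have hall : ∀ u ∈ comp n (full n C D) v, C.getD (C.getD u 0) 0 = u := by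
    intro u hu
    refine (hprop u ?_).2
    rw [hmem] at hu hu₀
    exact Relation.ReflTransGen.trans (Conn.symm hu₀) hu
  refine hno (cand_ring h hv hsp (fun u hu => ⟨(hfour u hu).1, hall u hu⟩) fun u hu => ?_)
  obtain ⟨x, hx1, hx2⟩ := hAB u hu (hall u hu)
  rw [h.arcPerm_getD hx1, h.arcPerm_getD hx2]
  exact ⟨fun he => h.dloop _ hx1 he.symm, rfl⟩

/-! ### best candidates -/

theorem best_spec (n : ℕ) (W : Mat) (S : List ℕ) (l : List (List Arc)) :
    isPC n (best n W S l) = true ∧ inside S (best n W S l) = true ∧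
      ∀ P ∈ l, isPC n P = true → inside S P = true → wt W P ≤ wt W (best n W S l) := by
  have key : ∀ (l : List (List Arc)) (Q : List Arc), isPC n Q = true → inside S Q = true →
      isPC n (l.foldl (better n W S) Q) = true ∧ inside S (l.foldl (better n W S) Q) = true ∧
      wt W Q ≤ wt W (l.foldl (better n W S) Q) ∧
      ∀ P ∈ l, isPC n P = true → inside S P = true →
        wt W P ≤ wt W (l.foldl (better n W S) Q) := by
    intro l
    induction l with
    | nil => intro Q h1 h2; exact ⟨h1, h2, le_refl _, by simp⟩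
    | cons R l ih =>
      intro Q h1 h2
      rw [List.foldl_cons]
      by_cases hR : (isPC n R && inside S R && decide (wt W Q < wt W R)) = true
      · have hb : better n W S Q R = R := by
          unfold better; rw [if_pos hR]
        rw [hb]
        simp only [Bool.and_eq_true, decide_eq_true_eq] at hR
        obtain ⟨h3, h4, h5, h6⟩ := ih R hR.1.1 hR.1.2
        refine ⟨h3, h4, by omega, ?_⟩
        intro P hP hP1 hP2
        rcases List.mem_cons.1 hP with rfl | hP
        · exact h5
        · exact h6 P hP hP1 hP2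
      · have hb : better n W S Q R = Q := by
          unfold better; rw [if_neg hR]
        rw [hb]
        obtain ⟨h3, h4, h5, h6⟩ := ih Q h1 h2
        refine ⟨h3, h4, h5, ?_⟩
        intro P hP hP1 hP2
        rcases List.mem_cons.1 hP with rfl | hP
        · simp only [Bool.and_eq_true, decide_eq_true_eq, hP1, hP2, true_and] at hR
          omega
        · exact h6 P hP hP1 hP2
  have h0 : isPC n [] = true := by
    rw [isPC_iff]
    refine ⟨List.nodup_nil, List.nodup_nil, by simp, ?_⟩
    intro v hv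
    obtain ⟨m, rfl⟩ := Nat.exists_eq_succ_of_ne_zero (by omega : n ≠ 0)
    have h1 : ∀ m, walk [] (m + 1) v = none := by
      intro m
      induction m with
      | zero => rfl
      | succ m ih => rw [walk_succ, ih]; rfl
    exact h1 m
  obtain ⟨h1, h2, -, h4⟩ := key l [] h0 (by simp [inside])
  exact ⟨h1, h2, h4⟩

/-- union of path covers with disjoint supports -/
theorem PC.append {n : ℕ} {P Q : List Arc} {S T : ℕ → Prop} (hP : PC n P) (hQ : PC n Q)
    (hPS : ∀ a ∈ P, S a.1 ∧ S a.2) (hQT : ∀ a ∈ Q, T a.1 ∧ T a.2)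
    (hST : ∀ x, S x → T x → False) : PC n (P ++ Q) := by
  rw [pc_iff_acyclic] at hP hQ ⊢
  obtain ⟨p1, p2, p3, p4⟩ := hP
  obtain ⟨q1, q2, q3, q4⟩ := hQ
  refine ⟨?_, ?_, ?_, ?_⟩
  · rw [List.map_append, List.nodup_append]
    refine ⟨p1, q1, ?_⟩
    intro x hx y hy hxy
    rw [List.mem_map] at hx hy
    obtain ⟨a, ha, rfl⟩ := hx
    obtain ⟨b, hb, rfl⟩ := hy
    exact hST _ (hPS a ha).1 (hxy ▸ (hQT b hb).1)
  · rw [List.map_append, List.nodup_append]
    refine ⟨p2, q2, ?_⟩
    intro x hx y hy hxy
    rw [List.mem_map] at hx hy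
    obtain ⟨a, ha, rfl⟩ := hx
    obtain ⟨b, hb, rfl⟩ := hy
    exact hST _ (hPS a ha).2 (hxy ▸ (hQT b hb).2)
  · intro a ha
    rcases List.mem_append.1 ha with ha | ha
    · exact p3 a ha
    · exact q3 a ha
  · intro v hv
    have key : ∀ u w, Relation.TransGen (fun a b => (a, b) ∈ P ++ Q) u w →
        (S u → S w ∧ Relation.TransGen (fun a b => (a, b) ∈ P) u w) ∧
        (T u → T w ∧ Relation.TransGen (fun a b => (a, b) ∈ Q) u w) := by
      intro u w huw
      induction huw with
      | single h1 =>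
        rcases List.mem_append.1 h1 with h1 | h1
        · exact ⟨fun _ => ⟨(hPS _ h1).2, Relation.TransGen.single h1⟩,
            fun hT => absurd hT fun hT => hST _ (hPS _ h1).1 hT⟩
        · exact ⟨fun hS => absurd hS fun hS => hST _ hS (hQT _ h1).1,
            fun _ => ⟨(hQT _ h1).2, Relation.TransGen.single h1⟩⟩
      | tail _ h1 ih =>
        obtain ⟨ih1, ih2⟩ := ih
        constructor
        · intro hS
          obtain ⟨h2, h3⟩ := ih1 hS
          rcases List.mem_append.1 h1 with h1 | h1
          · exact ⟨(hPS _ h1).2, h3.tail h1⟩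
          · exact absurd (hQT _ h1).1 fun hT => hST _ h2 hT
        · intro hT
          obtain ⟨h2, h3⟩ := ih2 hT
          rcases List.mem_append.1 h1 with h1 | h1
          · exact absurd (hPS _ h1).1 fun hS => hST _ hS h2
          · exact ⟨(hQT _ h1).2, h3.tail h1⟩
    have hfirst : S v ∨ T v := by
      obtain ⟨w, hw, -⟩ := Relation.TransGen.head'_iff.1 hv
      rcases List.mem_append.1 hw with hw | hw
      · exact Or.inl (hPS _ hw).1
      · exact Or.inr (hQT _ hw).1
    rcases hfirst with hS | hT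
    · exact p4 v ((key v v hv).1 hS).2
    · exact q4 v ((key v v hv).2 hT).2

/-- the representative of a component: its least element -/
def Rep (n : ℕ) (G : List Arc) (v : ℕ) : Prop :=
  ((comp n G v).any (fun u => decide (u < v))) = false

theorem rep_iff {n : ℕ} {G : List Arc} (hG : ∀ a ∈ G, a.1 < n ∧ a.2 < n) {v : ℕ} (hv : v < n) :
    Rep n G v ↔ ∀ u, Conn G v u → v ≤ u := by
  unfold Rep
  rw [List.any_eq_false]
  constructor
  · intro h u hu
    have := h u ((mem_comp hG hv).2 hu)
    simpa using this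
  · intro h u hu
    have := h u ((mem_comp hG hv).1 hu)
    simpa using this

theorem rep_unique {n : ℕ} {G : List Arc} (hG : ∀ a ∈ G, a.1 < n ∧ a.2 < n) {v v' x : ℕ}
    (hv : v < n) (hv' : v' < n) (h : Rep n G v) (h' : Rep n G v')
    (hx : x ∈ comp n G v) (hx' : x ∈ comp n G v') : v = v' := by
  rw [rep_iff hG hv] at h
  rw [rep_iff hG hv'] at h'
  rw [mem_comp hG hv] at hx
  rw [mem_comp hG hv'] at hx'
  have h1 : Conn G v v' := Relation.ReflTransGen.trans hx (Conn.symm hx')
  exact le_antisymm (h v' h1) (h' v (Conn.symm h1))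

theorem exists_rep {n : ℕ} {G : List Arc} (hG : ∀ a ∈ G, a.1 < n ∧ a.2 < n) {x : ℕ}
    (hx : x < n) : ∃ v < n, Rep n G v ∧ x ∈ comp n G v := by
  classical
  have hex : ∃ u, Conn G x u := ⟨x, Relation.ReflTransGen.refl⟩
  have h1 := Nat.find_spec hex
  have h2 : Nat.find hex ≤ x := Nat.find_min' hex Relation.ReflTransGen.refl
  refine ⟨Nat.find hex, lt_of_le_of_lt h2 hx, ?_, ?_⟩
  · rw [rep_iff hG (lt_of_le_of_lt h2 hx)]
    intro u hu
    exact Nat.find_min' hex (Relation.ReflTransGen.trans h1 hu)
  · rw [mem_comp hG (lt_of_le_of_lt h2 hx)]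
    exact Conn.symm h1

/-- the part of the cover belonging to `v` -/
def coverAt (n : ℕ) (W : Mat) (C : List ℕ) (D spp : List Arc) (v : ℕ) : List Arc :=
  if (comp n (full n C D) v).any (fun u => decide (u < v)) then []
  else best n W (comp n (full n C D) v) (candidates n W C D spp (comp n (full n C D) v))

theorem cover_eq (n : ℕ) (W : Mat) (C : List ℕ) (D spp : List Arc) :
    cover n W C D spp = (List.range n).flatMap (coverAt n W C D spp) := rfl

theorem coverAt_spec (n : ℕ) (W : Mat) (C : List ℕ) (D spp : List Arc) (v : ℕ) :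
    PC n (coverAt n W C D spp v) ∧
      ∀ a ∈ coverAt n W C D spp v, Rep n (full n C D) v ∧ a.1 ∈ comp n (full n C D) v ∧
        a.2 ∈ comp n (full n C D) v := by
  unfold coverAt
  split
  · refine ⟨?_, by simp⟩
    have := (best_spec n W [] []).1
    rw [isPC_iff] at this
    exact this
  · rename_i hrep
    obtain ⟨h1, h2, -⟩ := best_spec n W (comp n (full n C D) v)
      (candidates n W C D spp (comp n (full n C D) v))
    refine ⟨(isPC_iff _ _).1 h1, ?_⟩
    intro a ha
    unfold inside at h2
    rw [List.all_eq_true] at h2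
    have h3 := h2 a ha
    simp only [Bool.and_eq_true, List.contains_eq_mem, decide_eq_true_eq] at h3
    exact ⟨by simpa [Rep] using hrep, h3.1, h3.2⟩

/-- the union of the best candidates is a path cover -/
theorem isPC_cover {n : ℕ} {W : Mat} {C : List ℕ} {D spp : List Arc}
    (hG : ∀ a ∈ full n C D, a.1 < n ∧ a.2 < n) : isPC n (cover n W C D spp) = true := by
  rw [isPC_iff, cover_eq]
  have key : ∀ l : List ℕ, l.Nodup → (∀ v ∈ l, v < n) →
      PC n (l.flatMap (coverAt n W C D spp)) := by
    intro l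
    induction l with
    | nil =>
      intro _ _
      have := (best_spec n W [] []).1
      rw [isPC_iff] at this
      exact this
    | cons v l ih =>
      intro hnd hlt
      rw [List.flatMap_cons]
      rw [List.nodup_cons] at hnd
      refine PC.append (S := fun x => Rep n (full n C D) v ∧ x ∈ comp n (full n C D) v)
        (T := fun x => ∃ w ∈ l, Rep n (full n C D) w ∧ x ∈ comp n (full n C D) w)
        (coverAt_spec n W C D spp v).1 (ih hnd.2 fun w hw => hlt w (List.mem_cons_of_mem _ hw))
        ?_ ?_ ?_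
      · intro a ha
        obtain ⟨h1, h2, h3⟩ := (coverAt_spec n W C D spp v).2 a ha
        exact ⟨⟨h1, h2⟩, ⟨h1, h3⟩⟩
      · intro a ha
        rw [List.mem_flatMap] at ha
        obtain ⟨w, hw, ha⟩ := ha
        obtain ⟨h1, h2, h3⟩ := (coverAt_spec n W C D spp w).2 a ha
        exact ⟨⟨w, hw, h1, h2⟩, ⟨w, hw, h1, h3⟩⟩
      · rintro x ⟨h1, h2⟩ ⟨w, hw, h3, h4⟩
        have := rep_unique hG (hlt v (by simp)) (hlt w (List.mem_cons_of_mem _ hw)) h1 h3 h2 h4
        exact hnd.1 (this ▸ hw)
  exact key _ List.nodup_range fun v hv => List.mem_range.1 hv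

/-- splitting a weight over the components -/
theorem sum_restr {n : ℕ} {G : List Arc} (hG : ∀ a ∈ G, a.1 < n ∧ a.2 < n) (f : Arc → ℕ)
    (L : List Arc) (hL : ∀ a ∈ L, a.1 < n) :
    (L.map f).sum = ((List.range n).map (fun v =>
      if (comp n G v).any (fun u => decide (u < v)) then 0
      else ((restr (comp n G v) L).map f).sum)).sum := by
  induction L with
  | nil =>
    symm
    rw [List.map_nil, List.sum_nil]
    apply List.sum_eq_zero
    intro x hx
    rw [List.mem_map] at hx
    obtain ⟨v, -, rfl⟩ := hx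
    split <;> simp [restr]
  | cons a L ih =>
    rw [List.map_cons, List.sum_cons, ih fun b hb => hL b (List.mem_cons_of_mem _ hb)]
    obtain ⟨w, hw, hrep, hmem⟩ := exists_rep hG (hL a (by simp))
    have h1 : ∀ v ∈ List.range n,
        (if (comp n G v).any (fun u => decide (u < v)) then 0
          else ((restr (comp n G v) (a :: L)).map f).sum) =
        (if v = w then f a else 0) + (if (comp n G v).any (fun u => decide (u < v)) then 0
          else ((restr (comp n G v) L).map f).sum) := by
      intro v hv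
      rw [List.mem_range] at hv
      by_cases hvw : v = w
      · subst hvw
        rw [if_pos rfl]
        have h2 : ((comp n G v).any (fun u => decide (u < v))) = false := hrep
        rw [h2]
        simp only [Bool.false_eq_true, if_false]
        unfold restr
        rw [List.filter_cons_of_pos (by simpa using hmem), List.map_cons, List.sum_cons]
      · rw [if_neg hvw, zero_add]
        split
        · rfl
        · rename_i h2
          have hrep' : Rep n G v := by simpa [Rep] using h2
          unfold restr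
          rw [List.filter_cons_of_neg]
          intro h3
          have h4 : a.1 ∈ comp n G v := by simpa using h3
          exact hvw (rep_unique hG hv hw hrep' hrep h4 hmem)
    rw [List.map_congr_left h1, List.sum_map_add]
    congr 1
    have h5 : ∀ (m : ℕ), ((List.range m).map (fun v => if v = w then f a else 0)).sum =
        if w < m then f a else 0 := by
      intro m
      induction m with
      | zero => simp
      | succ m ih =>
        rw [List.range_succ, List.map_append, List.sum_append, ih]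
        by_cases h6 : m = w
        · subst h6; simp
        · by_cases h7 : w < m
          · simp [h6, h7, Nat.lt_succ_of_lt h7]
          · have h8 : ¬ w < m + 1 := by omega
            simp [h6, h7, h8]
    rw [h5 n, if_pos hw]

theorem sum_map_flatMap (f : Arc → ℕ) (g : ℕ → List Arc) (l : List ℕ) :
    ((l.flatMap g).map f).sum = (l.map (fun v => ((g v).map f).sum)).sum := by
  induction l with
  | nil => rfl
  | cons v l ih =>
    rw [List.flatMap_cons, List.map_append, List.sum_append, ih, List.map_cons, List.sum_cons]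

theorem cover_weight {n : ℕ} {W : Mat} {C : List ℕ} {D spp : List Arc} (h : Cov n C D spp)
    (hW : ∀ i, ent W i i = 0)
    (hopt : ∀ S : List ℕ, S.Nodup → (∀ u ∈ S, u < n) → (∀ u ∈ S, C.getD u 0 ∈ S) →
      ∀ P : List Arc, (P.map (fun a => a.1)).Nodup → (P.map (fun a => a.2)).Nodup →
        (∀ a ∈ P, a.1 ∈ S ∧ a.2 ∈ S) → wt W P ≤ wt W (restr S (permArcs n C))) :
    2 * wt W (permArcs n C) + 2 * wt W D +
      (spp.map (fun p => ent W p.1 p.2 + ent W p.2 p.1)).sum ≤ 6 * wt W (cover n W C D spp) := by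
  have hG : ∀ a ∈ full n C D, a.1 < n ∧ a.2 < n := by
    intro a ha
    rcases List.mem_append.1 ha with ha | ha
    · rw [mem_permArcs] at ha
      exact ⟨ha.1, ha.2.1 ▸ h.getD_lt ha.1⟩
    · exact h.dlt a ha
  have e1 := sum_restr hG (fun a => ent W a.1 a.2) (permArcs n C)
    (fun a ha => (mem_permArcs.1 ha).1)
  have e2 := sum_restr hG (fun a => ent W a.1 a.2) D (fun a ha => (h.dlt a ha).1)
  have e3 := sum_restr hG (fun p => ent W p.1 p.2 + ent W p.2 p.1) spp
    (fun a ha => (h.slt a ha).1)
  have e4 : wt W (cover n W C D spp) =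
      ((List.range n).map (fun v => wt W (coverAt n W C D spp v))).sum := by
    rw [cover_eq]
    exact sum_map_flatMap _ _ _
  unfold wt at e4 ⊢
  rw [e1, e2, e3, e4]
  rw [← List.sum_map_mul_left, ← List.sum_map_mul_left, ← List.sum_map_mul_left,
    ← List.sum_map_add, ← List.sum_map_add]
  refine List.sum_le_sum fun v hv => ?_
  rw [List.mem_range] at hv
  by_cases hrep : ((comp n (full n C D) v).any (fun u => decide (u < v))) = true
  · simp [hrep]
  · obtain ⟨P, hP, h1, h2, h3⟩ := exists_cand h hW hopt hv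
    have h4 := (best_spec n W (comp n (full n C D) v)
      (candidates n W C D spp (comp n (full n C D) v))).2.2 P hP h1 h2
    have h5 : coverAt n W C D spp v = best n W (comp n (full n C D) v)
      (candidates n W C D spp (comp n (full n C D) v)) := by
      unfold coverAt
      rw [if_neg hrep]
    rw [if_neg hrep, if_neg hrep, if_neg hrep, h5]
    unfold wt2 wt at h3
    unfold wt at h4
    omega

end Vale.Agent.Lib.P333.Alg
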