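import Mathlib
import Vale.Agent.Lib.P333.CovDefs
import Vale.Agent.Lib.P333.Auction

/-! P333, module GAD1 -/

namespace Vale.Agent.Lib.P333.Alg

open Finset

theorem gad1_ent_mkMat (n : ℕ) (f : ℕ → ℕ → ℕ) (i j : ℕ) :
    ent (mkMat n f) i j = if i < n ∧ j < n then f i j else 0 := by
  unfold ent mkMat
  by_cases hi : i < n
  · have hrow : ((List.range n).map fun i => (List.range n).map fun j => f i j).getD i [] =
        (List.range n).map fun j => f i j := by
      rw [List.getD_eq_getElem _ _ (by simpa using hi)]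
      simp
    rw [hrow]
    by_cases hj : j < n
    · rw [if_pos ⟨hi, hj⟩, List.getD_eq_getElem _ _ (by simpa using hj)]
      simp
    · rw [if_neg (fun h => hj h.2), List.getD_eq_default]
      simpa using hj
  · have hrow : ((List.range n).map fun i => (List.range n).map fun j => f i j).getD i [] = [] := by
      rw [List.getD_eq_default]
      simpa using hi
    rw [hrow, if_neg (fun h => hi h.1)]
    rfl

theorem ent_zeroDiag (n : ℕ) (W : Mat) (i j : ℕ) :
    ent (zeroDiag n W) i j = if i < n ∧ j < n ∧ i ≠ j then ent W i j else 0 := by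
  unfold zeroDiag
  rw [gad1_ent_mkMat]
  by_cases h1 : i < n <;> by_cases h2 : j < n <;> by_cases h3 : i = j <;> simp [h1, h2, h3]

theorem gad1_sum_filter {β : Type*} (p : β → Bool) (g : β → ℕ) (l : List β) :
    ((l.filter p).map g).sum = (l.map (fun a => if p a then g a else 0)).sum := by
  induction l with
  | nil => rfl
  | cons a l ih =>
    rw [List.filter_cons]
    split_ifs with h
    · simp [ih, h]
    · simp [ih, h]

theorem gad1_sum_range (n : ℕ) (g : ℕ → ℕ) :
    ((List.range n).map g).sum = ∑ i ∈ range n, g i := by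
  rw [← List.toFinset_range, List.sum_toFinset _ List.nodup_range]

/-- weight of the arcs of a permutation with tail in `S` -/
theorem gad1_wt_restr (n : ℕ) (W : Mat) (hW : ∀ i, ent W i i = 0) (S : List ℕ)
    (hlt : ∀ u ∈ S, u < n) (C : List ℕ) :
    wt W (restr S (permArcs n C)) = ∑ i ∈ S.toFinset, ent W i (C.getD i 0) := by
  unfold wt restr permArcs
  rw [gad1_sum_filter, gad1_sum_filter, List.map_map, gad1_sum_range]
  have h1 : S.toFinset = (range n).filter (fun i => i ∈ S) := by
    ext i
    rw [List.mem_toFinset, mem_filter, mem_range]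
    exact ⟨fun h => ⟨hlt i h, h⟩, fun h => h.2⟩
  rw [h1, sum_filter]
  refine sum_congr rfl fun i _ => ?_
  simp only [Function.comp_apply]
  by_cases hS : i ∈ S
  · simp [hS]
    intro h
    rw [← h]
    exact (hW i).symm
  · simp [hS]

theorem gad1_extend (S : List ℕ) (P : List Arc) (h1 : (P.map (fun a => a.1)).Nodup)
    (h2 : (P.map (fun a => a.2)).Nodup) (h3 : ∀ a ∈ P, a.1 ∈ S ∧ a.2 ∈ S) :
    ∃ β : Equiv.Perm {x // x ∈ S}, ∀ a, ∀ ha : a ∈ P, (β ⟨a.1, (h3 a ha).1⟩ : ℕ) = a.2 := by
  classical
  have hin1 : ∀ a ∈ P, ∀ b ∈ P, a.1 = b.1 → a = b := fun a ha b hb h =>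
    List.inj_on_of_nodup_map h1 ha hb h
  have hin2 : ∀ a ∈ P, ∀ b ∈ P, a.2 = b.2 → a = b := fun a ha b hb h =>
    List.inj_on_of_nodup_map h2 ha hb h
  let p : {x // x ∈ S} → Prop := fun x => ∃ a ∈ P, a.1 = x.1
  let q : {x // x ∈ S} → Prop := fun x => ∃ a ∈ P, a.2 = x.1
  have hch : ∀ x : {x // p x}, ∃ a ∈ P, a.1 = x.1.1 := fun x => x.2
  choose f hf hf' using hch
  let e : {x // p x} ≃ {x // q x} := Equiv.ofBijective
    (fun x => ⟨⟨(f x).2, (h3 _ (hf x)).2⟩, ⟨f x, hf x, rfl⟩⟩) (by
      constructor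
      · intro x y hxy
        have h4 : (f x).2 = (f y).2 := congrArg (fun z => z.1.1) hxy
        have h5 := hin2 _ (hf x) _ (hf y) h4
        apply Subtype.ext
        apply Subtype.ext
        rw [← hf' x, ← hf' y, h5]
      · rintro ⟨⟨y, hy⟩, ⟨a, ha, hay⟩⟩
        refine ⟨⟨⟨a.1, (h3 a ha).1⟩, ⟨a, ha, rfl⟩⟩, ?_⟩
        apply Subtype.ext
        apply Subtype.ext
        have h5 := hin1 _ (hf ⟨⟨a.1, (h3 a ha).1⟩, ⟨a, ha, rfl⟩⟩) _ ha (hf' _)
        change (f _).2 = y
        rw [h5]
        exact hay)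
  refine ⟨e.extendSubtype, fun a ha => ?_⟩
  rw [Equiv.extendSubtype_apply_of_mem e _ ⟨a, ha, rfl⟩]
  have h5 := hin1 _ (hf ⟨⟨a.1, (h3 a ha).1⟩, ⟨a, ha, rfl⟩⟩) _ ha (hf' _)
  change (f _).2 = a.2
  rw [h5]

/-- GAD1: optimality of the first assignment on closed sets, and against Hamiltonian paths -/
theorem assign_opt_closed (n : ℕ) (W : Mat) (hW : ∀ i, ent W i i = 0) (S : List ℕ)
    (hS : S.Nodup) (hlt : ∀ u ∈ S, u < n) (hcl : ∀ u ∈ S, (assign n W).getD u 0 ∈ S)
    (P : List Arc) (h1 : (P.map (fun a => a.1)).Nodup) (h2 : (P.map (fun a => a.2)).Nodup)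
    (h3 : ∀ a ∈ P, a.1 ∈ S ∧ a.2 ∈ S) :
    wt W P ≤ wt W (restr S (permArcs n (assign n W))) := by
  classical
  obtain ⟨hlen, hnd, hval, hopt⟩ := assign_spec n W
  set C : List ℕ := assign n W with hC
  have hClt : ∀ i < n, C.getD i 0 < n := by
    intro i hi
    rw [List.getD_eq_getElem _ _ (by rw [hlen]; exact hi)]
    exact hval _ (List.getElem_mem _)
  have hCinj : ∀ i < n, ∀ j < n, C.getD i 0 = C.getD j 0 → i = j := by
    intro i hi j hj hij
    rw [List.getD_eq_getElem _ _ (by rw [hlen]; exact hi),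
      List.getD_eq_getElem _ _ (by rw [hlen]; exact hj)] at hij
    exact (hnd.getElem_inj_iff).1 hij
  have hback : ∀ j < n, C.getD j 0 ∈ S → j ∈ S := by
    intro j hj hjS
    have himg : S.toFinset.image (fun i => C.getD i 0) = S.toFinset := by
      apply eq_of_subset_of_card_le
      · intro x hx
        obtain ⟨i, hi, rfl⟩ := mem_image.1 hx
        rw [List.mem_toFinset] at hi ⊢
        exact hcl i hi
      · rw [card_image_of_injOn]
        intro i hi k hk hik
        have hi' : i ∈ S := by simpa using hi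
        have hk' : k ∈ S := by simpa using hk
        exact hCinj i (hlt i hi') k (hlt k hk') hik
    have h4 : C.getD j 0 ∈ S.toFinset := List.mem_toFinset.2 hjS
    rw [← himg] at h4
    obtain ⟨i, hi, hij⟩ := mem_image.1 h4
    rw [List.mem_toFinset] at hi
    rw [← hCinj i (hlt i hi) j hj hij]
    exact hi
  obtain ⟨β, hβ⟩ := gad1_extend S P h1 h2 h3
  let b : ℕ → ℕ := fun i => if h : i ∈ S then (β ⟨i, h⟩ : ℕ) else C.getD i 0
  have hbS : ∀ i (h : i ∈ S), b i = (β ⟨i, h⟩ : ℕ) := fun i h => dif_pos h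
  have hbn : ∀ i, i ∉ S → b i = C.getD i 0 := fun i h => dif_neg h
  have hblt : ∀ i < n, b i < n := by
    intro i hi
    by_cases h : i ∈ S
    · rw [hbS i h]
      exact hlt _ (β ⟨i, h⟩).2
    · rw [hbn i h]
      exact hClt i hi
  have hbinj : ∀ i < n, ∀ j < n, b i = b j → i = j := by
    intro i hi j hj hij
    by_cases h : i ∈ S
    · by_cases h' : j ∈ S
      · rw [hbS i h, hbS j h'] at hij
        have := β.injective (Subtype.ext hij)
        exact congrArg Subtype.val this
      · rw [hbS i h, hbn j h'] at hij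
        exfalso
        apply h'
        apply hback j hj
        rw [← hij]
        exact (β ⟨i, h⟩).2
    · by_cases h' : j ∈ S
      · rw [hbn i h, hbS j h'] at hij
        exfalso
        apply h
        apply hback i hi
        rw [hij]
        exact (β ⟨j, h'⟩).2
      · rw [hbn i h, hbn j h'] at hij
        exact hCinj i hi j hj hij
  have hgetD : ∀ i < n, ((List.range n).map b).getD i 0 = b i := by
    intro i hi
    rw [List.getD_eq_getElem _ _ (by simpa using hi)]
    simp
  have hle := hopt ((List.range n).map b) (by simp) (by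
    refine List.Nodup.map_on ?_ List.nodup_range
    intro x hx y hy hxy
    rw [List.mem_range] at hx hy
    exact hbinj x hx y hy hxy) (by
    intro j hj
    obtain ⟨i, hi, rfl⟩ := List.mem_map.1 hj
    exact hblt i (List.mem_range.1 hi))
  rw [sum_congr rfl (fun i hi => by rw [hgetD i (mem_range.1 hi)] :
    ∀ i ∈ range n, ent W i (((List.range n).map b).getD i 0) = ent W i (b i))] at hle
  rw [← sum_filter_add_sum_filter_not (range n) (fun i => i ∈ S),
    ← sum_filter_add_sum_filter_not (range n) (fun i => i ∈ S)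
      (fun i => ent W i (C.getD i 0))] at hle
  have hout : ∑ i ∈ (range n).filter (fun i => ¬ i ∈ S), ent W i (b i) =
      ∑ i ∈ (range n).filter (fun i => ¬ i ∈ S), ent W i (C.getD i 0) := by
    refine sum_congr rfl fun i hi => ?_
    rw [hbn i (mem_filter.1 hi).2]
  have hSf : (range n).filter (fun i => i ∈ S) = S.toFinset := by
    ext i
    rw [List.mem_toFinset, mem_filter, mem_range]
    exact ⟨fun h => h.2, fun h => ⟨hlt i h, h⟩⟩
  rw [hout, hSf] at hle
  have hle2 : ∑ i ∈ S.toFinset, ent W i (b i) ≤ ∑ i ∈ S.toFinset, ent W i (C.getD i 0) := by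
    omega
  rw [gad1_wt_restr n W hW S hlt C]
  refine le_trans ?_ hle2
  have hP : wt W P = ∑ i ∈ (P.map (fun a => a.1)).toFinset, ent W i (b i) := by
    rw [List.sum_toFinset _ h1, List.map_map]
    unfold wt
    congr 1
    refine List.map_congr_left fun a ha => ?_
    simp only [Function.comp_apply]
    rw [hbS a.1 (h3 a ha).1, hβ a ha]
  rw [hP]
  apply sum_le_sum_of_subset
  intro i hi
  rw [List.mem_toFinset, List.mem_map] at hi
  obtain ⟨a, ha, rfl⟩ := hi
  exact List.mem_toFinset.2 (h3 a ha).1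

theorem gad1_zip_fst (l₁ l₂ : List ℕ) : ((l₁.zip l₂).map (fun a => a.1)).Sublist l₁ := by
  induction l₁ generalizing l₂ with
  | nil => simp
  | cons a l ih =>
    cases l₂ with
    | nil => simp
    | cons b l' =>
      simp only [List.zip_cons_cons, List.map_cons]
      exact (ih l').cons_cons a

theorem gad1_zip_snd (l₁ l₂ : List ℕ) : ((l₁.zip l₂).map (fun a => a.2)).Sublist l₂ := by
  induction l₁ generalizing l₂ with
  | nil => simp
  | cons a l ih =>
    cases l₂ with
    | nil => simp
    | cons b l' =>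
      simp only [List.zip_cons_cons, List.map_cons]
      exact (ih l').cons_cons b

theorem gad1_ham_eq (W : Mat) (l : List ℕ) : ham W l = wt W (l.zip l.tail) := by
  induction l with
  | nil => rfl
  | cons a l ih =>
    cases l with
    | nil => rfl
    | cons b l =>
      simp only [ham, ih, List.tail_cons, List.zip_cons_cons]
      simp [wt]

theorem gad1_wt_restr_le (W : Mat) (S : List ℕ) (P : List Arc) : wt W (restr S P) ≤ wt W P := by
  unfold wt restr
  induction P with
  | nil => simp
  | cons a P ih =>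
    rw [List.filter_cons]
    split_ifs
    · simp only [List.map_cons, List.sum_cons]
      omega
    · simp only [List.map_cons, List.sum_cons]
      omega

theorem ham_le_assign (n : ℕ) (W : Mat) (hW : ∀ i, ent W i i = 0) (l : List ℕ)
    (hl : l.Perm (List.range n)) : ham W l ≤ wt W (permArcs n (assign n W)) := by
  obtain ⟨hlen, -, hval, -⟩ := assign_spec n W
  have hnd : l.Nodup := hl.nodup_iff.2 List.nodup_range
  have hmem : ∀ x, x ∈ l → x ∈ List.range n := fun x hx => hl.mem_iff.1 hx
  rw [gad1_ham_eq]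
  refine (assign_opt_closed n W hW (List.range n) List.nodup_range
    (fun u hu => List.mem_range.1 hu) ?_ (l.zip l.tail) ?_ ?_ ?_).trans (gad1_wt_restr_le W _ _)
  · intro u hu
    rw [List.mem_range] at hu ⊢
    rw [List.getD_eq_getElem _ _ (by rw [hlen]; exact hu)]
    exact hval _ (List.getElem_mem _)
  · exact (gad1_zip_fst l l.tail).nodup hnd
  · exact (gad1_zip_snd l l.tail).nodup (hnd.sublist (List.tail_sublist l))
  · intro a ha
    have h1 := List.of_mem_zip (a := a.1) (b := a.2) ha
    exact ⟨hmem _ h1.1, hmem _ (List.mem_of_mem_tail h1.2)⟩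

end Vale.Agent.Lib.P333.Alg
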