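import Mathlib
import Vale.Agent.Lib.P333.CovDefs
import Vale.Agent.Lib.P333.Auction
import Vale.Agent.Lib.P333.Gad1

/-! P333, module GAD2 -/

namespace Vale.Agent.Lib.P333.Alg

open Finset

namespace Gad2

theorem ent_mkMat (n : ℕ) (f : ℕ → ℕ → ℕ) {i j : ℕ} (hi : i < n) (hj : j < n) :
    ent (mkMat n f) i j = f i j := by
  have h1 : (mkMat n f).getD i [] = (List.range n).map (fun j => f i j) := by
    unfold mkMat
    rw [List.getD_eq_getElem _ _ (by simpa using hi)]
    simp
  unfold ent
  rw [h1, List.getD_eq_getElem _ _ (by simpa using hj)]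
  simp

theorem mem_twoCycles (n : ℕ) (C : List ℕ) (p : Arc) : p ∈ twoCycles n C ↔
    p.1 < n ∧ C.getD p.1 0 = p.2 ∧ p.1 < p.2 ∧ C.getD p.2 0 = p.1 := by
  unfold twoCycles
  rw [List.mem_filter, List.mem_map]
  constructor
  · rintro ⟨⟨i, hi, rfl⟩, h2⟩
    rw [Bool.and_eq_true, decide_eq_true_eq, beq_iff_eq] at h2
    exact ⟨List.mem_range.1 hi, rfl, h2.1, h2.2⟩
  · rintro ⟨h1, h2, h3, h4⟩
    refine ⟨⟨p.1, List.mem_range.2 h1, by rw [h2]⟩, ?_⟩
    rw [Bool.and_eq_true, decide_eq_true_eq, beq_iff_eq]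
    exact ⟨h3, h4⟩

theorem nodup_twoCycles (n : ℕ) (C : List ℕ) : (twoCycles n C).Nodup := by
  unfold twoCycles
  refine List.Nodup.filter _ (List.Nodup.map ?_ List.nodup_range)
  intro i j h
  exact congrArg Prod.fst h

/-- first vertex of the pair number `k` -/
def pu (M : List Arc) (k : ℕ) : ℕ := (M.getD k (0, 0)).1

/-- second vertex of the pair number `k` -/
def pv (M : List Arc) (k : ℕ) : ℕ := (M.getD k (0, 0)).2

theorem getD_mem {M : List Arc} {k : ℕ} (hk : k < M.length) : M.getD k (0, 0) ∈ M := by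
  rw [List.getD_eq_getElem _ _ hk]
  exact List.getElem_mem _

theorem pair_mem {M : List Arc} {k : ℕ} (hk : k < M.length) : (pu M k, pv M k) ∈ M :=
  getD_mem hk

theorem exists_index {M : List Arc} {u v : ℕ} (h : (u, v) ∈ M) :
    ∃ k, k < M.length ∧ pu M k = u ∧ pv M k = v := by
  obtain ⟨k, hk, he⟩ := List.getElem_of_mem h
  refine ⟨k, hk, ?_, ?_⟩
  · unfold pu
    rw [List.getD_eq_getElem _ _ hk, he]
  · unfold pv
    rw [List.getD_eq_getElem _ _ hk, he]

/-- properties of the pairs -/
structure PairsOK (n : ℕ) (C : List ℕ) (M : List Arc) : Prop where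
  ult : ∀ k < M.length, pu M k < n
  vlt : ∀ k < M.length, pv M k < n
  uv : ∀ k < M.length, pu M k < pv M k
  cu : ∀ k < M.length, C.getD (pu M k) 0 = pv M k
  cv : ∀ k < M.length, C.getD (pv M k) 0 = pu M k
  inj : ∀ k < M.length, ∀ l < M.length, pu M k = pu M l → k = l
  all : ∀ a b : ℕ, a < n → b < n → a ≠ b → C.getD a 0 = b → C.getD b 0 = a →
    (a, b) ∈ M ∨ (b, a) ∈ M

theorem pairsOK (n : ℕ) (C : List ℕ) (hC : ∀ i < n, C.getD i 0 < n) :
    PairsOK n C (twoCycles n C) := by
  have key : ∀ k < (twoCycles n C).length, pu (twoCycles n C) k < n ∧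
      C.getD (pu (twoCycles n C) k) 0 = pv (twoCycles n C) k ∧
      pu (twoCycles n C) k < pv (twoCycles n C) k ∧
      C.getD (pv (twoCycles n C) k) 0 = pu (twoCycles n C) k := fun k hk =>
    (mem_twoCycles n C _).1 (pair_mem hk)
  refine ⟨fun k hk => (key k hk).1, fun k hk => ?_, fun k hk => (key k hk).2.2.1,
    fun k hk => (key k hk).2.1, fun k hk => (key k hk).2.2.2, fun k hk l hl h => ?_, ?_⟩
  · rw [← (key k hk).2.1]
    exact hC _ (key k hk).1
  · have h1 : (twoCycles n C)[k] = (twoCycles n C)[l] := by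
      have e1 : pv (twoCycles n C) k = pv (twoCycles n C) l := by
        rw [← (key k hk).2.1, ← (key l hl).2.1, h]
      have e2 : (pu (twoCycles n C) k, pv (twoCycles n C) k) =
          (pu (twoCycles n C) l, pv (twoCycles n C) l) := by rw [h, e1]
      unfold pu pv at e2
      rw [List.getD_eq_getElem _ _ hk, List.getD_eq_getElem _ _ hl] at e2
      exact e2
    exact (List.Nodup.getElem_inj_iff (nodup_twoCycles n C)).1 h1
  · intro a b ha hb hab h1 h2
    rcases lt_or_gt_of_ne hab with h | h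
    · exact Or.inl ((mem_twoCycles n C _).2 ⟨ha, h1, h, h2⟩)
    · exact Or.inr ((mem_twoCycles n C _).2 ⟨hb, h2, h, h1⟩)

namespace PairsOK

variable {n : ℕ} {C : List ℕ} {M : List Arc}

theorem injv (h : PairsOK n C M) {k l : ℕ} (hk : k < M.length) (hl : l < M.length)
    (he : pv M k = pv M l) : k = l := by
  refine h.inj k hk l hl ?_
  rw [← h.cv k hk, ← h.cv l hl, he]

theorem disj (h : PairsOK n C M) {k l : ℕ} (hk : k < M.length) (hl : l < M.length) :
    pu M k ≠ pv M l := by
  intro he
  have h1 : pv M k = pu M l := by rw [← h.cu k hk, ← h.cv l hl, he]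
  have h2 := h.uv k hk
  have h3 := h.uv l hl
  omega

/-- pairs sharing a vertex are equal -/
theorem same (h : PairsOK n C M) {k l x : ℕ} (hk : k < M.length) (hl : l < M.length)
    (h1 : x = pu M k ∨ x = pv M k) (h2 : x = pu M l ∨ x = pv M l) : k = l := by
  rcases h1 with h1 | h1 <;> rcases h2 with h2 | h2
  · exact h.inj k hk l hl (h1.symm.trans h2)
  · exact absurd (h1.symm.trans h2) (h.disj hk hl)
  · exact absurd (h2.symm.trans h1) (h.disj hl hk)
  · exact h.injv hk hl (h1.symm.trans h2)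

end PairsOK

/-- the allowed entries of the gadget matrix -/
def Allowed (n : ℕ) (M : List Arc) (i j : ℕ) : Prop :=
  (i < n ∧ j < n ∧ (i, j) ∉ M ∧ (j, i) ∉ M) ∨
  (i < n ∧ ∃ k < M.length, j = n + k ∧ (i = pu M k ∨ i = pv M k)) ∨
  (j < n ∧ ∃ k < M.length, i = n + k ∧ (j = pu M k ∨ j = pv M k)) ∨
  (∃ k < M.length, i = n + k ∧ j = n + k)

theorem gad_vv (n : ℕ) (W : Mat) (M : List Arc) (K : ℕ) {i j : ℕ} (hi : i < n) (hj : j < n) :
    ent (gadget n W M K) i j = if (i, j) ∈ M ∨ (j, i) ∈ M then 0 else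
      if i = j then K else K + 2 * ent W i j := by
  unfold gadget
  rw [ent_mkMat _ _ (by omega) (by omega), if_pos hi, if_pos hj]
  have : (M.contains (i, j) || M.contains (j, i)) = true ↔ ((i, j) ∈ M ∨ (j, i) ∈ M) := by
    rw [Bool.or_eq_true, List.contains_iff_mem, List.contains_iff_mem]
  exact if_congr this rfl rfl

theorem gad_vr (n : ℕ) (W : Mat) (M : List Arc) (K : ℕ) {i k : ℕ} (hi : i < n)
    (hk : k < M.length) :
    ent (gadget n W M K) i (n + k) = if i = pu M k then K + ent W (pu M k) (pv M k) else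
      if i = pv M k then K + ent W (pv M k) (pu M k) else 0 := by
  unfold gadget
  rw [ent_mkMat _ _ (by omega) (by omega), if_pos hi, if_neg (by omega), Nat.add_sub_cancel_left]
  rfl

theorem gad_lv (n : ℕ) (W : Mat) (M : List Arc) (K : ℕ) {j k : ℕ} (hj : j < n)
    (hk : k < M.length) :
    ent (gadget n W M K) (n + k) j = if j = pu M k then K + ent W (pv M k) (pu M k) else
      if j = pv M k then K + ent W (pu M k) (pv M k) else 0 := by
  unfold gadget
  rw [ent_mkMat _ _ (by omega) (by omega), if_neg (by omega), Nat.add_sub_cancel_left]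
  dsimp only
  rw [if_pos hj]
  rfl

theorem gad_lr (n : ℕ) (W : Mat) (M : List Arc) (K : ℕ) {l k : ℕ} (hl : l < M.length)
    (hk : k < M.length) :
    ent (gadget n W M K) (n + k) (n + l) = if k = l then K else 0 := by
  unfold gadget
  rw [ent_mkMat _ _ (by omega) (by omega), if_neg (by omega)]
  dsimp only
  rw [if_neg (by omega)]
  exact if_congr (by omega) rfl rfl

theorem gad_zero {n : ℕ} (W : Mat) {M : List Arc} (K : ℕ) {i j : ℕ} (hi : i < n + M.length)
    (hj : j < n + M.length) (h : ¬ Allowed n M i j) : ent (gadget n W M K) i j = 0 := by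
  by_cases hi' : i < n
  · by_cases hj' : j < n
    · rw [gad_vv n W M K hi' hj']
      rw [if_pos]
      by_contra hcon
      rw [not_or] at hcon
      exact h (Or.inl ⟨hi', hj', hcon.1, hcon.2⟩)
    · obtain ⟨k, rfl⟩ := Nat.exists_eq_add_of_le (not_lt.1 hj')
      have hk : k < M.length := by omega
      rw [gad_vr n W M K hi' hk, if_neg, if_neg]
      · intro h1
        exact h (Or.inr (Or.inl ⟨hi', k, hk, rfl, Or.inr h1⟩))
      · intro h1
        exact h (Or.inr (Or.inl ⟨hi', k, hk, rfl, Or.inl h1⟩))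
  · obtain ⟨k, rfl⟩ := Nat.exists_eq_add_of_le (not_lt.1 hi')
    have hk : k < M.length := by omega
    by_cases hj' : j < n
    · rw [gad_lv n W M K hj' hk, if_neg, if_neg]
      · intro h1
        exact h (Or.inr (Or.inr (Or.inl ⟨hj', k, hk, rfl, Or.inr h1⟩)))
      · intro h1
        exact h (Or.inr (Or.inr (Or.inl ⟨hj', k, hk, rfl, Or.inl h1⟩)))
    · obtain ⟨l, rfl⟩ := Nat.exists_eq_add_of_le (not_lt.1 hj')
      have hl : l < M.length := by omega
      rw [gad_lr n W M K hl hk, if_neg]
      rintro rfl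
      exact h (Or.inr (Or.inr (Or.inr ⟨k, hk, rfl, rfl⟩)))

/-- the sum of a row -/
def rowSum (n : ℕ) (W : Mat) (i : ℕ) : ℕ := ∑ b ∈ range n, ent W i b

/-- the weight of the pair arc leaving `i` -/
def pw (W : Mat) (C : List ℕ) (i : ℕ) : ℕ :=
  if C.getD i 0 ≠ i ∧ C.getD (C.getD i 0) 0 = i then ent W i (C.getD i 0) else 0

theorem ent_le_row {n : ℕ} (W : Mat) {i j : ℕ} (hj : j < n) : ent W i j ≤ rowSum n W i :=
  single_le_sum (f := fun b => ent W i b) (fun _ _ => Nat.zero_le _) (mem_range.2 hj)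

theorem two_le_row {n : ℕ} (W : Mat) {i j l : ℕ} (hj : j < n) (hl : l < n) (hjl : j ≠ l) :
    ent W i j + ent W i l ≤ rowSum n W i := by
  have h1 : ({j, l} : Finset ℕ) ⊆ range n := by
    intro x hx
    rw [Finset.mem_insert, Finset.mem_singleton] at hx
    rw [mem_range]
    rcases hx with rfl | rfl
    · exact hj
    · exact hl
  have h2 := sum_le_sum_of_subset (f := fun b => ent W i b) h1
  rw [sum_pair hjl] at h2
  exact h2

theorem pw_le {n : ℕ} (W : Mat) {C : List ℕ} (hC : ∀ i < n, C.getD i 0 < n) {i : ℕ}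
    (hi : i < n) : pw W C i ≤ rowSum n W i := by
  unfold pw
  split_ifs
  · exact ent_le_row W (hC i hi)
  · exact Nat.zero_le _

theorem row_bound {n : ℕ} (W : Mat) {C : List ℕ} (hC : ∀ i < n, C.getD i 0 < n) {M : List Arc}
    (hM : PairsOK n C M) (K : ℕ) {i j : ℕ} (hi : i < n) (hj : j < n + M.length) :
    ent (gadget n W M K) i j + pw W C i ≤ K + 2 * rowSum n W i := by
  have h0 := pw_le W hC hi
  by_cases hj' : j < n
  · rw [gad_vv n W M K hi hj']
    split_ifs with h1 h2
    · omega
    · omega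
    · have h3 := ent_le_row W (i := i) hj'
      have h4 : ent W i j + pw W C i ≤ rowSum n W i := by
        unfold pw
        split_ifs with h5
        · refine two_le_row W hj' (hC i hi) ?_
          intro h6
          rw [← h6] at h5
          exact h1 (hM.all i j hi hj' h2 h6.symm h5.2)
        · omega
      omega
  · obtain ⟨k, rfl⟩ := Nat.exists_eq_add_of_le (not_lt.1 hj')
    have hk : k < M.length := by omega
    rw [gad_vr n W M K hi hk]
    have h3 := ent_le_row W (i := i) (hC i hi)
    split_ifs with h1 h2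
    · rw [← hM.cu k hk, ← h1]
      omega
    · rw [← hM.cv k hk, ← h2]
      omega
    · omega

theorem row_bound' {n : ℕ} (W : Mat) {M : List Arc} (K : ℕ) {k j : ℕ} (hk : k < M.length)
    (hj : j < n + M.length) :
    ent (gadget n W M K) (n + k) j ≤
      K + (ent W (pu M k) (pv M k) + ent W (pv M k) (pu M k)) := by
  by_cases hj' : j < n
  · rw [gad_lv n W M K hj' hk]
    split_ifs <;> omega
  · obtain ⟨l, rfl⟩ := Nat.exists_eq_add_of_le (not_lt.1 hj')
    have hl : l < M.length := by omega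
    rw [gad_lr n W M K hl hk]
    split_ifs <;> omega

theorem sum_pw {n : ℕ} (W : Mat) {C : List ℕ} {M : List Arc} (hM : PairsOK n C M) :
    ∑ k ∈ range M.length, (ent W (pu M k) (pv M k) + ent W (pv M k) (pu M k)) ≤
      ∑ i ∈ range n, pw W C i := by
  classical
  have h1 : ∀ k ∈ range M.length, ent W (pu M k) (pv M k) + ent W (pv M k) (pu M k) =
      pw W C (pu M k) + pw W C (pv M k) := by
    intro k hk
    rw [mem_range] at hk
    have h2 := hM.uv k hk
    unfold pw
    rw [hM.cu k hk, hM.cv k hk, hM.cu k hk, if_pos ⟨by omega, rfl⟩, if_pos ⟨by omega, rfl⟩]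
  rw [sum_congr rfl h1, sum_add_distrib]
  have h2 : ∑ k ∈ range M.length, pw W C (pu M k) =
      ∑ i ∈ (range M.length).image (pu M), pw W C i := by
    rw [sum_image]
    intro k hk l hl h
    exact hM.inj k (by simpa using hk) l (by simpa using hl) h
  have h3 : ∑ k ∈ range M.length, pw W C (pv M k) =
      ∑ i ∈ (range M.length).image (pv M), pw W C i := by
    rw [sum_image]
    intro k hk l hl h
    exact hM.injv (by simpa using hk) (by simpa using hl) h
  have h4 : Disjoint ((range M.length).image (pu M)) ((range M.length).image (pv M)) := by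
    rw [Finset.disjoint_left]
    intro x hx hx'
    rw [mem_image] at hx hx'
    obtain ⟨k, hk, rfl⟩ := hx
    obtain ⟨l, hl, h5⟩ := hx'
    exact hM.disj (mem_range.1 hk) (mem_range.1 hl) h5.symm
  rw [h2, h3, ← sum_union h4]
  refine sum_le_sum_of_subset ?_
  intro x hx
  rw [mem_union, mem_image, mem_image] at hx
  rw [mem_range]
  rcases hx with ⟨k, hk, rfl⟩ | ⟨k, hk, rfl⟩
  · exact hM.ult k (mem_range.1 hk)
  · exact hM.vlt k (mem_range.1 hk)

theorem sum_getD_le {α : Type} (f : α → ℕ) (d : α) (hd : f d = 0) (l : List α) (n : ℕ) :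
    ∑ i ∈ range n, f (l.getD i d) ≤ (l.map f).sum := by
  induction l generalizing n with
  | nil => simp [hd]
  | cons a l ih =>
    cases n with
    | zero => simp
    | succ n =>
      rw [sum_range_succ']
      have h1 := ih n
      simp only [List.getD_cons_succ, List.getD_cons_zero, List.map_cons, List.sum_cons]
      omega

theorem sum_row_le (n : ℕ) (W : Mat) : ∑ i ∈ range n, rowSum n W i ≤ total W := by
  have h1 : ∀ i ∈ range n, rowSum n W i ≤ (W.getD i []).sum := by
    intro i _
    have := sum_getD_le (fun x : ℕ => x) 0 rfl (W.getD i []) n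
    rw [List.map_id'] at this
    exact this
  exact (sum_le_sum h1).trans (sum_getD_le List.sum [] rfl W n)

/-- the optimal assignment of the gadget matrix uses allowed entries only -/
theorem rel_allowed (n : ℕ) (W : Mat) (C : List ℕ) (hC : ∀ i < n, C.getD i 0 < n) :
    ∀ i < n + (twoCycles n C).length,
      Allowed n (twoCycles n C) i ((relAssign n W (twoCycles n C)).getD i 0) := by
  classical
  have hM := pairsOK n C hC
  intro i0 hi0
  by_contra hcon
  obtain ⟨M, hMdef⟩ : ∃ M, M = twoCycles n C := ⟨_, rfl⟩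
  rw [← hMdef] at hM hi0 hcon
  obtain ⟨K, hK⟩ : ∃ K, K = 2 * total W + 1 := ⟨_, rfl⟩
  obtain ⟨Z, hZ⟩ : ∃ Z, Z = relAssign n W M := ⟨_, rfl⟩
  rw [← hZ] at hcon
  obtain ⟨hlen, hnd, hlt, hopt⟩ := assign_spec (n + M.length) (gadget n W M K)
  have hZ' : assign (n + M.length) (gadget n W M K) = Z := by
    rw [hZ, hK]
    rfl
  rw [hZ'] at hlen hnd hlt hopt
  have hZlt : ∀ i < n + M.length, Z.getD i 0 < n + M.length := by
    intro i hi
    rw [List.getD_eq_getElem _ _ (by omega)]
    exact hlt _ (List.getElem_mem _)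
  -- the identity
  have hid : (n + M.length) * K ≤ ∑ i ∈ range (n + M.length),
      ent (gadget n W M K) i (Z.getD i 0) := by
    refine le_trans (le_of_eq ?_) (hopt (List.range (n + M.length)) List.length_range
      List.nodup_range (fun j hj => List.mem_range.1 hj))
    have h1 : ∀ i ∈ range (n + M.length), ent (gadget n W M K) i
        ((List.range (n + M.length)).getD i 0) = K := by
      intro i hi
      rw [mem_range] at hi
      have h2 : (List.range (n + M.length)).getD i 0 = i := by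
        rw [List.getD_eq_getElem _ _ (by simpa using hi)]
        simp
      rw [h2]
      by_cases hi' : i < n
      · rw [gad_vv n W M K hi' hi', if_neg, if_pos rfl]
        intro h3
        have h4 : (i, i) ∈ M := h3.elim id id
        obtain ⟨k, hk, h5, h6⟩ := exists_index h4
        have := hM.uv k hk
        omega
      · obtain ⟨k, rfl⟩ := Nat.exists_eq_add_of_le (not_lt.1 hi')
        have hk : k < M.length := by omega
        rw [gad_lr n W M K hk hk, if_pos rfl]
    rw [sum_congr rfl h1, sum_const, card_range, smul_eq_mul]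
  -- the upper bound
  have hup1 : ∑ i ∈ range n, (ent (gadget n W M K) i (Z.getD i 0) + pw W C i +
      if i = i0 then K else 0) ≤ ∑ i ∈ range n, (K + 2 * rowSum n W i) := by
    refine sum_le_sum fun i hi => ?_
    rw [mem_range] at hi
    split_ifs with h1
    · subst h1
      rw [gad_zero W K hi0 (hZlt i hi0) hcon]
      have := pw_le W hC hi
      omega
    · exact row_bound W hC hM K hi (hZlt i (by omega))
  have hup2 : ∑ k ∈ range M.length, (ent (gadget n W M K) (n + k) (Z.getD (n + k) 0) +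
      if n + k = i0 then K else 0) ≤ ∑ k ∈ range M.length,
        (K + (ent W (pu M k) (pv M k) + ent W (pv M k) (pu M k))) := by
    refine sum_le_sum fun k hk => ?_
    rw [mem_range] at hk
    split_ifs with h1
    · subst h1
      rw [gad_zero W K hi0 (hZlt _ hi0) hcon]
      omega
    · exact row_bound' W K hk (hZlt _ (by omega))
  have hone : ∑ i ∈ range n, (if i = i0 then K else 0) +
      ∑ k ∈ range M.length, (if n + k = i0 then K else 0) = K := by
    rw [← sum_range_add (fun i => if i = i0 then K else 0) n M.length, sum_ite_eq',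
      if_pos (mem_range.2 hi0)]
  rw [sum_range_add] at hid
  have h1 := sum_pw W hM
  have h2 := sum_row_le n W
  rw [sum_add_distrib, sum_add_distrib, sum_add_distrib, sum_const, card_range, smul_eq_mul,
    ← mul_sum] at hup1
  rw [sum_add_distrib, sum_add_distrib, sum_const, card_range, smul_eq_mul] at hup2
  rw [add_mul] at hid
  omega

/-- the data of the relaxed solution -/
structure RelOK (n : ℕ) (M : List Arc) (Z : List ℕ) : Prop where
  len : Z.length = n + M.length
  nd : Z.Nodup
  lt : ∀ j ∈ Z, j < n + M.length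
  allowed : ∀ i < n + M.length, Allowed n M i (Z.getD i 0)

namespace RelOK

variable {n : ℕ} {M : List Arc} {Z : List ℕ}

theorem mem (h : RelOK n M Z) {j : ℕ} (hj : j < n + M.length) : j ∈ Z := by
  have h1 : Z ⊆ List.range (n + M.length) := fun x hx => List.mem_range.2 (h.lt x hx)
  have h2 : Z.Subperm (List.range (n + M.length)) := List.subperm_of_subset h.nd h1
  have h3 : Z.Perm (List.range (n + M.length)) :=
    h2.perm_of_length_le (by rw [List.length_range, h.len])
  exact h3.mem_iff.2 (List.mem_range.2 hj)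

theorem idx_lt (h : RelOK n M Z) {j : ℕ} (hj : j < n + M.length) : Z.idxOf j < n + M.length := by
  rw [← h.len]
  exact List.idxOf_lt_length_of_mem (h.mem hj)

theorem get_idx (h : RelOK n M Z) {j : ℕ} (hj : j < n + M.length) :
    Z.getD (Z.idxOf j) 0 = j := by
  have h1 := List.idxOf_lt_length_of_mem (h.mem hj)
  rw [List.getD_eq_getElem _ _ h1]
  exact List.getElem_idxOf h1

theorem inj (h : RelOK n M Z) {i j : ℕ} (hi : i < n + M.length) (hj : j < n + M.length)
    (he : Z.getD i 0 = Z.getD j 0) : i = j := by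
  rw [← h.len] at hi hj
  rw [List.getD_eq_getElem _ _ hi, List.getD_eq_getElem _ _ hj] at he
  exact h.nd.getElem_inj_iff.1 he

/-- arcs of the first kind avoid the pairs -/
theorem notin (h : RelOK n M Z) {i : ℕ} (hi : i < n) (hz : Z.getD i 0 < n) :
    (i, Z.getD i 0) ∉ M ∧ (Z.getD i 0, i) ∉ M := by
  rcases h.allowed i (by omega) with h1 | ⟨_, k, hk, h1, _⟩ | ⟨_, k, hk, h1, _⟩ | ⟨k, hk, h1, _⟩
  · exact h1.2.2
  · omega
  · omega
  · omega

/-- tails of the arcs of the second kind -/
theorem tail (h : RelOK n M Z) {k : ℕ} (hk : k < M.length) (hz : Z.idxOf (n + k) < n) :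
    Z.idxOf (n + k) = pu M k ∨ Z.idxOf (n + k) = pv M k := by
  have h0 := h.get_idx (j := n + k) (by omega)
  rcases h.allowed (Z.idxOf (n + k)) (by omega) with
    h1 | ⟨_, l, hl, h1, h2⟩ | ⟨_, l, hl, h1, _⟩ | ⟨l, hl, h1, _⟩
  · rw [h0] at h1
    omega
  · rw [h0] at h1
    have : k = l := by omega
    rw [this] at h2 ⊢
    exact h2
  · omega
  · omega

/-- heads of the arcs of the second kind -/
theorem head (h : RelOK n M Z) {k : ℕ} (hk : k < M.length) (hz : Z.getD (n + k) 0 < n) :
    Z.getD (n + k) 0 = pu M k ∨ Z.getD (n + k) 0 = pv M k := by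
  rcases h.allowed (n + k) (by omega) with
    h1 | ⟨_, l, hl, h1, h2⟩ | ⟨_, l, hl, h1, h2⟩ | ⟨l, hl, h1, h2⟩
  · omega
  · omega
  · have : k = l := by omega
    rw [this] at h2 ⊢
    exact h2
  · omega

end RelOK

theorem mem_relArcs {n : ℕ} {M : List Arc} {Z : List ℕ} {a : Arc} : a ∈ relArcs n M Z ↔
    (a.1 < n ∧ Z.getD a.1 0 = a.2 ∧ a.2 < n ∧ a.1 ≠ a.2) ∨
    ∃ k < M.length, Z.idxOf (n + k) = a.1 ∧ Z.getD (n + k) 0 = a.2 ∧ a.1 < n ∧ a.2 < n ∧
      a.1 ≠ a.2 := by
  unfold relArcs
  rw [List.mem_append]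
  refine or_congr ?_ ?_
  · rw [List.mem_filter, List.mem_map]
    constructor
    · rintro ⟨⟨i, hi, rfl⟩, h2⟩
      simp only [Bool.and_eq_true, decide_eq_true_eq, Bool.not_eq_true', beq_eq_false_iff_ne]
        at h2
      exact ⟨List.mem_range.1 hi, rfl, h2.1, h2.2⟩
    · rintro ⟨h1, h2, h3, h4⟩
      refine ⟨⟨a.1, List.mem_range.2 h1, by rw [h2]⟩, ?_⟩
      simp only [Bool.and_eq_true, decide_eq_true_eq, Bool.not_eq_true', beq_eq_false_iff_ne]
      exact ⟨h3, h4⟩
  · rw [List.mem_map]
    constructor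
    · rintro ⟨k, hk, rfl⟩
      rw [List.mem_filter, List.mem_range] at hk
      obtain ⟨h1, h2⟩ := hk
      simp only [Bool.and_eq_true, decide_eq_true_eq, Bool.not_eq_true', beq_eq_false_iff_ne]
        at h2
      exact ⟨k, h1, rfl, rfl, h2.1.1, h2.1.2, h2.2⟩
    · rintro ⟨k, hk, h1, h2, h3, h4, h5⟩
      refine ⟨k, ?_, by rw [h1, h2]⟩
      rw [List.mem_filter, List.mem_range]
      refine ⟨hk, ?_⟩
      simp only [Bool.and_eq_true, decide_eq_true_eq, Bool.not_eq_true', beq_eq_false_iff_ne]
      rw [h1, h2]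
      exact ⟨⟨h3, h4⟩, h5⟩

/-- the special pair number `k` -/
def sp (n : ℕ) (M : List Arc) (Z : List ℕ) (k : ℕ) : Arc :=
  if Z.idxOf (n + k) = pu M k then (pu M k, pv M k) else (pv M k, pu M k)

theorem relSpec_eq (n : ℕ) (M : List Arc) (Z : List ℕ) : relSpec n M Z =
    ((List.range M.length).filter (fun k => decide (Z.idxOf (n + k) < n) &&
    (Z.idxOf (n + k) == Z.getD (n + k) 0))).map (sp n M Z) := rfl

theorem mem_relSpec {n : ℕ} {M : List Arc} {Z : List ℕ} (h : RelOK n M Z) {p : Arc}
    (hp : p ∈ relSpec n M Z) : ∃ k < M.length, Z.idxOf (n + k) = p.1 ∧ Z.getD (n + k) 0 = p.1 ∧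
      p.1 < n ∧ ((p.1 = pu M k ∧ p.2 = pv M k) ∨ (p.1 = pv M k ∧ p.2 = pu M k)) ∧
      p = sp n M Z k := by
  rw [relSpec_eq, List.mem_map] at hp
  obtain ⟨k, hk, rfl⟩ := hp
  rw [List.mem_filter, List.mem_range] at hk
  obtain ⟨hk, h2⟩ := hk
  simp only [Bool.and_eq_true, decide_eq_true_eq, beq_iff_eq] at h2
  have h3 := h.tail hk h2.1
  by_cases h4 : Z.idxOf (n + k) = pu M k
  · have h5 : sp n M Z k = (pu M k, pv M k) := by
      unfold sp
      rw [if_pos h4]
    rw [h5]
    refine ⟨k, hk, h4, h2.2.symm.trans h4, ?_, Or.inl ⟨rfl, rfl⟩, h5.symm⟩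
    change pu M k < n
    rw [← h4]
    exact h2.1
  · have h4' : Z.idxOf (n + k) = pv M k := h3.resolve_left h4
    have h5 : sp n M Z k = (pv M k, pu M k) := by
      unfold sp
      rw [if_neg h4]
    rw [h5]
    refine ⟨k, hk, h4', h2.2.symm.trans h4', ?_, Or.inr ⟨rfl, rfl⟩, h5.symm⟩
    change pv M k < n
    rw [← h4']
    exact h2.1

theorem nodup_relArcs_fst {n : ℕ} {M : List Arc} {Z : List ℕ} (h : RelOK n M Z) :
    ((relArcs n M Z).map (fun a => a.1)).Nodup := by
  unfold relArcs
  rw [List.map_append, List.nodup_append]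
  refine ⟨?_, ?_, ?_⟩
  · have h1 : (((List.range n).map (fun i => ((i, Z.getD i 0) : Arc))).map
        (fun a => a.1)).Nodup := by
      rw [List.map_map]
      exact List.Nodup.map (fun i j h => h) List.nodup_range
    exact h1.sublist (List.filter_sublist.map _)
  · rw [List.map_map]
    refine List.Nodup.map_on ?_ (List.nodup_range.filter _)
    intro k hk l hl he
    rw [List.mem_filter, List.mem_range] at hk hl
    have he' : Z.idxOf (n + k) = Z.idxOf (n + l) := he
    have h1 := h.get_idx (j := n + k) (by omega)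
    have h2 := h.get_idx (j := n + l) (by omega)
    rw [he', h2] at h1
    omega
  · intro x hx y hy hxy
    subst hxy
    rw [List.mem_map] at hx hy
    obtain ⟨a, ha, rfl⟩ := hx
    obtain ⟨b, hb, hab⟩ := hy
    rw [List.mem_filter, List.mem_map] at ha
    obtain ⟨⟨i, hi, rfl⟩, ha2⟩ := ha
    rw [List.mem_map] at hb
    obtain ⟨k, hk, rfl⟩ := hb
    rw [List.mem_filter, List.mem_range] at hk
    simp only [Bool.and_eq_true, decide_eq_true_eq, Bool.not_eq_true', beq_eq_false_iff_ne]
      at ha2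
    have h1 := h.get_idx (j := n + k) (by omega)
    have h2 : Z.idxOf (n + k) = i := hab
    rw [h2] at h1
    have h3 := ha2.1
    omega

theorem nodup_relArcs_snd {n : ℕ} {M : List Arc} {Z : List ℕ} (h : RelOK n M Z) :
    ((relArcs n M Z).map (fun a => a.2)).Nodup := by
  unfold relArcs
  rw [List.map_append, List.nodup_append]
  refine ⟨?_, ?_, ?_⟩
  · have h1 : (((List.range n).map (fun i => ((i, Z.getD i 0) : Arc))).map
        (fun a => a.2)).Nodup := by
      rw [List.map_map]
      refine List.Nodup.map_on ?_ List.nodup_range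
      intro i hi j hj he
      rw [List.mem_range] at hi hj
      exact h.inj (by omega) (by omega) he
    exact h1.sublist (List.filter_sublist.map _)
  · rw [List.map_map]
    refine List.Nodup.map_on ?_ (List.nodup_range.filter _)
    intro k hk l hl he
    rw [List.mem_filter, List.mem_range] at hk hl
    have h1 := h.inj (i := n + k) (j := n + l) (by omega) (by omega) he
    omega
  · intro x hx y hy hxy
    subst hxy
    rw [List.mem_map] at hx hy
    obtain ⟨a, ha, rfl⟩ := hx
    obtain ⟨b, hb, hab⟩ := hy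
    rw [List.mem_filter, List.mem_map] at ha
    obtain ⟨⟨i, hi, rfl⟩, ha2⟩ := ha
    rw [List.mem_map] at hb
    obtain ⟨k, hk, rfl⟩ := hb
    rw [List.mem_filter, List.mem_range] at hk
    rw [List.mem_range] at hi
    have h1 := h.inj (i := n + k) (j := i) (by omega) (by omega) hab
    omega

theorem nodup_relSpec {n : ℕ} {C : List ℕ} {M : List Arc} (hM : PairsOK n C M) {Z : List ℕ}
    (h : RelOK n M Z) :
    ((relSpec n M Z).map (fun p => p.1) ++ (relSpec n M Z).map (fun p => p.2)).Nodup := by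
  have hsp1 : ∀ k, (sp n M Z k).1 = pu M k ∨ (sp n M Z k).1 = pv M k := by
    intro k
    unfold sp
    split_ifs
    · exact Or.inl rfl
    · exact Or.inr rfl
  have hsp2 : ∀ k, (sp n M Z k).2 = pu M k ∨ (sp n M Z k).2 = pv M k := by
    intro k
    unfold sp
    split_ifs
    · exact Or.inr rfl
    · exact Or.inl rfl
  rw [List.nodup_append]
  refine ⟨?_, ?_, ?_⟩
  · rw [relSpec_eq, List.map_map]
    refine List.Nodup.map_on ?_ (List.nodup_range.filter _)
    intro k hk l hl he
    rw [List.mem_filter, List.mem_range] at hk hl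
    have he' : (sp n M Z k).1 = (sp n M Z l).1 := he
    have h2 := hsp1 l
    rw [← he'] at h2
    exact hM.same hk.1 hl.1 (hsp1 k) h2
  · rw [relSpec_eq, List.map_map]
    refine List.Nodup.map_on ?_ (List.nodup_range.filter _)
    intro k hk l hl he
    rw [List.mem_filter, List.mem_range] at hk hl
    have he' : (sp n M Z k).2 = (sp n M Z l).2 := he
    have h2 := hsp2 l
    rw [← he'] at h2
    exact hM.same hk.1 hl.1 (hsp2 k) h2
  · intro x hx y hy hxy
    subst hxy
    rw [List.mem_map] at hx hy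
    obtain ⟨p, hp, rfl⟩ := hx
    obtain ⟨p', hp', he⟩ := hy
    obtain ⟨k, hk, -, -, -, hk1, -⟩ := mem_relSpec h hp
    obtain ⟨l, hl, -, -, -, hl1, -⟩ := mem_relSpec h hp'
    have h1 : p.1 = pu M k ∨ p.1 = pv M k := hk1.imp (fun x => x.1) (fun x => x.1)
    have h2 : p.1 = pu M l ∨ p.1 = pv M l := by
      rw [← he]
      exact (hl1.imp (fun x => x.2) (fun x => x.2)).symm
    have h3 := hM.same hk hl h1 h2
    subst h3
    have h4 := hM.uv k hk
    have h5 : Z.idxOf (n + k) = p.1 := by
      obtain ⟨k', hk', e1, -, -, hk2, -⟩ := mem_relSpec h hp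
      have h6 : p.1 = pu M k' ∨ p.1 = pv M k' := hk2.imp (fun x => x.1) (fun x => x.1)
      rw [hM.same hk hk' h1 h6]
      exact e1
    have h6 : Z.idxOf (n + k) = p'.1 := by
      obtain ⟨k', hk', e1, -, -, hk2, -⟩ := mem_relSpec h hp'
      have h7 : p'.1 = pu M k' ∨ p'.1 = pv M k' := hk2.imp (fun x => x.1) (fun x => x.1)
      have h8 : p'.1 = pu M k ∨ p'.1 = pv M k := hl1.imp (fun x => x.1) (fun x => x.1)
      rw [hM.same hk hk' h8 h7]
      exact e1
    have h7 : p'.1 = p'.2 := by rw [he, ← h5, h6]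
    rcases hl1 with h8 | h8 <;> omega

theorem cov_of {n : ℕ} {C : List ℕ} (hlen : C.length = n) (hnd : C.Nodup)
    (hlt : ∀ j ∈ C, j < n) {M : List Arc} (hM : PairsOK n C M) {Z : List ℕ} (h : RelOK n M Z) :
    Cov n C (relArcs n M Z) (relSpec n M Z) where
  clen := hlen
  cnd := hnd
  clt := hlt
  dlt := by
    intro a ha
    rcases mem_relArcs.1 ha with h1 | ⟨k, hk, h1⟩
    · exact ⟨h1.1, h1.2.2.1⟩
    · exact ⟨h1.2.2.1, h1.2.2.2.1⟩
  dloop := by
    intro a ha
    rcases mem_relArcs.1 ha with h1 | ⟨k, hk, h1⟩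
    · exact h1.2.2.2
    · exact h1.2.2.2.2
  dout := nodup_relArcs_fst h
  din := nodup_relArcs_snd h
  slt := by
    intro p hp
    obtain ⟨k, hk, -, -, h1, h2, -⟩ := mem_relSpec h hp
    refine ⟨h1, ?_⟩
    rcases h2 with h2 | h2
    · rw [h2.2]
      exact hM.vlt k hk
    · rw [h2.2]
      exact hM.ult k hk
  snd := nodup_relSpec hM h
  sC := by
    intro p hp
    obtain ⟨k, hk, -, -, h1, h2, -⟩ := mem_relSpec h hp
    rcases h2 with h2 | h2
    · rw [h2.1, h2.2]
      exact ⟨hM.cu k hk, hM.cv k hk⟩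
    · rw [h2.1, h2.2]
      exact ⟨hM.cv k hk, hM.cu k hk⟩
  sD := by
    intro p hp a ha
    obtain ⟨k, hk, e1, e2, h1, h2, -⟩ := mem_relSpec h hp
    have hg := h.get_idx (j := n + k) (by omega)
    rw [e1] at hg
    unfold inc
    rw [Bool.or_eq_false_iff, beq_eq_false_iff_ne, beq_eq_false_iff_ne]
    rcases mem_relArcs.1 ha with h3 | ⟨l, hl, h3⟩
    · constructor
      · intro h4
        have h5 := h3.2.1
        rw [h4, hg] at h5
        have h6 := h3.2.2.1
        omega
      · intro h4
        have h5 := h3.2.1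
        rw [h4, ← e2] at h5
        have h6 := h.inj (i := a.1) (j := n + k) (by have := h3.1; omega) (by omega) h5
        have h7 := h3.1
        omega
    · constructor
      · intro h4
        have h5 := h.get_idx (j := n + l) (by omega)
        rw [h3.1, h4, hg] at h5
        have h6 : k = l := by omega
        subst h6
        have h7 := h3.2.2.2.2
        rw [← h3.1, ← h3.2.1, e1, e2] at h7
        exact h7 rfl
      · intro h4
        have h5 := h3.2.1
        rw [h4, ← e2] at h5
        have h6 := h.inj (i := n + l) (j := n + k) (by omega) (by omega) h5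
        have h7 : k = l := by omega
        subst h7
        have h8 := h3.2.2.2.2
        rw [← h3.1, ← h3.2.1, e1, e2] at h8
        exact h8 rfl
  pair := by
    intro a ha hc1 hc2 ha'
    have hlt1 : a.1 < n ∧ a.2 < n ∧ a.1 ≠ a.2 := by
      rcases mem_relArcs.1 ha with h1 | ⟨k, hk, h1⟩
      · exact ⟨h1.1, h1.2.2.1, h1.2.2.2⟩
      · exact ⟨h1.2.2.1, h1.2.2.2.1, h1.2.2.2.2⟩
    have hin := hM.all a.1 a.2 hlt1.1 hlt1.2.1 hlt1.2.2 hc1 hc2
    rcases mem_relArcs.1 ha with h1 | ⟨k, hk, h1⟩
    · have h2 := h.notin h1.1 (by rw [h1.2.1]; exact h1.2.2.1)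
      rw [h1.2.1] at h2
      rcases hin with h3 | h3
      · exact h2.1 h3
      · exact h2.2 h3
    rcases mem_relArcs.1 ha' with h2 | ⟨l, hl, h2⟩
    · have h3 := h.notin h2.1 (by rw [h2.2.1]; exact h2.2.2.1)
      rw [h2.2.1] at h3
      rcases hin with h4 | h4
      · exact h3.2 h4
      · exact h3.1 h4
    · have h3 := h.tail hk (by rw [h1.1]; exact hlt1.1)
      rw [h1.1] at h3
      have h4 := h.head hl (by rw [h2.2.1]; exact hlt1.1)
      rw [h2.2.1] at h4
      have h5 : k = l := hM.same hk hl h3 h4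
      subst h5
      have h6 : a.1 = a.2 := h1.1.symm.trans h2.1
      exact hlt1.2.2 h6

theorem relOK (n : ℕ) (W : Mat) (C : List ℕ) (hC : ∀ i < n, C.getD i 0 < n) :
    RelOK n (twoCycles n C) (relAssign n W (twoCycles n C)) := by
  obtain ⟨h1, h2, h3, -⟩ := assign_spec (n + (twoCycles n C).length)
    (gadget n W (twoCycles n C) (2 * total W + 1))
  exact ⟨h1, h2, h3, rel_allowed n W C hC⟩

theorem assign_getD_lt (n : ℕ) (W : Mat) : ∀ i < n, (assign n W).getD i 0 < n := by
  obtain ⟨h1, -, h3, -⟩ := assign_spec n W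
  intro i hi
  rw [List.getD_eq_getElem _ _ (by omega)]
  exact h3 _ (List.getElem_mem _)

end Gad2

/-- GAD2: structure of the relaxed cover (the optimum of the gadget matrix uses allowed entries
only) -/
theorem cov_rel (n : ℕ) (W : Mat) (hW : ∀ i, ent W i i = 0)
    (hW' : ∀ i j, ¬ (i < n ∧ j < n) → ent W i j = 0) :
    Cov n (assign n W)
      (relArcs n (twoCycles n (assign n W)) (relAssign n W (twoCycles n (assign n W))))
      (relSpec n (twoCycles n (assign n W)) (relAssign n W (twoCycles n (assign n W)))) := by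
  obtain ⟨h1, h2, h3, -⟩ := assign_spec n W
  have h4 := Gad2.assign_getD_lt n W
  exact Gad2.cov_of h1 h2 h3 (Gad2.pairsOK n _ h4) (Gad2.relOK n W _ h4)

end Vale.Agent.Lib.P333.Alg
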