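import Mathlib
import Vale.Agent.Lib.P333.CovDefs
import Vale.Agent.Lib.P333.Auction
import Vale.Agent.Lib.P333.Gad1
import Vale.Agent.Lib.P333.Gad2

/-! P333, module GAD3 -/

namespace Vale.Agent.Lib.P333.Alg

open Finset

/-- an allowed entry is at least `K` -/
theorem le_ent_of_allowed (n : ℕ) (W : Mat) (M : List Arc) (K : ℕ) {i j : ℕ}
    (h : Gad2.Allowed n M i j) : K ≤ ent (gadget n W M K) i j := by
  rcases h with ⟨h1, h2, h3, h4⟩ | ⟨h1, k, hk, rfl, h2⟩ | ⟨h1, k, hk, rfl, h2⟩ | ⟨k, hk, rfl, rfl⟩
  · rw [Gad2.gad_vv n W M K h1 h2, if_neg (by rintro (h | h) <;> contradiction)]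
    split_ifs <;> omega
  · rw [Gad2.gad_vr n W M K h1 hk]
    rcases h2 with h2 | h2
    · rw [if_pos h2]; omega
    · split_ifs <;> omega
  · rw [Gad2.gad_lv n W M K h1 hk]
    rcases h2 with h2 | h2
    · rw [if_pos h2]; omega
    · split_ifs <;> omega
  · rw [Gad2.gad_lr n W M K hk hk, if_pos rfl]

namespace G3

lemma ent_mkMat (n : ℕ) (f : ℕ → ℕ → ℕ) (i j : ℕ) (hi : i < n) (hj : j < n) :
    ent (mkMat n f) i j = f i j := by
  unfold ent mkMat
  simp [List.getD_eq_getElem?_getD, hi, hj]

lemma sum_filter_range (n : ℕ) (c : ℕ → Bool) (f : ℕ → ℕ) :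
    (((List.range n).filter c).map f).sum = ∑ i ∈ range n, if c i = true then f i else 0 := by
  induction n with
  | zero => simp
  | succ n ih =>
    rw [List.range_succ, List.filter_append, List.map_append, List.sum_append, ih,
      Finset.sum_range_succ]
    congr 1
    by_cases h : c n = true
    · simp [h]
    · simp [h]

/-- the pair number `k` consists of `v` and `w` -/
def pr (M : List Arc) (k v w : ℕ) : Prop := M.getD k (0, 0) = (v, w) ∨ M.getD k (0, 0) = (w, v)

lemma pr.symm {M : List Arc} {k v w : ℕ} (h : pr M k v w) : pr M k w v := h.elim Or.inr Or.inl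

/-- disjoint pairs -/
structure GM (n : ℕ) (M : List Arc) : Prop where
  lt : ∀ k < M.length, (M.getD k (0, 0)).1 < (M.getD k (0, 0)).2 ∧ (M.getD k (0, 0)).2 < n
  uniq : ∀ k < M.length, ∀ k' < M.length, ∀ v w w', pr M k v w → pr M k' v w' → k = k'

lemma GM.ne {n : ℕ} {M : List Arc} (h : GM n M) {k v w : ℕ} (hk : k < M.length)
    (hp : pr M k v w) : v ≠ w := by
  have h1 := (h.lt k hk).1
  rcases hp with hp | hp <;> rw [hp] at h1 <;> simp only at h1 <;> omega

lemma GM.lt1 {n : ℕ} {M : List Arc} (h : GM n M) {k v w : ℕ} (hk : k < M.length)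
    (hp : pr M k v w) : v < n := by
  have h1 := h.lt k hk
  rcases hp with hp | hp <;> rw [hp] at h1 <;> simp only at h1 <;> omega

lemma pr_unique {M : List Arc} {k v w v' w' : ℕ} (h : pr M k v w) (h' : pr M k v' w') :
    (v' = v ∧ w' = w) ∨ (v' = w ∧ w' = v) := by
  rcases h with h | h <;> rcases h' with h' | h' <;> rw [h] at h' <;>
    simp only [Prod.mk.injEq] at h' <;> omega

lemma contains_iff (M : List Arc) (i j : ℕ) :
    (M.contains (i, j) || M.contains (j, i)) = true ↔ ∃ k < M.length, pr M k i j := by
  simp only [Bool.or_eq_true, List.contains_iff_mem]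
  constructor
  · rintro (h | h)
    · obtain ⟨k, hk, hk'⟩ := List.mem_iff_getElem.1 h
      exact ⟨k, hk, Or.inl (by rw [List.getD_eq_getElem _ _ hk, hk'])⟩
    · obtain ⟨k, hk, hk'⟩ := List.mem_iff_getElem.1 h
      exact ⟨k, hk, Or.inr (by rw [List.getD_eq_getElem _ _ hk, hk'])⟩
  · rintro ⟨k, hk, h | h⟩
    · left
      rw [← h, List.getD_eq_getElem _ _ hk]
      exact List.getElem_mem hk
    · right
      rw [← h, List.getD_eq_getElem _ _ hk]
      exact List.getElem_mem hk

lemma twoCycles_mem (n : ℕ) (C : List ℕ) (a b : ℕ) (h : (a, b) ∈ twoCycles n C) :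
    a < n ∧ C.getD a 0 = b ∧ a < b ∧ C.getD b 0 = a := by
  unfold twoCycles at h
  rw [List.mem_filter, List.mem_map] at h
  obtain ⟨⟨i, hi, he⟩, h2⟩ := h
  rw [List.mem_range] at hi
  simp only [Prod.mk.injEq] at he
  simp only [Bool.and_eq_true, decide_eq_true_eq, beq_iff_eq] at h2
  obtain ⟨h3, h4⟩ := he
  subst h3
  exact ⟨hi, h4, h2.1, h2.2⟩

lemma getD_lt {n : ℕ} {C : List ℕ} (h1 : C.length = n) (h2 : ∀ j ∈ C, j < n) {i : ℕ} (hi : i < n) :
    C.getD i 0 < n := by
  rw [List.getD_eq_getElem _ _ (h1 ▸ hi)]
  exact h2 _ (List.getElem_mem _)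

lemma gm (n : ℕ) (W : Mat) : GM n (twoCycles n (assign n W)) := by
  obtain ⟨h1, h2, h3, -⟩ := assign_spec n W
  set C := assign n W with hC
  have key : ∀ k < (twoCycles n C).length, ∀ v w, (twoCycles n C).getD k (0, 0) = (v, w) →
      v < n ∧ C.getD v 0 = w ∧ v < w ∧ C.getD w 0 = v := by
    intro k hk v w h
    apply twoCycles_mem
    rw [← h, List.getD_eq_getElem _ _ hk]
    exact List.getElem_mem hk
  have hpr : ∀ k < (twoCycles n C).length, ∀ v w, pr (twoCycles n C) k v w →
      C.getD v 0 = w ∧ C.getD w 0 = v := by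
    intro k hk v w h
    rcases h with h | h
    · have := key k hk _ _ h
      exact ⟨this.2.1, this.2.2.2⟩
    · have := key k hk _ _ h
      exact ⟨this.2.2.2, this.2.1⟩
  have hnd : (twoCycles n C).Nodup := by
    unfold twoCycles
    apply List.Nodup.filter
    apply List.Nodup.map _ List.nodup_range
    intro a b hab
    simp only [Prod.mk.injEq] at hab
    exact hab.1
  constructor
  · intro k hk
    have h4 := key k hk ((twoCycles n C).getD k (0, 0)).1 ((twoCycles n C).getD k (0, 0)).2 rfl
    refine ⟨h4.2.2.1, ?_⟩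
    rw [← h4.2.1]
    exact getD_lt h1 h3 h4.1
  · intro k hk k' hk' v w w' hp hp'
    have h4 := (hpr k hk _ _ hp).1
    have h5 := (hpr k' hk' _ _ hp').1
    have h6 : w = w' := h4.symm.trans h5
    subst h6
    have h7 : (twoCycles n C).getD k (0, 0) = (twoCycles n C).getD k' (0, 0) := by
      rcases hp with hp | hp <;> rcases hp' with hp' | hp'
      · rw [hp, hp']
      · have := (key k hk _ _ hp).2.2.1
        have := (key k' hk' _ _ hp').2.2.1
        omega
      · have := (key k hk _ _ hp).2.2.1
        have := (key k' hk' _ _ hp').2.2.1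
        omega
      · rw [hp, hp']
    rw [List.getD_eq_getElem _ _ hk, List.getD_eq_getElem _ _ hk'] at h7
    exact (hnd.getElem_inj_iff).1 h7

section gadget

variable {n : ℕ} {W : Mat} {M : List Arc} {K : ℕ}

lemma gad_vv (hW : ∀ i, ent W i i = 0) {i j : ℕ} (hi : i < n) (hj : j < n)
    (h : ¬ ∃ k < M.length, pr M k i j) : ent (gadget n W M K) i j = K + 2 * ent W i j := by
  unfold gadget
  rw [ent_mkMat _ _ _ _ (by omega) (by omega), if_pos hi, if_pos hj, if_neg]
  · by_cases hij : i = j
    · rw [if_pos hij, hij, hW, Nat.mul_zero, Nat.add_zero]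
    · rw [if_neg hij]
  · rw [contains_iff]; exact h

lemma gad_vv' {i j : ℕ} (hi : i < n) (hj : j < n) (h : 0 < ent (gadget n W M K) i j) :
    ¬ ∃ k < M.length, pr M k i j := by
  intro hcon
  unfold gadget at h
  rw [ent_mkMat _ _ _ _ (by omega) (by omega), if_pos hi, if_pos hj, if_pos] at h
  · exact lt_irrefl _ h
  · rw [contains_iff]; exact hcon

lemma gad_vr (hM : GM n M) {i k w : ℕ} (hi : i < n) (hk : k < M.length) (h : pr M k i w) :
    ent (gadget n W M K) i (n + k) = K + ent W i w := by
  have hne := hM.ne hk h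
  unfold gadget
  rw [ent_mkMat _ _ _ _ (by omega) (by omega), if_pos hi, if_neg (by omega)]
  simp only [Nat.add_sub_cancel_left]
  rcases h with h | h
  · rw [h]
    simp
  · rw [h]
    simp only [if_neg hne, if_true]

lemma gad_vr' {i k : ℕ} (hi : i < n) (hk : k < M.length)
    (h : 0 < ent (gadget n W M K) i (n + k)) : ∃ w, pr M k i w := by
  unfold gadget at h
  rw [ent_mkMat _ _ _ _ (by omega) (by omega), if_pos hi, if_neg (by omega)] at h
  simp only [Nat.add_sub_cancel_left] at h
  by_cases h1 : i = (M.getD k (0, 0)).1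
  · exact ⟨(M.getD k (0, 0)).2, Or.inl (by rw [h1])⟩
  · rw [if_neg h1] at h
    by_cases h2 : i = (M.getD k (0, 0)).2
    · exact ⟨(M.getD k (0, 0)).1, Or.inr (by rw [h2])⟩
    · rw [if_neg h2] at h
      exact absurd h (lt_irrefl _)

lemma gad_lv (hM : GM n M) {j k w : ℕ} (hj : j < n) (hk : k < M.length) (h : pr M k w j) :
    ent (gadget n W M K) (n + k) j = K + ent W w j := by
  have hne := hM.ne hk h
  unfold gadget
  rw [ent_mkMat _ _ _ _ (by omega) (by omega), if_neg (by omega), if_pos hj]
  simp only [Nat.add_sub_cancel_left]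
  rcases h with h | h
  · rw [h]
    simp only [if_neg hne.symm, if_true]
  · rw [h]
    simp

lemma gad_lv' {j k : ℕ} (hj : j < n) (hk : k < M.length)
    (h : 0 < ent (gadget n W M K) (n + k) j) : ∃ w, pr M k w j := by
  unfold gadget at h
  rw [ent_mkMat _ _ _ _ (by omega) (by omega), if_neg (by omega), if_pos hj] at h
  simp only [Nat.add_sub_cancel_left] at h
  by_cases h1 : j = (M.getD k (0, 0)).1
  · exact ⟨(M.getD k (0, 0)).2, Or.inr (by rw [h1])⟩
  · rw [if_neg h1] at h
    by_cases h2 : j = (M.getD k (0, 0)).2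
    · exact ⟨(M.getD k (0, 0)).1, Or.inl (by rw [h2])⟩
    · rw [if_neg h2] at h
      exact absurd h (lt_irrefl _)

lemma gad_lr {k : ℕ} (hk : k < M.length) : ent (gadget n W M K) (n + k) (n + k) = K := by
  unfold gadget
  rw [ent_mkMat _ _ _ _ (by omega) (by omega), if_neg (by omega), if_neg (by omega), if_pos rfl]

lemma gad_lr' {i j : ℕ} (hi : n ≤ i) (hi' : i < n + M.length) (hj : n ≤ j)
    (hj' : j < n + M.length) (h : 0 < ent (gadget n W M K) i j) : i = j := by
  by_contra hcon
  unfold gadget at h
  rw [ent_mkMat _ _ _ _ (by omega) (by omega), if_neg (by omega), if_neg (by omega),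
    if_neg hcon] at h
  exact lt_irrefl _ h

end gadget


/-- value of an assignment of the gadget matrix that uses allowed entries only -/
lemma value_eq {n : ℕ} {W : Mat} {M : List Arc} {K : ℕ} (hM : GM n M) (hW : ∀ i, ent W i i = 0)
    (hK : 0 < K) (Z : List ℕ) (hl : Z.length = n + M.length) (hnd : Z.Nodup)
    (hlt : ∀ j ∈ Z, j < n + M.length)
    (hall : ∀ i < n + M.length, K ≤ ent (gadget n W M K) i (Z.getD i 0)) :
    ∑ i ∈ range (n + M.length), ent (gadget n W M K) i (Z.getD i 0) =
      (n + M.length) * K + 2 * wt W (relArcs n M Z) +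
        ((relSpec n M Z).map (fun p => ent W p.1 p.2 + ent W p.2 p.1)).sum := by
  classical
  set m := M.length with hm
  set g := gadget n W M K with hg
  set z : ℕ → ℕ := fun i => Z.getD i 0 with hz
  set y : ℕ → ℕ := fun j => Z.idxOf j with hy
  have hzlt : ∀ i < n + m, z i < n + m := fun i hi => getD_lt hl hlt hi
  -- all columns are used
  have hmem : ∀ j < n + m, j ∈ Z := by
    intro j hj
    have h1 : Z.Subperm (List.range (n + m)) :=
      List.subperm_of_subset hnd fun a ha => List.mem_range.2 (hlt a ha)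
    have h2 : Z.Perm (List.range (n + m)) :=
      h1.perm_of_length_le (by rw [hl, List.length_range])
    exact h2.mem_iff.2 (List.mem_range.2 hj)
  have hylt : ∀ j < n + m, y j < n + m := by
    intro j hj
    have := List.idxOf_lt_length_of_mem (hmem j hj)
    rwa [hl] at this
  have hzy : ∀ j < n + m, z (y j) = j := by
    intro j hj
    have h1 := List.idxOf_lt_length_of_mem (hmem j hj)
    simp only [hz, hy]
    rw [List.getD_eq_getElem _ _ h1]
    exact List.getElem_idxOf h1
  have hyz : ∀ i < n + m, y (z i) = i := by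
    intro i hi
    simp only [hz, hy]
    rw [List.getD_eq_getElem _ _ (by rw [hl]; exact hi)]
    exact hnd.idxOf_getElem i _
  have hpos : ∀ i < n + m, 0 < ent g i (z i) := fun i hi => lt_of_lt_of_le hK (hall i hi)
  -- the excess
  set e : ℕ → ℕ := fun i => ent g i (z i) - K with he
  have he' : ∀ i ∈ range (n + m), ent g i (z i) = K + e i := by
    intro i hi
    have := hall i (mem_range.1 hi)
    simp only [he]
    have h2 : K ≤ ent g i (z i) := this
    omega
  have h0 : ∑ i ∈ range (n + m), ent g i (z i) = (n + m) * K + ∑ i ∈ range (n + m), e i := by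
    rw [Finset.sum_congr rfl he', Finset.sum_add_distrib, Finset.sum_const, card_range,
      smul_eq_mul]
  -- the excess of the vertex rows
  have h1 : ∑ i ∈ range n, e i = (∑ i ∈ range n, if z i < n then 2 * ent W i (z i) else 0) +
      ∑ k ∈ range m, if y (n + k) < n then e (y (n + k)) else 0 := by
    rw [← Finset.sum_filter_add_sum_filter_not (range n) (fun i => z i < n) e]
    congr 1
    · rw [Finset.sum_filter]
      refine Finset.sum_congr rfl fun i hi => ?_
      rw [mem_range] at hi
      by_cases h : z i < n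
      · rw [if_pos h, if_pos h]
        have h2 := gad_vv (W := W) (K := K) hW hi h (gad_vv' (K := K) (W := W) hi h
          (hpos i (by omega)))
        simp only [he]
        have h3 : ent g i (z i) = K + 2 * ent W i (z i) := h2
        rw [h3]; omega
      · rw [if_neg h, if_neg h]
    · rw [← Finset.sum_filter]
      refine Finset.sum_bij' (fun i _ => z i - n) (fun k _ => y (n + k)) ?_ ?_ ?_ ?_ ?_
      · intro i hi
        rw [mem_filter, mem_range] at hi
        have h2 := hzlt i (by omega)
        rw [mem_filter, mem_range]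
        have h3 : n + (z i - n) = z i := by omega
        rw [h3, hyz i (by omega)]
        omega
      · intro k hk
        rw [mem_filter, mem_range] at hk
        rw [mem_filter, mem_range, hzy (n + k) (by omega)]
        omega
      · intro i hi
        rw [mem_filter, mem_range] at hi
        have h3 : n + (z i - n) = z i := by omega
        simp only [h3]
        exact hyz i (by omega)
      · intro k hk
        rw [mem_filter, mem_range] at hk
        show z (y (n + k)) - n = k
        rw [hzy (n + k) (by omega)]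
        omega
      · intro i hi
        rw [mem_filter, mem_range] at hi
        have h3 : n + (z i - n) = z i := by omega
        simp only [h3]
        rw [hyz i (by omega)]
  -- the pairs
  have h2 : ∀ k ∈ range m, (if y (n + k) < n then e (y (n + k)) else 0) + e (n + k) =
      2 * (if (decide (y (n + k) < n) && decide (z (n + k) < n) &&
        !(y (n + k) == z (n + k))) = true then ent W (y (n + k)) (z (n + k)) else 0) +
      (if (decide (y (n + k) < n) && (y (n + k) == z (n + k))) = true then
        ent W (M.getD k (0, 0)).1 (M.getD k (0, 0)).2 +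
        ent W (M.getD k (0, 0)).2 (M.getD k (0, 0)).1 else 0) := by
    intro k hk
    rw [mem_range] at hk
    have hzl := hzlt (n + k) (by omega)
    have hyl := hylt (n + k) (by omega)
    have hzyk := hzy (n + k) (by omega)
    by_cases hyn : y (n + k) < n
    · have hp1 := hpos (y (n + k)) (by omega)
      rw [hzyk] at hp1
      obtain ⟨w, hw⟩ := gad_vr' hyn hk hp1
      have he1 : e (y (n + k)) = ent W (y (n + k)) w := by
        have h3 := gad_vr (W := W) (K := K) hM hyn hk hw
        simp only [he]
        rw [hzyk, h3]; omega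
      have hzn : z (n + k) < n := by
        by_contra hcon
        have h3 := gad_lr' (by omega) (by omega) (not_lt.1 hcon) hzl (hpos (n + k) (by omega))
        have h4 := hyz (n + k) (by omega)
        rw [← h3] at h4
        omega
      obtain ⟨w', hw'⟩ := gad_lv' hzn hk (hpos (n + k) (by omega))
      have he2 : e (n + k) = ent W w' (z (n + k)) := by
        have h3 := gad_lv (W := W) (K := K) hM hzn hk hw'
        simp only [he]
        rw [h3]; omega
      have hne := hM.ne hk hw
      rw [if_pos hyn, he1, he2]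
      rcases pr_unique hw hw' with ⟨h3, h4⟩ | ⟨h3, h4⟩
      · have hc : y (n + k) ≠ z (n + k) := by rw [h4]; exact hne
        rw [if_pos (by simp [hyn, hzn, hc]), if_neg (by simp [hc]), h3, h4]
        omega
      · rw [if_neg (by simp [h4]), if_pos (by simp [hyn, h4]), h3, h4]
        rcases hw with hw | hw
        · rw [hw]; simp only; omega
        · rw [hw]; simp only; omega
    · have hp1 := hpos (y (n + k)) (by omega)
      rw [hzyk] at hp1
      have h3 := gad_lr' (not_lt.1 hyn) (by omega) (by omega) (by omega) hp1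
      have h4 : z (n + k) = n + k := by
        rw [h3] at hzyk; exact hzyk
      have h5 : e (n + k) = 0 := by
        simp only [he]
        rw [h4, gad_lr hk]; omega
      rw [if_neg hyn, h5, if_neg (by simp [hyn]), if_neg (by simp [hyn])]
  have h3 : wt W (relArcs n M Z) = (∑ i ∈ range n, if z i < n then ent W i (z i) else 0) +
      ∑ k ∈ range m, (if (decide (y (n + k) < n) && decide (z (n + k) < n) &&
        !(y (n + k) == z (n + k))) = true then ent W (y (n + k)) (z (n + k)) else 0) := by
    unfold relArcs wt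
    rw [List.map_append, List.sum_append, List.filter_map, List.map_map, List.map_map,
      sum_filter_range, sum_filter_range]
    congr 1
    refine Finset.sum_congr rfl fun i _ => ?_
    show (if (decide (z i < n) && !(i == z i)) = true then ent W i (z i) else 0) =
      if z i < n then ent W i (z i) else 0
    generalize z i = t
    by_cases h5 : i = t
    · rw [← h5, hW]; simp
    · simp [h5]
  have h4 : ((relSpec n M Z).map (fun p => ent W p.1 p.2 + ent W p.2 p.1)).sum =
      ∑ k ∈ range m, (if (decide (y (n + k) < n) && (y (n + k) == z (n + k))) = true then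
        ent W (M.getD k (0, 0)).1 (M.getD k (0, 0)).2 +
        ent W (M.getD k (0, 0)).2 (M.getD k (0, 0)).1 else 0) := by
    unfold relSpec
    rw [List.map_map, sum_filter_range]
    refine Finset.sum_congr rfl fun k _ => ?_
    simp only [Function.comp_apply]
    refine if_congr Iff.rfl ?_ rfl
    split_ifs
    · rfl
    · exact Nat.add_comm _ _
  rw [h0, Finset.sum_range_add, h1, add_assoc (∑ i ∈ range n, _), ← Finset.sum_add_distrib,
    Finset.sum_congr rfl h2, Finset.sum_add_distrib, ← Finset.mul_sum, h3, h4]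
  have h5 : (∑ i ∈ range n, if z i < n then 2 * ent W i (z i) else 0) =
      2 * ∑ i ∈ range n, if z i < n then ent W i (z i) else 0 := by
    rw [Finset.mul_sum]
    refine Finset.sum_congr rfl fun i _ => ?_
    split_ifs <;> simp
  rw [h5]
  ring


/-- a fixed-point-free cyclic successor function without 2-cycles gives an assignment of the gadget
matrix -/
lemma succ_assign {n : ℕ} {W : Mat} {M : List Arc} {K : ℕ} (hM : GM n M)
    (hW : ∀ i, ent W i i = 0) (s : ℕ → ℕ) (hs1 : ∀ v < n, s v < n)
    (hs2 : ∀ v < n, ∀ w < n, s v = s w → v = w) (hs3 : ∀ v < n, s (s v) ≠ v) :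
    ∃ b : List ℕ, b.length = n + M.length ∧ b.Nodup ∧ (∀ j ∈ b, j < n + M.length) ∧
      ∑ i ∈ range (n + M.length), ent (gadget n W M K) i (b.getD i 0) =
        (n + M.length) * K + 2 * ∑ v ∈ range n, ent W v (s v) := by
  classical
  set m := M.length with hm
  set g := gadget n W M K with hg
  set Pd : ℕ → Prop := fun i => ∃ k, k < m ∧ pr M k i (s i) with hPd
  set Us : ℕ → Prop := fun k => ∃ v, v < n ∧ pr M k v (s v) with hUs
  have huv : ∀ k, ∀ v < n, ∀ v' < n, pr M k v (s v) → pr M k v' (s v') → v = v' := by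
    intro k v hv v' hv' h h'
    rcases pr_unique h h' with h1 | h1
    · exact h1.1.symm
    · exfalso
      apply hs3 v hv
      rw [← h1.1]; exact h1.2
  set kk : ℕ → ℕ := fun i => if h : Pd i then h.choose else 0 with hkk
  set vv : ℕ → ℕ := fun k => if h : Us k then h.choose else 0 with hvv
  have hkk' : ∀ i, Pd i → kk i < m ∧ pr M (kk i) i (s i) := by
    intro i h
    simp only [hkk]
    rw [dif_pos h]
    exact h.choose_spec
  have hvv' : ∀ k, Us k → vv k < n ∧ pr M k (vv k) (s (vv k)) := by
    intro k h
    simp only [hvv]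
    rw [dif_pos h]
    exact h.choose_spec
  set bf : ℕ → ℕ := fun i => if i < n then (if Pd i then n + kk i else s i)
    else (if Us (i - n) then s (vv (i - n)) else i) with hbf
  have b1 : ∀ i < n, Pd i → bf i = n + kk i := by
    intro i hi h
    simp only [hbf]
    rw [if_pos hi, if_pos h]
  have b2 : ∀ i < n, ¬ Pd i → bf i = s i := by
    intro i hi h
    simp only [hbf]
    rw [if_pos hi, if_neg h]
  have b3 : ∀ k, Us k → bf (n + k) = s (vv k) := by
    intro k h
    simp only [hbf]
    rw [if_neg (by omega), Nat.add_sub_cancel_left, if_pos h]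
  have b4 : ∀ k, ¬ Us k → bf (n + k) = n + k := by
    intro k h
    simp only [hbf]
    rw [if_neg (by omega), Nat.add_sub_cancel_left, if_neg h]
  have cases4 : ∀ i < n + m, (i < n ∧ Pd i) ∨ (i < n ∧ ¬ Pd i) ∨
      (∃ k, k < m ∧ i = n + k ∧ Us k) ∨ (∃ k, k < m ∧ i = n + k ∧ ¬ Us k) := by
    intro i hi
    by_cases h : i < n
    · by_cases h' : Pd i
      · exact Or.inl ⟨h, h'⟩
      · exact Or.inr (Or.inl ⟨h, h'⟩)
    · obtain ⟨k, rfl⟩ := Nat.exists_eq_add_of_le (not_lt.1 h)
      by_cases h' : Us k
      · exact Or.inr (Or.inr (Or.inl ⟨k, by omega, rfl, h'⟩))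
      · exact Or.inr (Or.inr (Or.inr ⟨k, by omega, rfl, h'⟩))
  have hbflt : ∀ i < n + m, bf i < n + m := by
    intro i hi
    rcases cases4 i hi with ⟨h1, h2⟩ | ⟨h1, h2⟩ | ⟨k, hk, rfl, h2⟩ | ⟨k, hk, rfl, h2⟩
    · rw [b1 i h1 h2]
      have := (hkk' i h2).1
      omega
    · rw [b2 i h1 h2]
      have := hs1 i h1
      omega
    · rw [b3 k h2]
      have := hs1 _ (hvv' k h2).1
      omega
    · rw [b4 k h2]; omega
  have hinj : ∀ i < n + m, ∀ j < n + m, bf i = bf j → i = j := by
    have hinj' : ∀ i < n + m, ∀ j < n + m, i < n → bf i = bf j → i = j := by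
      intro i hi j hj hin hij
      by_cases hPi : Pd i
      · rw [b1 i hin hPi] at hij
        obtain ⟨h1, h2⟩ := hkk' i hPi
        rcases cases4 j hj with ⟨h3, h4⟩ | ⟨h3, h4⟩ | ⟨k, hk, rfl, h4⟩ | ⟨k, hk, rfl, h4⟩
        · rw [b1 j h3 h4] at hij
          obtain ⟨h5, h6⟩ := hkk' j h4
          have h7 : kk i = kk j := by omega
          rw [← h7] at h6
          exact huv _ i hin j h3 h2 h6
        · rw [b2 j h3 h4] at hij
          have := hs1 j h3
          omega
        · rw [b3 k h4] at hij
          have := hs1 _ (hvv' k h4).1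
          omega
        · rw [b4 k h4] at hij
          exfalso
          apply h4
          have h5 : kk i = k := by omega
          rw [h5] at h2
          exact ⟨i, hin, h2⟩
      · rw [b2 i hin hPi] at hij
        have h1 := hs1 i hin
        rcases cases4 j hj with ⟨h3, h4⟩ | ⟨h3, h4⟩ | ⟨k, hk, rfl, h4⟩ | ⟨k, hk, rfl, h4⟩
        · rw [b1 j h3 h4] at hij
          omega
        · rw [b2 j h3 h4] at hij
          exact hs2 i hin j h3 hij
        · rw [b3 k h4] at hij
          obtain ⟨h5, h6⟩ := hvv' k h4
          have h7 := hs2 i hin _ h5 hij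
          exfalso
          apply hPi
          rw [← h7] at h6
          exact ⟨k, hk, h6⟩
        · rw [b4 k h4] at hij
          omega
    intro i hi j hj hij
    by_cases hin : i < n
    · exact hinj' i hi j hj hin hij
    · by_cases hjn : j < n
      · exact (hinj' j hj i hi hjn hij.symm).symm
      · obtain ⟨k, rfl⟩ := Nat.exists_eq_add_of_le (not_lt.1 hin)
        obtain ⟨k', rfl⟩ := Nat.exists_eq_add_of_le (not_lt.1 hjn)
        by_cases h1 : Us k
        · by_cases h2 : Us k'
          · rw [b3 k h1, b3 k' h2] at hij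
            obtain ⟨h3, h4⟩ := hvv' k h1
            obtain ⟨h5, h6⟩ := hvv' k' h2
            have h7 := hs2 _ h3 _ h5 hij
            rw [← h7] at h6
            have h8 := hM.uniq k (by omega) k' (by omega) _ _ _ h4 h6
            omega
          · rw [b3 k h1, b4 k' h2] at hij
            have := hs1 _ (hvv' k h1).1
            omega
        · by_cases h2 : Us k'
          · rw [b4 k h1, b3 k' h2] at hij
            have := hs1 _ (hvv' k' h2).1
            omega
          · rw [b4 k h1, b4 k' h2] at hij
            exact hij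
  have hget : ∀ i < n + m, ((List.range (n + m)).map bf).getD i 0 = bf i := by
    intro i hi
    simp [List.getD_eq_getElem?_getD, hi]
  refine ⟨(List.range (n + m)).map bf, by simp, ?_, ?_, ?_⟩
  · refine List.Nodup.map_on ?_ List.nodup_range
    intro i hi k hk h
    exact hinj i (List.mem_range.1 hi) k (List.mem_range.1 hk) h
  · intro j hj
    obtain ⟨i, hi, rfl⟩ := List.mem_map.1 hj
    exact hbflt i (List.mem_range.1 hi)
  · rw [Finset.sum_congr rfl fun i hi => by rw [hget i (mem_range.1 hi)], Finset.sum_range_add]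
    have h1 : ∀ i ∈ range n, ent g i (bf i) =
        K + ((if Pd i then ent W i (s i) else 0) + if Pd i then 0 else 2 * ent W i (s i)) := by
      intro i hi
      rw [mem_range] at hi
      by_cases h : Pd i
      · rw [b1 i hi h, if_pos h, if_pos h, gad_vr hM hi (hkk' i h).1 (hkk' i h).2]
        omega
      · rw [b2 i hi h, if_neg h, if_neg h, gad_vv hW hi (hs1 i hi) h]
        omega
    have h2 : ∀ k ∈ range m, ent g (n + k) (bf (n + k)) =
        K + if Us k then ent W (vv k) (s (vv k)) else 0 := by
      intro k hk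
      rw [mem_range] at hk
      by_cases h : Us k
      · obtain ⟨h3, h4⟩ := hvv' k h
        rw [b3 k h, if_pos h, gad_lv hM (hs1 _ h3) hk h4]
      · rw [b4 k h, if_neg h, gad_lr hk]
        omega
    rw [Finset.sum_congr rfl h1, Finset.sum_congr rfl h2, Finset.sum_add_distrib,
      Finset.sum_add_distrib, Finset.sum_add_distrib]
    have h3 : (∑ k ∈ range m, if Us k then ent W (vv k) (s (vv k)) else 0) =
        ∑ i ∈ range n, if Pd i then ent W i (s i) else 0 := by
      rw [← Finset.sum_filter, ← Finset.sum_filter]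
      refine Finset.sum_bij' (fun k _ => vv k) (fun i _ => kk i) ?_ ?_ ?_ ?_ ?_
      · intro k hk
        rw [mem_filter, mem_range] at hk ⊢
        obtain ⟨h3, h4⟩ := hvv' k hk.2
        exact ⟨h3, k, hk.1, h4⟩
      · intro i hi
        rw [mem_filter, mem_range] at hi ⊢
        obtain ⟨h3, h4⟩ := hkk' i hi.2
        exact ⟨h3, i, hi.1, h4⟩
      · intro k hk
        rw [mem_filter, mem_range] at hk
        obtain ⟨h3, h4⟩ := hvv' k hk.2
        obtain ⟨h5, h6⟩ := hkk' (vv k) ⟨k, hk.1, h4⟩
        exact hM.uniq _ h5 _ hk.1 _ _ _ h6 h4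
      · intro i hi
        rw [mem_filter, mem_range] at hi
        obtain ⟨h3, h4⟩ := hkk' i hi.2
        obtain ⟨h5, h6⟩ := hvv' (kk i) ⟨i, hi.1, h4⟩
        exact huv _ _ h5 _ hi.1 h6 h4
      · intro k hk
        rfl
    rw [h3]
    have h4 : (∑ i ∈ range n, if Pd i then ent W i (s i) else 0) +
        (∑ i ∈ range n, if Pd i then 0 else 2 * ent W i (s i)) +
        (∑ i ∈ range n, if Pd i then ent W i (s i) else 0) = 2 * ∑ i ∈ range n, ent W i (s i) := by
      rw [← Finset.sum_add_distrib, ← Finset.sum_add_distrib, Finset.mul_sum]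
      refine Finset.sum_congr rfl fun i _ => ?_
      split_ifs <;> omega
    simp only [Finset.sum_const, card_range, smul_eq_mul]
    rw [← h4]
    ring

lemma ham_le_sum (W : Mat) (s : ℕ → ℕ) (l : List ℕ)
    (h : ∀ (i : ℕ) (hi : i + 1 < l.length), s l[i] = l[i + 1]) :
    ham W l ≤ (l.map (fun v => ent W v (s v))).sum := by
  induction l with
  | nil => simp [ham]
  | cons a l ih =>
    cases l with
    | nil => simp [ham]
    | cons b l =>
      have h0 := h 0 (by simp)
      simp only [List.getElem_cons_zero, Nat.zero_add, List.getElem_cons_succ] at h0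
      have h1 := ih (fun i hi => by
        have := h (i + 1) (by simpa using hi)
        simpa using this)
      rw [ham, List.map_cons, List.sum_cons, h0]
      omega

/-- the cyclic successor in a Hamiltonian path -/
lemma ham_succ (n : ℕ) (W : Mat) (hn : 3 ≤ n) (l : List ℕ) (hl : l.Perm (List.range n)) :
    ∃ s : ℕ → ℕ, (∀ v < n, s v < n) ∧ (∀ v < n, ∀ w < n, s v = s w → v = w) ∧
      (∀ v < n, s (s v) ≠ v) ∧ ham W l ≤ ∑ v ∈ range n, ent W v (s v) := by
  have hnd : l.Nodup := hl.nodup_iff.2 List.nodup_range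
  have hlen : l.length = n := by rw [hl.length_eq, List.length_range]
  have hmem : ∀ v, v ∈ l ↔ v < n := fun v => by rw [hl.mem_iff, List.mem_range]
  have hs : ∀ (i : ℕ) (hi : i < l.length), l.formPerm l[i] =
      l[(i + 1) % l.length]'(Nat.mod_lt _ (by omega)) := fun i hi =>
    List.formPerm_apply_getElem l hnd i hi
  refine ⟨l.formPerm, ?_, ?_, ?_, ?_⟩
  · intro v hv
    obtain ⟨i, hi, rfl⟩ := List.mem_iff_getElem.1 ((hmem v).2 hv)
    rw [hs i hi, ← hmem]
    exact List.getElem_mem _
  · intro v _ w _ h
    exact (l.formPerm).injective h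
  · intro v hv h
    obtain ⟨i, hi, rfl⟩ := List.mem_iff_getElem.1 ((hmem v).2 hv)
    rw [hs i hi, hs _ (Nat.mod_lt _ (by omega)), hnd.getElem_inj_iff] at h
    rw [hlen] at h hi
    by_cases h1 : i + 1 < n
    · rw [Nat.mod_eq_of_lt h1] at h
      by_cases h2 : i + 1 + 1 < n
      · rw [Nat.mod_eq_of_lt h2] at h; omega
      · have h3 : i + 1 + 1 = n := by omega
        rw [h3, Nat.mod_self] at h; omega
    · have h3 : i + 1 = n := by omega
      rw [h3, Nat.mod_self, Nat.zero_add, Nat.mod_eq_of_lt (by omega)] at h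
      omega
  · have h1 : ∑ v ∈ range n, ent W v (l.formPerm v) =
        (l.map (fun v => ent W v (l.formPerm v))).sum := by
      rw [(hl.map _).sum_eq]
      have h2 := sum_filter_range n (fun _ => true) (fun v => ent W v (l.formPerm v))
      simpa using h2.symm
    rw [h1]
    apply ham_le_sum
    intro i hi
    rw [hs i (by omega)]
    congr 1
    exact Nat.mod_eq_of_lt hi

end G3

/-- GAD3: the relaxed cover is at least as heavy as every Hamiltonian path, if `3 ≤ n` -/
theorem ham_le_rel (n : ℕ) (W : Mat) (hn : 3 ≤ n) (hW : ∀ i, ent W i i = 0)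
    (hW' : ∀ i j, ¬ (i < n ∧ j < n) → ent W i j = 0) (l : List ℕ) (hl : l.Perm (List.range n)) :
    2 * ham W l ≤
      2 * wt W (relArcs n (twoCycles n (assign n W)) (relAssign n W (twoCycles n (assign n W)))) +
      ((relSpec n (twoCycles n (assign n W)) (relAssign n W (twoCycles n (assign n W)))).map
        (fun p => ent W p.1 p.2 + ent W p.2 p.1)).sum := by
  have hM := G3.gm n W
  obtain ⟨s, hs1, hs2, hs3, hs4⟩ := G3.ham_succ n W hn l hl
  have hall := fun i hi => le_ent_of_allowed n W (twoCycles n (assign n W)) (2 * total W + 1)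
    (Gad2.rel_allowed n W (assign n W) (Gad2.assign_getD_lt n W) i hi)
  set M := twoCycles n (assign n W) with hMdef
  obtain ⟨b, hb1, hb2, hb3, hb4⟩ := G3.succ_assign (K := 2 * total W + 1) hM hW s hs1 hs2 hs3
  obtain ⟨h1, h2, h3, h4⟩ := assign_spec (n + M.length) (gadget n W M (2 * total W + 1))
  have h5 := h4 b hb1 hb2 hb3
  have h6 := G3.value_eq (K := 2 * total W + 1) hM hW (by omega) (relAssign n W M) h1 h2 h3
    (fun i hi => hall i hi)
  rw [hb4] at h5
  have h7 : ∑ i ∈ range (n + M.length), ent (gadget n W M (2 * total W + 1)) i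
      ((assign (n + M.length) (gadget n W M (2 * total W + 1))).getD i 0) =
      (n + M.length) * (2 * total W + 1) + 2 * wt W (relArcs n M (relAssign n W M)) +
        ((relSpec n M (relAssign n W M)).map (fun p => ent W p.1 p.2 + ent W p.2 p.1)).sum := h6
  rw [h7] at h5
  omega

end Vale.Agent.Lib.P333.Alg
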