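import Mathlib
import Vale.Agent.Lib.P333.CovDefs
import Vale.Agent.Lib.P333.Auction
import Vale.Agent.Lib.P333.Gad1
import Vale.Agent.Lib.P333.Cov1
import Vale.Agent.Lib.P333.Cov6

/-! P333, module GAD4 -/

namespace Vale.Agent.Lib.P333.Alg

theorem gad4_wt_better (n : ℕ) (W : Mat) (S : List ℕ) (P Q : List Arc) :
    wt W P ≤ wt W (better n W S P Q) := by
  unfold better
  split_ifs with h
  · simp only [Bool.and_eq_true, decide_eq_true_eq] at h
    exact h.2.le
  · exact le_rfl

theorem gad4_wt_foldl (n : ℕ) (W : Mat) (S : List ℕ) (l : List (List Arc)) (P : List Arc) :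
    wt W P ≤ wt W (l.foldl (better n W S) P) := by
  induction l generalizing P with
  | nil => exact le_rfl
  | cons Q l ih => exact (gad4_wt_better n W S P Q).trans (ih _)

theorem gad4_wt_le_foldl (n : ℕ) (W : Mat) (S : List ℕ) (l : List (List Arc)) (P Q : List Arc)
    (hQ : Q ∈ l) (h1 : isPC n Q = true) (h2 : inside S Q = true) :
    wt W Q ≤ wt W (l.foldl (better n W S) P) := by
  induction l generalizing P with
  | nil => simp at hQ
  | cons R l ih =>
    rcases List.mem_cons.1 hQ with rfl | h
    · refine le_trans ?_ (gad4_wt_foldl n W S l _)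
      unfold better
      split_ifs with h
      · exact le_rfl
      · simp only [h1, h2, Bool.and_self, Bool.true_and, decide_eq_true_eq, not_lt] at h
        exact h
    · exact ih _ h

theorem gad4_wt_le_best (n : ℕ) (W : Mat) (S : List ℕ) (l : List (List Arc)) (Q : List Arc)
    (hQ : Q ∈ l) (h1 : isPC n Q = true) (h2 : inside S Q = true) :
    wt W Q ≤ wt W (best n W S l) := gad4_wt_le_foldl n W S l [] Q hQ h1 h2

theorem gad4_wt_mono (W W' : Mat) (h : ∀ i j, ent W i j ≤ ent W' i j) (P : List Arc) :
    wt W P ≤ wt W' P := by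
  unfold wt
  induction P with
  | nil => exact le_rfl
  | cons a P ih =>
    simp only [List.map_cons, List.sum_cons]
    exact add_le_add (h _ _) ih

theorem gad4_drop (W : Mat) :
    isPC 2 (dropLightest 2 W [1, 0] [0, 1]) = true ∧
      inside [0, 1] (dropLightest 2 W [1, 0] [0, 1]) = true ∧
      ent W 0 1 ≤ wt W (dropLightest 2 W [1, 0] [0, 1]) ∧
      ent W 1 0 ≤ wt W (dropLightest 2 W [1, 0] [0, 1]) := by
  have c0 : (comp 2 ((List.range 2).map (fun i => (i, [1, 0].getD i 0))) 0).map
      (fun u => cycPath 2 [1, 0] u) = [[(0, 1)], [(1, 0)]] := by decide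
  have c1 : (comp 2 ((List.range 2).map (fun i => (i, [1, 0].getD i 0))) 1).map
      (fun u => cycPath 2 [1, 0] u) = [[(0, 1)], [(1, 0)]] := by decide
  have p0 : isPC 2 [(0, 1)] = true := by decide
  have p1 : isPC 2 [(1, 0)] = true := by decide
  have p2 : isPC 2 [] = true := by decide
  have i0 : inside [0, 1] [(0, 1)] = true := by decide
  have i1 : inside [0, 1] [(1, 0)] = true := by decide
  have i2 : inside [0, 1] [] = true := by decide
  unfold dropLightest
  simp only [List.foldl_cons, List.foldl_nil, List.any_nil, c0, c1, Bool.false_eq_true, if_false,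
    List.append_nil]
  have hb : best 2 W [0, 1] [[(0, 1)], [(1, 0)]]
      = if 0 < ent W 0 1 then (if ent W 0 1 < ent W 1 0 then [(1, 0)] else [(0, 1)])
        else (if 0 < ent W 1 0 then [(1, 0)] else []) := by
    unfold best
    simp only [List.foldl_cons, List.foldl_nil, better, p0, p1, i0, i1, Bool.and_self,
      Bool.true_and, decide_eq_true_eq]
    by_cases h1 : 0 < ent W 0 1
    · simp [wt, h1]
    · simp [wt, h1]
  rw [hb]
  by_cases h1 : 0 < ent W 0 1
  · by_cases h2 : ent W 0 1 < ent W 1 0
    · simp only [h1, h2, if_true]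
      have : List.any [((1, 0) : Arc)] (fun a => inc 1 a) = true := by decide
      simp only [this, if_true]
      refine ⟨p1, i1, ?_, ?_⟩
      · simp [wt]; omega
      · simp [wt]
    · simp only [h1, h2, if_true, if_false]
      have : List.any [((0, 1) : Arc)] (fun a => inc 1 a) = true := by decide
      simp only [this, if_true]
      refine ⟨p0, i0, ?_, ?_⟩
      · simp [wt]
      · simp [wt]; omega
  · by_cases h2 : 0 < ent W 1 0
    · simp only [h1, h2, if_true, if_false]
      have : List.any [((1, 0) : Arc)] (fun a => inc 1 a) = true := by decide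
      simp only [this, if_true]
      refine ⟨p1, i1, ?_, ?_⟩
      · simp [wt]; omega
      · simp [wt]
    · simp only [h1, h2, if_false, List.any_nil, Bool.false_eq_true, List.append_nil]
      refine ⟨p2, i2, ?_, ?_⟩
      · simp [wt]; omega
      · simp [wt]; omega

theorem gad4_comp (D : List Arc) (v : ℕ) (hv : v < 2) :
    comp 2 (permArcs 2 [1, 0] ++ D) v = [0, 1] := by
  have hp : permArcs 2 [1, 0] = [(0, 1), (1, 0)] := by decide
  rw [hp]
  interval_cases v
  · simp [comp, List.range_succ]
  · simp [comp, List.range_succ]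

theorem gad4_cover (W : Mat) (D spp : List Arc) :
    ent W 0 1 ≤ wt W (cover 2 W [1, 0] D spp) ∧ ent W 1 0 ≤ wt W (cover 2 W [1, 0] D spp) := by
  have h1 : cover 2 W [1, 0] D spp
      = best 2 W [0, 1] (candidates 2 W [1, 0] D spp [0, 1]) := by
    unfold cover
    have hr : List.range 2 = [0, 1] := rfl
    rw [hr]
    simp only [List.flatMap_cons, List.flatMap_nil, gad4_comp D 0 (by omega),
      gad4_comp D 1 (by omega)]
    simp
  have hmem : dropLightest 2 W [1, 0] [0, 1] ∈ candidates 2 W [1, 0] D spp [0, 1] := by
    unfold candidates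
    simp
  obtain ⟨d1, d2, d3, d4⟩ := gad4_drop W
  have h2 := gad4_wt_le_best 2 W [0, 1] _ _ hmem d1 d2
  rw [h1]
  exact ⟨d3.trans h2, d4.trans h2⟩

theorem gad4_two (W : Mat) (hW : ∀ i, ent W i i = 0) (l : List ℕ) (hl : l.Perm (List.range 2))
    (D spp : List Arc) : 2 * ham W l ≤ 3 * wt W (cover 2 W (assign 2 W) D spp) := by
  obtain ⟨hlen, hnd, hlt, hopt⟩ := assign_spec 2 W
  have hl2 : l = [0, 1] ∨ l = [1, 0] := by
    have h1 : l.length = 2 := by rw [hl.length_eq]; rfl
    match l, h1 with
    | [x, y], _ =>
      have hx : x ∈ [0, 1] := by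
        have := hl.mem_iff.1 (show x ∈ [x, y] by simp)
        simpa [List.range_succ] using this
      have hy : y ∈ [0, 1] := by
        have := hl.mem_iff.1 (show y ∈ [x, y] by simp)
        simpa [List.range_succ] using this
      have hxy : x ≠ y := by
        have := hl.nodup_iff.2 List.nodup_range
        simpa using this
      simp only [List.mem_cons, List.not_mem_nil, or_false] at hx hy
      rcases hx with rfl | rfl <;> rcases hy with rfl | rfl
      · exact absurd rfl hxy
      · exact Or.inl rfl
      · exact Or.inr rfl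
      · exact absurd rfl hxy
  have hC : assign 2 W = [0, 1] ∨ assign 2 W = [1, 0] := by
    revert hlen hnd hlt
    generalize assign 2 W = C
    intro hlen hnd hlt
    match C, hlen with
    | [x, y], _ =>
      have hx : x < 2 := hlt x (by simp)
      have hy : y < 2 := hlt y (by simp)
      have hxy : x ≠ y := by simpa using hnd
      interval_cases x <;> interval_cases y
      · exact absurd rfl hxy
      · exact Or.inl rfl
      · exact Or.inr rfl
      · exact absurd rfl hxy
  rcases hC with hC | hC
  · have h1 := hopt [1, 0] rfl (by decide) (by decide)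
    rw [hC] at h1
    simp only [Finset.sum_range_succ, Finset.sum_range_zero, List.getD_cons_zero,
      List.getD_cons_succ, zero_add, hW] at h1
    rcases hl2 with rfl | rfl
    · simp only [ham]; omega
    · simp only [ham]; omega
  · rw [hC]
    have h1 := gad4_cover W D spp
    rcases hl2 with rfl | rfl
    · simp only [ham]; omega
    · simp only [ham]; omega

/-- GAD4: the cases `n ≤ 2` -/
theorem pathCover_weight_small (n : ℕ) (hn : n ≤ 2) (W : Mat) (l : List ℕ)
    (hl : l.Perm (List.range n)) : 2 * ham W l ≤ 3 * wt W (pathCover n W) := by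
  have hlen : l.length = n := by rw [hl.length_eq, List.length_range]
  rcases Nat.lt_or_ge n 2 with h | h
  · have h0 : ham W l = 0 := by
      match l, hlen with
      | [], _ => rfl
      | [a], _ => rfl
      | a :: b :: l, hlen => simp at hlen; omega
    rw [h0]
    omega
  · obtain rfl : n = 2 := by omega
    have hdiag : ∀ i, ent (zeroDiag 2 W) i i = 0 := by
      intro i
      rw [ent_zeroDiag]
      simp
    have hle : ∀ i j, ent (zeroDiag 2 W) i j ≤ ent W i j := by
      intro i j
      rw [ent_zeroDiag]
      split_ifs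
      · exact le_rfl
      · exact Nat.zero_le _
    have h1 := gad4_two (zeroDiag 2 W) hdiag l hl
      (relArcs 2 (twoCycles 2 (assign 2 (zeroDiag 2 W)))
        (relAssign 2 (zeroDiag 2 W) (twoCycles 2 (assign 2 (zeroDiag 2 W)))))
      (relSpec 2 (twoCycles 2 (assign 2 (zeroDiag 2 W)))
        (relAssign 2 (zeroDiag 2 W) (twoCycles 2 (assign 2 (zeroDiag 2 W)))))
    have h2 : ham (zeroDiag 2 W) l = ham W l := by
      have hnd : l.Nodup := hl.nodup_iff.2 List.nodup_range
      have hlt : ∀ x ∈ l, x < 2 := fun x hx => List.mem_range.1 (hl.mem_iff.1 hx)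
      match l, hlen with
      | [x, y], _ =>
        have hxy : x ≠ y := by simpa using hnd
        have hx : x < 2 := hlt x (by simp)
        have hy : y < 2 := hlt y (by simp)
        simp only [ham]
        rw [ent_zeroDiag, if_pos ⟨hx, hy, hxy⟩]
    have h3 := gad4_wt_mono (zeroDiag 2 W) W hle (pathCover 2 W)
    rw [h2] at h1
    unfold pathCover at h3 ⊢
    simp only at h3 ⊢
    omega

end Vale.Agent.Lib.P333.Alg
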