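import Mathlib
import Vale.Agent.Lib.P333.Alg
import Vale.Agent.Lib.P333.Auction
import Vale.Agent.Lib.P333.AtspD
import Vale.Agent.Lib.P333.Cov6
import Vale.Agent.Lib.P333.Gad1
import Vale.Agent.Lib.P333.Gad2
import Vale.Agent.Lib.P333.Gad3
import Vale.Agent.Lib.P333.Gad4

/-!
P333, module ATSP.  Interface statements: correctness of the 2/3-approximation `atsp`.
-/

namespace Vale.Agent.Lib.P333.Alg

open Finset

theorem atsp_getD_lt {n : ℕ} {C : List ℕ} (h1 : C.length = n) (h2 : ∀ j ∈ C, j < n) {i : ℕ}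
    (hi : i < n) : C.getD i 0 < n := by
  rw [List.getD_eq_getElem _ _ (h1 ▸ hi)]
  exact h2 _ (List.getElem_mem _)

theorem atsp_full_lt {n : ℕ} {C : List ℕ} (h1 : C.length = n) (h2 : ∀ j ∈ C, j < n)
    (M : List Arc) (Z : List ℕ) :
    ∀ a ∈ full n C (relArcs n M Z), a.1 < n ∧ a.2 < n := by
  intro a ha
  unfold full at ha
  rcases List.mem_append.1 ha with ha | ha
  · unfold permArcs at ha
    obtain ⟨i, hi, rfl⟩ := List.mem_map.1 (List.mem_filter.1 ha).1
    exact ⟨List.mem_range.1 hi, atsp_getD_lt h1 h2 (List.mem_range.1 hi)⟩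
  · unfold relArcs at ha
    rcases List.mem_append.1 ha with ha | ha
    · obtain ⟨ha1, ha2⟩ := List.mem_filter.1 ha
      obtain ⟨i, hi, rfl⟩ := List.mem_map.1 ha1
      simp only [Bool.and_eq_true, decide_eq_true_eq] at ha2
      exact ⟨List.mem_range.1 hi, ha2.1⟩
    · obtain ⟨k, hk, rfl⟩ := List.mem_map.1 ha
      have hk2 := (List.mem_filter.1 hk).2
      simp only [Bool.and_eq_true, decide_eq_true_eq] at hk2
      exact hk2.1

/-- the path cover computed by the algorithm is valid -/
theorem isPC_pathCover (n : ℕ) (W : Mat) : isPC n (pathCover n W) = true := by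
  unfold pathCover
  obtain ⟨h1, -, h2, -⟩ := assign_spec n (zeroDiag n W)
  exact isPC_cover (atsp_full_lt h1 h2 _ _)

theorem ham_zeroDiag (n : ℕ) (W : Mat) (l : List ℕ) (hnd : l.Nodup) (hlt : ∀ x ∈ l, x < n) :
    ham (zeroDiag n W) l = ham W l := by
  induction l with
  | nil => rfl
  | cons a l ih =>
    cases l with
    | nil => rfl
    | cons b l =>
      have hab : a ≠ b := by
        intro h
        rw [List.nodup_cons] at hnd
        exact hnd.1 (by rw [h]; simp)
      have h1 := ih (List.nodup_cons.1 hnd).2 (fun x hx => hlt x (List.mem_cons_of_mem _ hx))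
      rw [ham, ham, h1, ent_zeroDiag,
        if_pos ⟨hlt a (by simp), hlt b (by simp), hab⟩]

/-- module ATSP-E: the path cover computed by the algorithm has weight at least two thirds of the
weight of every Hamiltonian path -/
theorem pathCover_weight (n : ℕ) (W : Mat) (l : List ℕ) (hl : l.Perm (List.range n)) :
    2 * ham W l ≤ 3 * wt W (pathCover n W) := by
  rcases Nat.lt_or_ge n 3 with h | h
  · exact pathCover_weight_small n (by omega) W l hl
  have hdiag : ∀ i, ent (zeroDiag n W) i i = 0 := by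
    intro i
    rw [ent_zeroDiag]
    simp
  have hout : ∀ i j, ¬ (i < n ∧ j < n) → ent (zeroDiag n W) i j = 0 := by
    intro i j hij
    rw [ent_zeroDiag, if_neg]
    intro h
    exact hij ⟨h.1, h.2.1⟩
  have hle : ∀ i j, ent (zeroDiag n W) i j ≤ ent W i j := by
    intro i j
    rw [ent_zeroDiag]
    split_ifs
    · exact le_rfl
    · exact Nat.zero_le _
  have hnd : l.Nodup := hl.nodup_iff.2 List.nodup_range
  have hlt : ∀ x ∈ l, x < n := fun x hx => List.mem_range.1 (hl.mem_iff.1 hx)
  have hham := ham_zeroDiag n W l hnd hlt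
  have hcov := cov_rel n (zeroDiag n W) hdiag hout
  have hw := cover_weight hcov hdiag
    (fun S hS hS1 hS2 P hP1 hP2 hP3 => assign_opt_closed n (zeroDiag n W) hdiag S hS hS1 hS2 P
      hP1 hP2 hP3)
  have h1 := ham_le_assign n (zeroDiag n W) hdiag l hl
  have h2 := ham_le_rel n (zeroDiag n W) h hdiag hout l hl
  have h3 := gad4_wt_mono (zeroDiag n W) W hle (pathCover n W)
  rw [hham] at h1 h2
  unfold pathCover at h3 ⊢
  simp only at h3 ⊢
  omega

theorem atsp_spec (n : ℕ) (W : Mat) :
    (atsp n W).Perm (List.range n) ∧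
      ∀ l : List ℕ, l.Perm (List.range n) → 2 * ham W l ≤ 3 * ham W (atsp n W) := by
  refine ⟨(hamPath_spec n W _ (isPC_pathCover n W)).1, fun l hl => ?_⟩
  have h1 := (hamPath_spec n W _ (isPC_pathCover n W)).2
  have h2 := pathCover_weight n W l hl
  unfold atsp
  omega

end Vale.Agent.Lib.P333.Alg
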