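import Mathlib

/-!
P333, module RAUZY.  If a word `T` contains all windows of length `o c` of pairwise
non-conjugate primitive circular words of lengths `w c`, then `∑ (o c - w c) ≤ |T|`
(truncated subtraction).
-/

namespace Vale.Agent.Lib.P333

open Finset

variable {α : Type*}

/-- the window of length `k` at position `i` of the infinite word `f` -/
def window (f : ℕ → α) (i k : ℕ) : List α := (List.range k).map (fun j => f (i + j))

/-- `p` is the least positive period of the infinite word `f` -/
def PrimPeriod (f : ℕ → α) (p : ℕ) : Prop :=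
  0 < p ∧ (∀ i, f (i + p) = f i) ∧ ∀ q, 0 < q → (∀ i, f (i + q) = f i) → p ≤ q

/-! ### windows -/

theorem window_length (f : ℕ → α) (i k : ℕ) : (window f i k).length = k := by simp [window]

theorem window_getElem (f : ℕ → α) (i k j : ℕ) (h : j < (window f i k).length) :
    (window f i k)[j] = f (i + j) := by simp [window]

theorem window_take (f : ℕ → α) (i k : ℕ) : (window f i (k + 1)).take k = window f i k := by
  apply List.ext_getElem
  · simp [window_length]
  · intro n h1 h2
    rw [List.getElem_take, window_getElem, window_getElem]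

theorem window_take_le (f : ℕ → α) (i : ℕ) {k m : ℕ} (h : k ≤ m) :
    (window f i m).take k = window f i k := by
  apply List.ext_getElem
  · simp [window_length, h]
  · intro n h1 h2
    rw [List.getElem_take, window_getElem, window_getElem]

theorem window_drop (f : ℕ → α) (i k : ℕ) : (window f i (k + 1)).drop 1 = window f (i + 1) k := by
  apply List.ext_getElem
  · simp [window_length]
  · intro n h1 h2
    rw [List.getElem_drop, window_getElem, window_getElem]
    congr 1
    ring

theorem window_eq_iff {f g : ℕ → α} {i i' L : ℕ} :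
    window f i L = window g i' L ↔ ∀ j < L, f (i + j) = g (i' + j) := by
  constructor
  · intro h j hj
    have h1 : j < (window f i L).length := by rw [window_length]; exact hj
    have h2 : j < (window g i' L).length := by rw [window_length]; exact hj
    rw [← window_getElem f i L j h1, ← window_getElem g i' L j h2]
    congr 1
  · intro h
    apply List.ext_getElem
    · rw [window_length, window_length]
    · intro n h1 h2
      rw [window_getElem, window_getElem]
      rw [window_length] at h1
      exact h n h1

theorem window_add_period {f : ℕ → α} {p : ℕ} (hper : ∀ i, f (i + p) = f i) (i L : ℕ) :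
    window f (i + p) L = window f i L := by
  rw [window_eq_iff]
  intro j _
  rw [show i + p + j = (i + j) + p by ring, hper]

theorem window_mod {f : ℕ → α} {p : ℕ} (hper : ∀ i, f (i + p) = f i) (i L : ℕ) :
    window f i L = window f (i % p) L := by
  have hP : Function.Periodic (fun i => window f i L) p := fun i => window_add_period hper i L
  exact (hP.map_mod_nat i).symm

theorem window_le [LinearOrder α] {f g : ℕ → α} {i i' L : ℕ}
    (h : window f i L ≤ window g i' L) {m : ℕ} (hm : m < L)
    (hj : ∀ j < m, f (i + j) = g (i' + j)) : f (i + m) ≤ g (i' + m) := by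
  by_contra hcon
  rw [not_le] at hcon
  refine absurd h (not_le.2 ?_)
  rw [List.lt_iff_exists]
  right
  refine ⟨m, by rw [window_length]; exact hm, by rw [window_length]; exact hm, ?_, ?_⟩
  · intro j hjm
    rw [window_getElem, window_getElem]
    exact (hj j hjm).symm
  · rw [window_getElem, window_getElem]
    exact hcon

/-! ### periods -/

theorem eq_of_eq_of_period {f g : ℕ → α} {p : ℕ} (hp : 0 < p) (hf : ∀ i, f (i + p) = f i)
    (hg : ∀ i, g (i + p) = g i) (h : ∀ i < p, f i = g i) (i : ℕ) : f i = g i := by
  have hF : Function.Periodic f p := hf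
  have hG : Function.Periodic g p := hg
  rw [← hF.map_mod_nat i, ← hG.map_mod_nat i]
  exact h _ (Nat.mod_lt _ hp)

theorem PrimPeriod.shift {g : ℕ → α} {q : ℕ} (h : PrimPeriod g q) (j : ℕ) :
    PrimPeriod (fun i => g (j + i)) q := by
  obtain ⟨h0, hper, hmin⟩ := h
  refine ⟨h0, fun i => ?_, fun r hr hr' => hmin r hr fun i => ?_⟩
  · change g (j + (i + q)) = g (j + i)
    rw [← add_assoc]
    exact hper _
  · have hP : Function.Periodic g q := hper
    have h1 := hr' (i + j * (q - 1))
    have h2 : j + (i + j * (q - 1)) = i + j * q := by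
      obtain ⟨q', rfl⟩ : ∃ q', q = q' + 1 := ⟨q - 1, by omega⟩
      simp only [Nat.add_sub_cancel]
      ring
    have h3 : j + (i + j * (q - 1) + r) = i + r + j * q := by
      rw [← add_assoc, h2]
      ring
    simp only at h1
    rw [h2, h3] at h1
    have h4 : g (i + r + j * q) = g (i + r) := hP.nat_mul j (i + r)
    have h5 : g (i + j * q) = g i := hP.nat_mul j i
    rw [h4, h5] at h1
    exact h1

/-- a maximal rotation of a primitive word is unbordered -/
theorem unbordered [LinearOrder α] {g : ℕ → α} {q : ℕ} (hg : PrimPeriod g q)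
    (hmax : ∀ i, ∀ m < q, (∀ j < m, g (i + j) = g j) → g (i + m) ≤ g m) {p : ℕ} (hp : 0 < p)
    (hpq : p < q) : ¬ ∀ j, j + p < q → g (j + p) = g j := by
  intro hb
  obtain ⟨-, hper, hmin⟩ := hg
  obtain ⟨b, rfl⟩ : ∃ b, q = p + b := ⟨q - p, by omega⟩
  have key : ∀ m, m < p → g (b + m) = g m := by
    intro m
    induction m using Nat.strong_induction_on with
    | _ m ih =>
      intro hm
      have h2 : g (b + m) ≤ g m := hmax b m (by omega) (fun j hj => ih j hj (by omega))
      have h1 : g (p + (b + m)) ≤ g (b + m) := by
        apply hmax p (b + m) (by omega)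
        intro j hj
        by_cases hjb : j < b
        · rw [add_comm p j]
          exact hb j (by omega)
        · obtain ⟨t, rfl⟩ : ∃ t, j = b + t := ⟨j - b, by omega⟩
          rw [show p + (b + t) = t + (p + b) by ring, hper]
          exact (ih t (by omega) (by omega)).symm
      rw [show p + (b + m) = m + (p + b) by ring, hper] at h1
      exact le_antisymm h2 h1
  have key2 : ∀ m, m < p + b → g (m + b) = g m := by
    intro m hm
    by_cases hmp : m < p
    · rw [add_comm]
      exact key m hmp
    · obtain ⟨t, rfl⟩ : ∃ t, m = t + p := ⟨m - p, by omega⟩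
      rw [add_assoc, hper]
      exact (hb t (by omega)).symm
  have key3 : ∀ i, g (i + b) = g i := by
    apply eq_of_eq_of_period (p := p + b) (f := fun i => g (i + b)) (by omega) _ hper key2
    intro i
    rw [show i + (p + b) + b = (i + b) + (p + b) by ring, hper]
  exact absurd (hmin b (by omega) key3) (by omega)

theorem exists_max_window [LinearOrder α] {f : ℕ → α} {p : ℕ} (hp : 0 < p)
    (hper : ∀ i, f (i + p) = f i) (L : ℕ) : ∃ i₀, ∀ i, window f i L ≤ window f i₀ L := by
  obtain ⟨i₀, -, h⟩ := Finset.exists_max_image (Finset.range p) (fun i => window f i L)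
    ⟨0, Finset.mem_range.2 hp⟩
  refine ⟨i₀, fun i => ?_⟩
  rw [window_mod hper i]
  exact h _ (Finset.mem_range.2 (Nat.mod_lt _ hp))

/-- The maximal windows of non-conjugate primitive words are distinct. -/
theorem conj_of_max_eq [LinearOrder α] {f g : ℕ → α} {p q L : ℕ} (hf : PrimPeriod f p)
    (hg : PrimPeriod g q) (hpq : p ≤ q) (hq : q ≤ L) {i₀ j₀ : ℕ}
    (hj : ∀ j, window g j L ≤ window g j₀ L)
    (h : window f i₀ L = window g j₀ L) : ∃ k, (fun i => f (i + k)) = g := by
  rw [window_eq_iff] at h
  rcases hpq.lt_or_eq with hlt | rfl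
  · exfalso
    refine unbordered (hg.shift j₀) ?_ hf.1 hlt ?_
    · intro i m hm hjm
      have h1 : window g (j₀ + i) L ≤ window g j₀ L := hj _
      have h2 := window_le h1 (m := m) (by omega) (fun j hj => by
        have := hjm j hj
        rw [add_assoc]
        exact this)
      rw [add_assoc] at h2
      exact h2
    · intro j hjq
      rw [← h (j + p) (by omega), ← h j (by omega), ← add_assoc, hf.2.1]
  · have h1 : ∀ i, f (i₀ + i) = g (j₀ + i) := by
      apply eq_of_eq_of_period hf.1 (f := fun i => f (i₀ + i)) (g := fun i => g (j₀ + i))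
      · intro i
        rw [← add_assoc]
        exact hf.2.1 _
      · intro i
        rw [← add_assoc]
        exact hg.2.1 _
      · intro i hi
        exact h i (by omega)
    have hp := hf.1
    have hP : Function.Periodic g p := hg.2.1
    refine ⟨i₀ + j₀ * (p - 1), ?_⟩
    funext i
    have h2 := h1 (i + j₀ * (p - 1))
    have h3 : j₀ + (i + j₀ * (p - 1)) = i + j₀ * p := by
      obtain ⟨q', rfl⟩ : ∃ q', p = q' + 1 := ⟨p - 1, by omega⟩
      simp only [Nat.add_sub_cancel]
      ring
    have h5 : g (i + j₀ * p) = g i := hP.nat_mul j₀ i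
    rw [h3, h5] at h2
    rw [← h2]
    congr 1
    ring

/-- the maximal window occurs once in a period -/
theorem window_lt_max [LinearOrder α] {f : ℕ → α} {p L : ℕ} (hf : PrimPeriod f p) (hp : p ≤ L)
    {i₀ : ℕ} (hi : ∀ i, window f i L ≤ window f i₀ L) {j : ℕ} (hj0 : 0 < j) (hj : j < p) :
    window f (i₀ + j) L < window f i₀ L := by
  refine lt_of_le_of_ne (hi _) fun h => ?_
  rw [window_eq_iff] at h
  have h1 := (hf.shift i₀).2.2 j hj0 ?_
  · omega
  · apply eq_of_eq_of_period hf.1 (f := fun i => f (i₀ + (i + j))) (g := fun i => f (i₀ + i))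
    · intro i
      rw [show i₀ + (i + p + j) = i₀ + (i + j) + p by ring]
      exact hf.2.1 _
    · intro i
      rw [← add_assoc]
      exact hf.2.1 _
    · intro i hi
      have := h i (by omega)
      rw [← this]
      congr 1
      ring

/-! ### factors -/

open Classical in
/-- the factors of length `k` (for `k ≤ |T|`) -/
noncomputable def fac (T : List α) (k : ℕ) : Finset (List α) :=
  (Finset.range (T.length - k + 1)).image (fun i => (T.drop i).take k)

theorem mem_fac {T : List α} {k : ℕ} (x : List α) (hk : k ≤ T.length) :
    x ∈ fac T k ↔ x.length = k ∧ x <:+: T := by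
  classical
  unfold fac
  rw [Finset.mem_image]
  constructor
  · rintro ⟨i, hi, rfl⟩
    rw [Finset.mem_range] at hi
    refine ⟨?_, ?_⟩
    · rw [List.length_take, List.length_drop]
      omega
    · exact (List.take_prefix _ _).isInfix.trans (List.drop_suffix _ _).isInfix
  · rintro ⟨hx, s, t, hst⟩
    refine ⟨s.length, ?_, ?_⟩
    · rw [Finset.mem_range, ← hst]
      simp only [List.length_append]
      omega
    · rw [← hst, List.append_assoc, List.drop_left, ← hx, List.take_left]

theorem exists_of_mem_fac {T : List α} {k : ℕ} {x : List α} (hx : x ∈ fac T k) :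
    ∃ i ≤ T.length - k, (T.drop i).take k = x := by
  classical
  unfold fac at hx
  rw [Finset.mem_image] at hx
  obtain ⟨i, hi, rfl⟩ := hx
  rw [Finset.mem_range] at hi
  exact ⟨i, by omega, rfl⟩

theorem card_fac_zero (T : List α) : (fac T 0).card = 1 := by
  classical
  unfold fac
  have : (Finset.range (T.length - 0 + 1)).image (fun i => (T.drop i).take 0) =
      {([] : List α)} := by
    ext x
    simp only [List.take_zero, Finset.mem_image, Finset.mem_range, Finset.mem_singleton]
    constructor
    · rintro ⟨_, _, rfl⟩
      rfl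
    · rintro rfl
      exact ⟨0, by omega, rfl⟩
  rw [this, Finset.card_singleton]

theorem card_fac_length (T : List α) : (fac T T.length).card ≤ 1 := by
  classical
  unfold fac
  refine Finset.card_image_le.trans ?_
  simp

/-- A connectivity count. -/
theorem card_le_of_connected {β : Type*} (V E : Finset β) (src tgt : β → β)
    (hsrc : ∀ x ∈ E, src x ∈ V) (htgt : ∀ x ∈ E, tgt x ∈ V)
    (h : ∀ φ : β → ℚ, (∀ x ∈ E, φ (src x) = φ (tgt x)) → ∀ u ∈ V, ∀ v ∈ V, φ u = φ v) :
    V.card ≤ E.card + 1 := by
  classical
  let Φ : (V → ℚ) →ₗ[ℚ] (E → ℚ) :=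
    { toFun := fun φ x => φ ⟨src x.1, hsrc x.1 x.2⟩ - φ ⟨tgt x.1, htgt x.1 x.2⟩
      map_add' := fun φ ψ => by
        funext x
        simp only [Pi.add_apply]
        ring
      map_smul' := fun c φ => by
        funext x
        simp only [Pi.smul_apply, smul_eq_mul, RingHom.id_apply]
        ring }
  have hker : LinearMap.ker Φ ≤ Submodule.span ℚ {(fun _ => 1 : V → ℚ)} := by
    intro φ hφ
    rw [LinearMap.mem_ker] at hφ
    rw [Submodule.mem_span_singleton]
    by_cases hV : V.Nonempty
    · obtain ⟨v₀, hv₀⟩ := hV
      refine ⟨φ ⟨v₀, hv₀⟩, ?_⟩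
      funext v
      simp only [Pi.smul_apply, smul_eq_mul, mul_one]
      have h1 := h (fun b => if hb : b ∈ V then φ ⟨b, hb⟩ else 0) ?_ v₀ hv₀ v.1 v.2
      · simp only [dif_pos hv₀, dif_pos v.2] at h1
        exact h1
      · intro x hx
        rw [dif_pos (hsrc x hx), dif_pos (htgt x hx)]
        have := congrFun hφ ⟨x, hx⟩
        exact sub_eq_zero.1 this
    · refine ⟨0, ?_⟩
      funext v
      exact absurd ⟨v.1, v.2⟩ hV
  have h1 := LinearMap.finrank_range_add_finrank_ker Φ
  have h2 : Module.finrank ℚ (LinearMap.ker Φ) ≤ 1 := by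
    refine (Submodule.finrank_mono hker).trans ?_
    exact (finrank_span_le_card _).trans (by simp)
  have h3 : Module.finrank ℚ (LinearMap.range Φ) ≤ E.card := by
    refine (Submodule.finrank_le _).trans ?_
    rw [Module.finrank_fintype_fun_eq_card, Fintype.card_coe]
  rw [Module.finrank_fintype_fun_eq_card, Fintype.card_coe] at h1
  omega

theorem infix_of_window {f : ℕ → α} {T : List α} {o : ℕ} (h : ∀ i, window f i o <:+: T) {k : ℕ}
    (hk : k ≤ o) (i : ℕ) : window f i k <:+: T := by
  rw [← window_take_le f i hk]
  exact (List.take_prefix _ _).isInfix.trans (h i)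

/-- The count for one level of the Rauzy graphs. -/
theorem rauzy_level {ι : Type*} (s : Finset ι) (T : List α) (f : ι → ℕ → α) (w o : ι → ℕ)
    (hw : ∀ c ∈ s, PrimPeriod (f c) (w c))
    (hne : ∀ c ∈ s, ∀ d ∈ s, c ≠ d → ∀ k, (fun i => f c (i + k)) ≠ f d)
    (hwin : ∀ c ∈ s, ∀ i, window (f c) i (o c) <:+: T) (k : ℕ) (hk : k < T.length) :
    (s.filter (fun c => w c ≤ k ∧ k < o c)).card + (fac T k).card ≤
      (fac T (k + 1)).card + 1 := by
  classical
  let _ : LinearOrder α := linearOrderOfSTO WellOrderingRel
  set S := s.filter (fun c => w c ≤ k ∧ k < o c) with hS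
  have hSs : ∀ c ∈ S, c ∈ s ∧ w c ≤ k ∧ k < o c := fun c hc => by
    rw [hS, Finset.mem_filter] at hc
    exact hc
  have hex : ∀ c : ι, ∃ i₀, c ∈ s → ∀ i, window (f c) i (k + 1) ≤ window (f c) i₀ (k + 1) := by
    intro c
    by_cases hc : c ∈ s
    · obtain ⟨i₀, h⟩ := exists_max_window (hw c hc).1 (hw c hc).2.1 (k + 1)
      exact ⟨i₀, fun _ => h⟩
    · exact ⟨0, fun h => absurd h hc⟩
  choose pos hpos using hex
  set e : ι → List α := fun c => window (f c) (pos c) (k + 1) with he
  have hE : ∀ c ∈ S, e c ∈ fac T (k + 1) := by
    intro c hc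
    rw [mem_fac _ (by omega)]
    exact ⟨window_length _ _ _, infix_of_window (hwin c (hSs c hc).1) (by
      have := (hSs c hc).2.2
      omega) _⟩
  have hinj : Set.InjOn e (S : Set ι) := by
    intro c hc d hd hcd
    by_contra hcd'
    have hc' := hSs c hc
    have hd' := hSs d hd
    rcases le_total (w c) (w d) with hle | hle
    · obtain ⟨t, ht⟩ := conj_of_max_eq (hw c hc'.1) (hw d hd'.1) hle
        (by omega) (hpos d hd'.1) hcd
      exact hne c hc'.1 d hd'.1 hcd' t ht
    · obtain ⟨t, ht⟩ := conj_of_max_eq (hw d hd'.1) (hw c hc'.1) hle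
        (by omega) (hpos c hc'.1) hcd.symm
      exact hne d hd'.1 c hc'.1 (Ne.symm hcd') t ht
  have hcard : ((fac T (k + 1)) \ (S.image e)).card + S.card = (fac T (k + 1)).card := by
    have h1 : S.image e ⊆ fac T (k + 1) := by
      intro x hx
      rw [Finset.mem_image] at hx
      obtain ⟨c, hc, rfl⟩ := hx
      exact hE c hc
    rw [← Finset.card_image_of_injOn hinj]
    exact Finset.card_sdiff_add_card_eq_card h1
  have hmain : (fac T k).card ≤ ((fac T (k + 1)) \ (S.image e)).card + 1 := by
    have hsd : ∀ x ∈ fac T (k + 1), x.take k ∈ fac T k ∧ x.drop 1 ∈ fac T k := by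
      intro x hx
      rw [mem_fac _ (by omega)] at hx
      rw [mem_fac _ (by omega), mem_fac _ (by omega)]
      refine ⟨⟨?_, (List.take_prefix _ _).isInfix.trans hx.2⟩,
        ⟨?_, (List.drop_suffix _ _).isInfix.trans hx.2⟩⟩
      · rw [List.length_take, hx.1]
        omega
      · rw [List.length_drop, hx.1]
        omega
    apply card_le_of_connected (fac T k) ((fac T (k + 1)) \ (S.image e))
      (fun x => x.take k) (fun x => x.drop 1)
    · intro x hx
      exact (hsd x (Finset.mem_sdiff.1 hx).1).1
    · intro x hx
      exact (hsd x (Finset.mem_sdiff.1 hx).1).2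
    · intro φ hφ
      -- the relation holds for all edges
      have hall : ∀ x ∈ fac T (k + 1), φ (x.take k) = φ (x.drop 1) := by
        by_contra hcon
        push Not at hcon
        obtain ⟨y, hy, hyne⟩ := hcon
        set B := (fac T (k + 1)).filter (fun x => φ (x.take k) ≠ φ (x.drop 1)) with hB
        have hBne : B.Nonempty := ⟨y, Finset.mem_filter.2 ⟨hy, hyne⟩⟩
        obtain ⟨x, hxB, hxmin⟩ := Finset.exists_min_image B id hBne
        obtain ⟨hxF, hxne⟩ := Finset.mem_filter.1 hxB
        have hgood : ∀ z ∈ fac T (k + 1), z < x → φ (z.take k) = φ (z.drop 1) := by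
          intro z hz hzx
          by_contra hzne
          have := hxmin z (Finset.mem_filter.2 ⟨hz, hzne⟩)
          exact absurd hzx (not_lt.2 this)
        have hxS : x ∈ S.image e := by
          by_contra hxS
          exact hxne (hφ x (Finset.mem_sdiff.2 ⟨hxF, hxS⟩))
        rw [Finset.mem_image] at hxS
        obtain ⟨c, hc, rfl⟩ := hxS
        have hc' := hSs c hc
        have hprim := hw c hc'.1
        have hwin' : ∀ i, window (f c) i (k + 1) ∈ fac T (k + 1) := by
          intro i
          rw [mem_fac _ (by omega)]
          exact ⟨window_length _ _ _, infix_of_window (hwin c hc'.1) (by omega) _⟩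
        have hstep : ∀ j, 0 < j → j < w c → φ (window (f c) (pos c + j) k) =
            φ (window (f c) (pos c + j + 1) k) := by
          intro j hj0 hj
          have h1 := hgood _ (hwin' (pos c + j))
            (window_lt_max hprim (by omega) (hpos c hc'.1) hj0 hj)
          rw [window_take, window_drop] at h1
          exact h1
        have hchain : ∀ j, 0 < j → j ≤ w c → φ (window (f c) (pos c + 1) k) =
            φ (window (f c) (pos c + j) k) := by
          intro j
          induction j with
          | zero => intro h; omega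
          | succ j ih =>
            intro _ hj
            rcases Nat.eq_zero_or_pos j with rfl | hj0
            · rfl
            · rw [ih hj0 (by omega), hstep j hj0 (by omega)]
              rfl
        apply hxne
        change φ ((window (f c) (pos c) (k + 1)).take k) =
          φ ((window (f c) (pos c) (k + 1)).drop 1)
        rw [window_take, window_drop, hchain (w c) hprim.1 le_rfl,
          window_add_period hprim.2.1]
      -- walk along the word
      have hwalk : ∀ i, i ≤ T.length - k → φ ((T.drop i).take k) = φ (T.take k) := by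
        intro i
        induction i with
        | zero => intro _; rfl
        | succ i ih =>
          intro hi
          rw [← ih (by omega)]
          have h1 : (T.drop i).take (k + 1) ∈ fac T (k + 1) := by
            rw [mem_fac _ (by omega)]
            refine ⟨?_, (List.take_prefix _ _).isInfix.trans (List.drop_suffix _ _).isInfix⟩
            rw [List.length_take, List.length_drop]
            omega
          have h2 := hall _ h1
          rw [List.take_take, min_eq_left (Nat.le_succ k), List.drop_take, List.drop_drop,
            Nat.add_sub_cancel] at h2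
          rw [← h2]
      intro u hu v hv
      have : ∀ u ∈ fac T k, φ u = φ (T.take k) := by
        intro u hu
        obtain ⟨i, hi, rfl⟩ := exists_of_mem_fac hu
        exact hwalk i hi
      rw [this u hu, this v hv]
  omega

theorem rauzy {ι : Type*} (s : Finset ι) (T : List α) (f : ι → ℕ → α) (w o : ι → ℕ)
    (hw : ∀ c ∈ s, PrimPeriod (f c) (w c))
    (hne : ∀ c ∈ s, ∀ d ∈ s, c ≠ d → ∀ k, (fun i => f c (i + k)) ≠ f d)
    (hwin : ∀ c ∈ s, ∀ i, window (f c) i (o c) <:+: T) :
    ∑ c ∈ s, (o c - w c) ≤ T.length := by
  classical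
  have ho : ∀ c ∈ s, o c ≤ T.length := by
    intro c hc
    have h1 := (hwin c hc 0).length_le
    rwa [window_length] at h1
  have h1 : ∑ c ∈ s, (o c - w c) = ∑ k ∈ Finset.range T.length,
      (s.filter (fun c => w c ≤ k ∧ k < o c)).card := by
    simp only [Finset.card_filter]
    rw [Finset.sum_comm]
    refine Finset.sum_congr rfl fun c hc => ?_
    rw [← Finset.card_filter]
    have h2 : (Finset.range T.length).filter (fun k => w c ≤ k ∧ k < o c) =
        Finset.Ico (w c) (o c) := by
      ext k
      rw [Finset.mem_filter, Finset.mem_range, Finset.mem_Ico]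
      have := ho c hc
      constructor
      · rintro ⟨-, h⟩
        exact h
      · intro h
        exact ⟨by omega, h⟩
    rw [h2, Nat.card_Ico]
  have h2 : ∀ m, m ≤ T.length → ∑ k ∈ Finset.range m,
      (s.filter (fun c => w c ≤ k ∧ k < o c)).card + 1 ≤ (fac T m).card + m := by
    intro m
    induction m with
    | zero =>
      intro _
      simp [card_fac_zero]
    | succ m ih =>
      intro hm
      have h3 := ih (by omega)
      have h4 := rauzy_level s T f w o hw hne hwin m (by omega)
      rw [Finset.sum_range_succ]
      omega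
  have h3 := h2 T.length le_rfl
  have h4 := card_fac_length T
  rw [h1]
  omega

end Vale.Agent.Lib.P333
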