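import Mathlib

/-!
P333, module STR.  Overlaps, merging a list of strings, and the order given by a superstring.
-/

namespace Vale.Agent.Lib.P333

variable {α : Type*} [DecidableEq α]

/-- longest proper overlap: the largest `k` with `k < |s|`, `k < |t|` such that the last `k`
letters of `s` are the first `k` letters of `t` (`0` if there is none) -/
def ov (s t : List α) : ℕ :=
  Nat.findGreatest (fun k => k < t.length ∧ s.drop (s.length - k) = t.take k) (s.length - 1)

/-- the distance `|s| - ov s t` -/
def dist (s t : List α) : ℕ := s.length - ov s t

/-- merge a list of strings, consecutive strings being overlapped as much as possible -/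
def merge : List (List α) → List α
  | [] => []
  | [s] => s
  | s :: t :: l => s.take (dist s t) ++ merge (t :: l)

/-- sum of consecutive overlaps -/
def ovsum : List (List α) → ℕ
  | s :: t :: l => ov s t + ovsum (t :: l)
  | _ => 0

theorem ov_lt_left {s t : List α} (hs : s ≠ []) : ov s t < s.length := by
  have h1 : ov s t ≤ s.length - 1 := Nat.findGreatest_le _
  have h2 : 0 < s.length := List.length_pos_iff.mpr hs
  omega

theorem ov_lt_right {s t : List α} (ht : t ≠ []) : ov s t < t.length := by
  have h2 : 0 < t.length := List.length_pos_iff.mpr ht
  by_cases h : ov s t = 0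
  · omega
  · exact (Nat.findGreatest_of_ne_zero (rfl : ov s t = ov s t) h).1

theorem ov_spec (s t : List α) : s.drop (s.length - ov s t) = t.take (ov s t) := by
  by_cases h : ov s t = 0
  · rw [h]; simp
  · exact (Nat.findGreatest_of_ne_zero (rfl : ov s t = ov s t) h).2

theorem le_ov {s t : List α} {k : ℕ} (h1 : k < s.length) (h2 : k < t.length)
    (h : s.drop (s.length - k) = t.take k) : k ≤ ov s t :=
  Nat.le_findGreatest (by omega) ⟨h2, h⟩

theorem ov_le_left (s t : List α) : ov s t ≤ s.length := by
  have h1 : ov s t ≤ s.length - 1 := Nat.findGreatest_le _
  omega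

theorem length_merge (l : List (List α)) :
    (merge l).length + ovsum l = (l.map List.length).sum := by
  induction l with
  | nil => simp [merge, ovsum]
  | cons s l ih =>
    cases l with
    | nil => simp [merge, ovsum]
    | cons t l =>
      have h := ov_le_left s t
      simp only [merge, ovsum, List.length_append, List.length_take, List.map_cons,
        List.sum_cons] at ih ⊢
      unfold dist
      omega

theorem prefix_merge (s : List α) (l : List (List α)) : s <+: merge (s :: l) := by
  induction l generalizing s with
  | nil => simp [merge]
  | cons t l ih =>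
    obtain ⟨r, hr⟩ := ih t
    refine ⟨t.drop (ov s t) ++ r, ?_⟩
    have h1 : s.take (dist s t) ++ t.take (ov s t) = s := by
      rw [← ov_spec s t]
      exact List.take_append_drop _ _
    calc s ++ (t.drop (ov s t) ++ r)
        = (s.take (dist s t) ++ t.take (ov s t)) ++ (t.drop (ov s t) ++ r) := by rw [h1]
      _ = s.take (dist s t) ++ ((t.take (ov s t) ++ t.drop (ov s t)) ++ r) := by
          simp only [List.append_assoc]
      _ = s.take (dist s t) ++ merge (t :: l) := by rw [List.take_append_drop, hr]
      _ = merge (s :: t :: l) := by simp [merge]

theorem infix_merge {l : List (List α)} {s : List α} (h : s ∈ l) : s <:+: merge l := by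
  induction l with
  | nil => simp at h
  | cons t l ih =>
    rcases List.mem_cons.mp h with h | h
    · subst h
      exact (prefix_merge s l).isInfix
    · cases l with
      | nil => simp at h
      | cons u l =>
        have h2 := ih h
        have h3 : merge (u :: l) <:+ merge (t :: u :: l) := by
          simp only [merge]
          exact List.suffix_append _ _
        exact h2.trans h3.isInfix

/-- the string `s` occurs in `T` at position `p` -/
def OccAt (s T : List α) (p : ℕ) : Prop := s <+: T.drop p

omit [DecidableEq α] in
theorem exists_occAt {s T : List α} (h : s <:+: T) : ∃ p, OccAt s T p := by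
  obtain ⟨a, b, hab⟩ := h
  refine ⟨a.length, b, ?_⟩
  rw [← hab, List.append_assoc, List.drop_left]

omit [DecidableEq α] in
theorem occAt_length_le {s T : List α} {p : ℕ} (hs : s ≠ []) (h : OccAt s T p) :
    p + s.length ≤ T.length := by
  have h1 := List.IsPrefix.length_le h
  rw [List.length_drop] at h1
  have h2 : 0 < s.length := List.length_pos_iff.mpr hs
  omega

omit [DecidableEq α] in
theorem OccAt.drop {s T : List α} {p : ℕ} (h : OccAt s T p) (k : ℕ) :
    OccAt (s.drop k) T (p + k) := by
  unfold OccAt at h ⊢
  rw [← List.drop_drop]
  exact h.drop k

/-- distance is at most the difference of the positions -/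
theorem dist_le_of_occAt {s t T : List α} {p q : ℕ} (hs : OccAt s T p) (ht : OccAt t T q)
    (hpq : p < q) (hts : ¬ t <:+: s) : dist s t ≤ q - p := by
  unfold dist
  by_cases hbig : s.length ≤ q - p
  · omega
  push Not at hbig
  have h1 : OccAt (s.drop (q - p)) T q := by
    have := hs.drop (q - p)
    rwa [show p + (q - p) = q by omega] at this
  have hlen : s.length - (q - p) < t.length := by
    by_contra hcon
    push Not at hcon
    have h2 : t <+: s.drop (q - p) := by
      refine List.prefix_of_prefix_length_le ht h1 ?_
      rw [List.length_drop]
      exact hcon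
    exact hts (h2.isInfix.trans (List.drop_suffix _ _).isInfix)
  have h3 : s.drop (q - p) <+: t := by
    refine List.prefix_of_prefix_length_le h1 ht ?_
    rw [List.length_drop]
    exact hlen.le
  have h4 : s.length - (q - p) ≤ ov s t := by
    refine le_ov (by omega) hlen ?_
    rw [show s.length - (s.length - (q - p)) = q - p by omega]
    rw [List.prefix_iff_eq_take] at h3
    rw [List.length_drop] at h3
    exact h3
  omega

/-- positions increasing along the list: the merge fits -/
theorem merge_length_le_of_sorted {ι : Type*} (s : ι → List α) (hne : ∀ i, s i ≠ [])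
    (hfree : ∀ i j, i ≠ j → ¬ s i <:+: s j) (T : List α) (pos : ι → ℕ)
    (hpos : ∀ i, OccAt (s i) T (pos i)) (i : ι) (l : List ι)
    (hl : (i :: l).Pairwise (fun a b => pos a < pos b)) :
    pos i + (merge ((i :: l).map s)).length ≤ T.length := by
  induction l generalizing i with
  | nil =>
    simp only [List.map_cons, List.map_nil, merge]
    exact occAt_length_le (hne i) (hpos i)
  | cons j l ih =>
    have h1 : pos i < pos j := (List.pairwise_cons.mp hl).1 j (by simp)
    have h2 := ih j (List.pairwise_cons.mp hl).2
    have hij : j ≠ i := by
      rintro rfl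
      exact lt_irrefl _ h1
    have h3 := dist_le_of_occAt (hpos i) (hpos j) h1 (hfree j i hij)
    simp only [List.map_cons, merge, List.length_append, List.length_take] at h2 ⊢
    have h4 : min (dist (s i) (s j)) (s i).length ≤ dist (s i) (s j) := min_le_left _ _
    omega

/-- a superstring of a substring-free family gives an order whose merge is at most as long -/
theorem exists_order {ι : Type*} [Fintype ι] (s : ι → List α) (hne : ∀ i, s i ≠ [])
    (hfree : ∀ i j, i ≠ j → ¬ s i <:+: s j) (T : List α) (hT : ∀ i, s i <:+: T) :
    ∃ l : List ι, l.Nodup ∧ (∀ i, i ∈ l) ∧ (merge (l.map s)).length ≤ T.length := by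
  classical
  choose pos hpos using fun i => exists_occAt (hT i)
  have hinj : Function.Injective pos := by
    intro i j hij
    by_contra hne'
    have h1 := hpos i
    have h2 := hpos j
    rw [hij] at h1
    rcases le_total (s i).length (s j).length with h | h
    · exact hfree i j hne' (List.prefix_of_prefix_length_le h1 h2 h).isInfix
    · exact hfree j i (Ne.symm hne') (List.prefix_of_prefix_length_le h2 h1 h).isInfix
  set L : List ι := (Finset.univ : Finset ι).toList.mergeSort (fun a b => decide (pos a ≤ pos b))
    with hL
  have hperm : L.Perm (Finset.univ : Finset ι).toList := List.mergeSort_perm _ _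
  have hnodup : L.Nodup := hperm.nodup_iff.mpr (Finset.nodup_toList _)
  have hmem : ∀ i, i ∈ L := fun i => hperm.mem_iff.mpr (by simp)
  have hsort : L.Pairwise (fun a b => decide (pos a ≤ pos b) = true) :=
    List.pairwise_mergeSort (fun a b c hab hbc => by simp at *; omega)
      (fun a b => by simp; omega) _
  have hlt : L.Pairwise (fun a b => pos a < pos b) := by
    have h := hsort.and hnodup
    refine h.imp ?_
    rintro a b ⟨h1, h2⟩
    have h1' : pos a ≤ pos b := by simpa using h1
    exact lt_of_le_of_ne h1' (fun h => h2 (hinj h))
  refine ⟨L, hnodup, hmem, ?_⟩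
  rcases hcase : L with _ | ⟨i, l⟩
  · simp [merge]
  · rw [hcase] at hlt
    have := merge_length_le_of_sorted s hne hfree T pos hpos i l hlt
    omega

end Vale.Agent.Lib.P333
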