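import Mathlib
import Vale.Agent.Lib.P333.Str
import Vale.Agent.Lib.P333.Rauzy

/-!
P333, module CYC, definitions.  Structure of a minimum weight cycle cover of a substring-free
family of strings.
-/

namespace Vale.Agent.Lib.P333

variable {α : Type*} [DecidableEq α] {ι : Type*} [Fintype ι] [DecidableEq ι]

/-- the cycle of `r` as a list `[r, σ r, σ (σ r), …]` -/
noncomputable def cyc (σ : Equiv.Perm ι) (r : ι) : List ι :=
  (List.range (Function.minimalPeriod σ r)).map (fun k => (σ^[k]) r)

/-- the cycle of `r`, opened at the edge entering `r`, as a string -/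
noncomputable def opened (s : ι → List α) (σ : Equiv.Perm ι) (r : ι) : List α :=
  merge ((cyc σ r).map s)

/-- weight of a permutation -/
def cw (s : ι → List α) (σ : Equiv.Perm ι) : ℕ := ∑ i, dist (s i) (s (σ i))

/-- standing assumptions: nonempty strings, none an infix of another one, `σ` of minimum weight,
`reps` a set of representatives of the cycles, the edge entering each having minimum overlap -/
structure CycData (s : ι → List α) (σ : Equiv.Perm ι) (reps : Finset ι) : Prop where
  hne : ∀ i, s i ≠ []
  hfree : ∀ i j, i ≠ j → ¬ s i <:+: s j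
  hmin : ∀ τ : Equiv.Perm ι, cw s σ ≤ cw s τ
  hrep : ∀ i, ∃! r, r ∈ reps ∧ σ.SameCycle r i
  hov : ∀ r ∈ reps, ∀ i, σ.SameCycle r i → ov (s (σ⁻¹ r)) (s r) ≤ ov (s (σ⁻¹ i)) (s i)

variable {s : ι → List α} {σ : Equiv.Perm ι} {reps : Finset ι}

end Vale.Agent.Lib.P333
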