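import Mathlib
import Vale.Agent.Lib.P333.CycDefs

/-!
P333, module CYC2.  Lengths of the opened cycles, the main inequality and the ratio 7/3.
-/

namespace Vale.Agent.Lib.P333

variable {α : Type*} [DecidableEq α] {ι : Type*} [Fintype ι] [DecidableEq ι]
variable {s : ι → List α} {σ : Equiv.Perm ι} {reps : Finset ι}

theorem dist_add_ov (s t : List α) : dist s t + ov s t = s.length :=
  Nat.sub_add_cancel (ov_le_left s t)

/-! ### The list of a cycle -/

theorem minimalPeriod_pos' (σ : Equiv.Perm ι) (r : ι) : 0 < Function.minimalPeriod σ r :=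
  Function.minimalPeriod_pos_of_mem_periodicPts (σ.injective.mem_periodicPts r)

theorem nodup_cyc (σ : Equiv.Perm ι) (r : ι) : (cyc σ r).Nodup := by
  unfold cyc
  refine (List.nodup_range).map_on fun a ha b hb hab => ?_
  rw [List.mem_range] at ha hb
  exact Function.iterate_injOn_Iio_minimalPeriod ha hb hab

theorem mem_cyc (σ : Equiv.Perm ι) (r i : ι) : i ∈ cyc σ r ↔ σ.SameCycle r i := by
  unfold cyc
  rw [List.mem_map]
  constructor
  · rintro ⟨k, -, rfl⟩
    refine ⟨k, ?_⟩
    rw [zpow_natCast, Equiv.Perm.coe_pow]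
  · intro h
    obtain ⟨n, hn⟩ := h.exists_nat_pow_eq
    refine ⟨n % Function.minimalPeriod σ r, ?_, ?_⟩
    · rw [List.mem_range]
      exact Nat.mod_lt _ (minimalPeriod_pos' σ r)
    · rw [Function.iterate_mod_minimalPeriod_eq, ← Equiv.Perm.coe_pow, hn]

/-- sum over all indices, cycle by cycle -/
theorem CycData.sum_cyc (h : CycData s σ reps) (g : ι → ℕ) :
    ∑ r ∈ reps, ((cyc σ r).map g).sum = ∑ i, g i := by
  have h1 : ∀ r ∈ reps, ((cyc σ r).map g).sum = ∑ i ∈ (cyc σ r).toFinset, g i := fun r _ =>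
    (List.sum_toFinset g (nodup_cyc σ r)).symm
  rw [Finset.sum_congr rfl h1, ← Finset.sum_biUnion]
  · congr 1
    ext i
    rw [Finset.mem_biUnion]
    refine ⟨fun _ => Finset.mem_univ i, fun _ => ?_⟩
    obtain ⟨r, ⟨hr, hri⟩, -⟩ := h.hrep i
    exact ⟨r, hr, List.mem_toFinset.2 ((mem_cyc σ r i).2 hri)⟩
  · intro r hr r' hr' hne
    rw [Function.onFun, Finset.disjoint_left]
    intro i hi hi'
    rw [List.mem_toFinset, mem_cyc] at hi hi'
    obtain ⟨r₀, -, hu⟩ := h.hrep i
    exact hne ((hu r ⟨hr, hi⟩).trans (hu r' ⟨hr', hi'⟩).symm)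

/-! ### Lengths -/

theorem ovsum_map_range (g : ℕ → List α) (n : ℕ) :
    ovsum ((List.range (n + 1)).map g) = ∑ k ∈ Finset.range n, ov (g k) (g (k + 1)) := by
  induction n generalizing g with
  | zero => rfl
  | succ n ih =>
    have e1 : (List.range (n + 1 + 1)).map g = g 0 :: (List.range (n + 1)).map (fun k => g (k + 1)) := by
      rw [List.range_succ_eq_map, List.map_cons, List.map_map]
      rfl
    have e2 : (List.range (n + 1)).map (fun k => g (k + 1)) =
        g 1 :: (List.range n).map (fun k => g (k + 2)) := by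
      rw [List.range_succ_eq_map, List.map_cons, List.map_map]
      rfl
    have e3 := ih (fun k => g (k + 1))
    rw [e1, e2]
    change ov (g 0) (g 1) + ovsum (g 1 :: (List.range n).map (fun k => g (k + 2))) = _
    rw [← e2, e3, Finset.sum_range_succ']
    exact add_comm _ _

theorem sum_map_range (g : ℕ → ℕ) (n : ℕ) :
    ((List.range n).map g).sum = ∑ k ∈ Finset.range n, g k := by
  induction n with
  | zero => rfl
  | succ n ih => rw [List.range_succ, List.map_append, List.sum_append, ih, Finset.sum_range_succ]; simp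

theorem length_opened' (s : ι → List α) (σ : Equiv.Perm ι) (r : ι) :
    (opened s σ r).length =
      ((cyc σ r).map (fun i => dist (s i) (s (σ i)))).sum + ov (s (σ⁻¹ r)) (s r) := by
  obtain ⟨n, hn⟩ := Nat.exists_eq_succ_of_ne_zero (minimalPeriod_pos' σ r).ne'
  have hlast : σ^[n] r = σ⁻¹ r := by
    rw [Equiv.Perm.eq_inv_iff_eq, ← Function.iterate_succ_apply' σ n r, ← hn]
    exact Function.iterate_minimalPeriod
  have h1 := length_merge ((cyc σ r).map s)
  have h2 : (cyc σ r).map s = (List.range (n + 1)).map (fun k => s (σ^[k] r)) := by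
    unfold cyc
    rw [hn, List.map_map]
    rfl
  have h3 : ((cyc σ r).map (fun i => dist (s i) (s (σ i)))).sum =
      ∑ k ∈ Finset.range (n + 1), dist (s (σ^[k] r)) (s (σ^[k + 1] r)) := by
    unfold cyc
    rw [hn, List.map_map, sum_map_range]
    refine Finset.sum_congr rfl fun k _ => ?_
    simp only [Function.comp_apply, Function.iterate_succ_apply']
  have h4 : ((List.map List.length ((cyc σ r).map s))).sum =
      ∑ k ∈ Finset.range (n + 1), (s (σ^[k] r)).length := by
    rw [h2, List.map_map, sum_map_range]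
    rfl
  rw [h4, h2, ovsum_map_range] at h1
  have h5 : ∑ k ∈ Finset.range (n + 1), (s (σ^[k] r)).length =
      ∑ k ∈ Finset.range (n + 1), dist (s (σ^[k] r)) (s (σ^[k + 1] r)) +
      (∑ k ∈ Finset.range n, ov (s (σ^[k] r)) (s (σ^[k + 1] r)) +
        ov (s (σ^[n] r)) (s (σ^[n + 1] r))) := by
    rw [← Finset.sum_range_succ (fun k => ov (s (σ^[k] r)) (s (σ^[k + 1] r))),
      ← Finset.sum_add_distrib]
    exact Finset.sum_congr rfl fun k _ => (dist_add_ov _ _).symm
  have h6 : σ^[n + 1] r = r := by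
    rw [← Nat.succ_eq_add_one, ← hn]
    exact Function.iterate_minimalPeriod
  rw [h5, h6, hlast] at h1
  rw [h3]
  unfold opened
  rw [h2]
  omega

theorem CycData.length_opened (_h : CycData s σ reps) (r : ι) :
    (opened s σ r).length =
      ((cyc σ r).map (fun i => dist (s i) (s (σ i)))).sum + ov (s (σ⁻¹ r)) (s r) :=
  length_opened' s σ r

theorem CycData.sum_length_opened (h : CycData s σ reps) :
    ∑ r ∈ reps, (opened s σ r).length = cw s σ + ∑ r ∈ reps, ov (s (σ⁻¹ r)) (s r) := by
  unfold cw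
  rw [← h.sum_cyc (fun i => dist (s i) (s (σ i))), ← Finset.sum_add_distrib]
  exact Finset.sum_congr rfl fun r _ => h.length_opened r

/-! ### Replacing strings by extensions with the same borders -/

theorem extend_merge {κ : Type*} (a b : κ → List α) (hpre : ∀ i, a i <+: b i)
    (hsuf : ∀ i, a i <:+ b i) (l : List κ) :
    ∃ T : List α, (∀ i ∈ l, b i <:+: T) ∧ (∀ i, l.head? = some i → b i <+: T) ∧
      T.length + (l.map (fun i => (a i).length)).sum =
        (merge (l.map a)).length + (l.map (fun i => (b i).length)).sum := by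
  induction l with
  | nil => exact ⟨[], by simp, by simp, by simp [merge]⟩
  | cons i l ih =>
    cases l with
    | nil =>
      refine ⟨b i, ?_, ?_, ?_⟩
      · intro j hj
        rw [List.mem_singleton] at hj
        rw [hj]
      · intro j hj
        simp only [List.head?_cons, Option.some.injEq] at hj
        rw [hj]
      · simp [merge]
        exact Nat.add_comm _ _
    | cons j l =>
      obtain ⟨T, h1, h2, h3⟩ := ih
      set o := ov (a i) (a j) with ho
      have hoa : o ≤ (a i).length := ov_le_left _ _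
      have hab : (a i).length ≤ (b i).length := (hpre i).length_le
      have hlast : (b i).drop ((b i).length - o) = (a i).drop ((a i).length - o) := by
        obtain ⟨t, ht⟩ := hsuf i
        rw [← ht, List.length_append,
          show t.length + (a i).length - o = t.length + ((a i).length - o) by omega,
          List.drop_append, List.drop_eq_nil_of_le (by omega)]
        simp
      have hpreT : b i <+: (b i).take ((b i).length - o) ++ T := by
        conv_lhs => rw [← List.take_append_drop ((b i).length - o) (b i)]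
        rw [List.prefix_append_right_inj, hlast, ov_spec]
        exact (List.take_prefix _ _).trans ((hpre j).trans (h2 j rfl))
      refine ⟨(b i).take ((b i).length - o) ++ T, ?_, ?_, ?_⟩
      · intro k hk
        rw [List.mem_cons] at hk
        rcases hk with rfl | hk
        · exact hpreT.isInfix
        · exact (h1 k hk).trans (List.suffix_append _ _).isInfix
      · intro k hk
        simp only [List.head?_cons, Option.some.injEq] at hk
        rw [← hk]
        exact hpreT
      · have e1 : merge ((i :: j :: l).map a) =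
            (a i).take (dist (a i) (a j)) ++ merge ((j :: l).map a) := rfl
        have e2 : dist (a i) (a j) + o = (a i).length := dist_add_ov _ _
        rw [e1, List.length_append, List.length_append, List.length_take, List.length_take,
          List.map_cons, List.map_cons (f := fun i => (b i).length), List.sum_cons, List.sum_cons]
        omega

/-! ### Windows of infinite words -/

theorem c2_window_add (f : ℕ → α) (i a b : ℕ) :
    window f i (a + b) = window f i a ++ window f (i + a) b := by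
  unfold window
  rw [List.range_add, List.map_append, List.map_map]
  congr 1
  refine List.map_congr_left fun j _ => ?_
  simp only [Function.comp_apply, Nat.add_assoc]

theorem c2_length_window (f : ℕ → α) (i k : ℕ) : (window f i k).length = k := by
  simp [window]

theorem c2_window_infix (f : ℕ → α) {i j m k : ℕ} (h1 : i ≤ j) (h2 : j + m ≤ i + k) :
    window f j m <:+: window f i k := by
  have e : k = (j - i) + (m + (i + k - (j + m))) := by omega
  rw [e, c2_window_add, c2_window_add, show i + (j - i) = j by omega]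
  exact ⟨_, _, by rw [List.append_assoc]⟩

theorem c2_window_prefix (f : ℕ → α) {i m k : ℕ} (h : m ≤ k) :
    window f i m <+: window f i k := by
  have e : k = m + (k - m) := by omega
  rw [e, c2_window_add]
  exact List.prefix_append _ _

theorem c2_window_suffix (f : ℕ → α) {i m k : ℕ} (h : m ≤ k) :
    window f (i + (k - m)) m <:+ window f i k := by
  have e : k = (k - m) + m := by omega
  conv_rhs => rw [e, c2_window_add]
  exact List.suffix_append _ _

theorem c2_window_shift (f : ℕ → α) (i k m : ℕ) :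
    window (fun j => f (j + k)) i m = window f (i + k) m := by
  unfold window
  refine List.map_congr_left fun j _ => ?_
  change f (i + j + k) = f (i + k + j)
  rw [Nat.add_right_comm]

theorem c2_window_period {f : ℕ → α} {p : ℕ} (hf : ∀ i, f (i + p) = f i) (i m : ℕ) :
    window f (i + p) m = window f i m := by
  unfold window
  refine List.map_congr_left fun j _ => ?_
  rw [show i + p + j = i + j + p by omega]
  exact hf _

/-! ### The unrolled word of a cycle -/

/-- the weight of the cycle of `r` -/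
noncomputable def wcyc (s : ι → List α) (σ : Equiv.Perm ι) (r : ι) : ℕ :=
  ((cyc σ r).map (fun i => dist (s i) (s (σ i)))).sum

/-- the properties of the unrolled word of the cycle of `r` -/
structure Unroll (s : ι → List α) (σ : Equiv.Perm ι) (r : ι) (F : ℕ → α) (pos : ℕ → ℕ) :
    Prop where
  per : ∀ i, F (i + wcyc s σ r) = F i
  zero : pos 0 = 0
  succ : ∀ k, pos (k + 1) = pos k + dist (s (σ^[k] r)) (s (σ^[k + 1] r))
  occ : ∀ k, window F (pos k) (s (σ^[k] r)).length = s (σ^[k] r)
  opn : window F 0 (opened s σ r).length = opened s σ r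

theorem dist_pos {a b : List α} (ha : a ≠ []) : 0 < dist a b :=
  Nat.sub_pos_of_lt (ov_lt_left ha)

theorem Unroll.exists_pos {r : ι} {F : ℕ → α} {pos : ℕ → ℕ} (h : Unroll s σ r F pos)
    (hne : ∀ i, s i ≠ []) (y : ℕ) : ∃ k, pos k ≤ y ∧ y < pos (k + 1) := by
  have hlt : ∀ k, k ≤ pos k := by
    intro k
    induction k with
    | zero => exact Nat.zero_le _
    | succ k ih =>
      rw [h.succ]
      have := dist_pos (b := s (σ^[k + 1] r)) (hne (σ^[k] r))
      omega
  have hex : ∃ k, y < pos (k + 1) := ⟨y, lt_of_lt_of_le (Nat.lt_succ_self y) (hlt (y + 1))⟩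
  refine ⟨Nat.find hex, ?_, Nat.find_spec hex⟩
  rcases Nat.eq_zero_or_pos (Nat.find hex) with h0 | h0
  · rw [h0, h.zero]
    exact Nat.zero_le _
  · have h1 := Nat.find_min hex (show Nat.find hex - 1 < Nat.find hex by omega)
    rw [show Nat.find hex - 1 + 1 = Nat.find hex by omega] at h1
    exact not_lt.1 h1

theorem sum_finset_cyc (σ : Equiv.Perm ι) (r : ι) (g : ι → ℕ) :
    ∑ i ∈ (cyc σ r).toFinset, g i = ((cyc σ r).map g).sum :=
  List.sum_toFinset g (nodup_cyc σ r)

theorem sameCycle_iterate (σ : Equiv.Perm ι) (r : ι) (k : ℕ) : σ.SameCycle r (σ^[k] r) := by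
  refine ⟨k, ?_⟩
  rw [zpow_natCast, Equiv.Perm.coe_pow]

/-- every string of the cycle of `r` occurs in the unrolled word -/
theorem Unroll.occ_of_mem {r : ι} {F : ℕ → α} {pos : ℕ → ℕ} (h : Unroll s σ r F pos) {i : ι}
    (hi : i ∈ cyc σ r) : ∃ y, window F y (s i).length = s i := by
  unfold cyc at hi
  rw [List.mem_map] at hi
  obtain ⟨k, -, rfl⟩ := hi
  exact ⟨pos k, h.occ k⟩

theorem mem_cyc_map {r i : ι} (hi : i ∈ cyc σ r) : σ i ∈ cyc σ r := by
  rw [mem_cyc] at hi ⊢
  exact hi.trans ((Equiv.Perm.SameCycle.refl σ i).apply_right)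

theorem self_mem_cyc (σ : Equiv.Perm ι) (r : ι) : r ∈ cyc σ r :=
  (mem_cyc σ r r).2 (Equiv.Perm.SameCycle.refl σ r)

theorem wcyc_pos (hne : ∀ i, s i ≠ []) (r : ι) : 0 < wcyc s σ r := by
  have h1 : dist (s r) (s (σ r)) ∈ (cyc σ r).map (fun i => dist (s i) (s (σ i))) :=
    List.mem_map_of_mem (self_mem_cyc σ r)
  exact lt_of_lt_of_le (dist_pos (hne r)) (List.le_sum_of_mem h1)

/-- statement of `weight_le_period` -/
def WLP (s : ι → List α) (σ : Equiv.Perm ι) : Prop :=
  ∀ (A : Finset ι) (_ : A.Nonempty) (_ : ∀ i ∈ A, σ i ∈ A) (f : ℕ → α) (p : ℕ) (_ : 0 < p)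
    (_ : ∀ i, f (i + p) = f i) (_ : ∀ i ∈ A, ∃ y, window f y (s i).length = s i),
    ∑ i ∈ A, dist (s i) (s (σ i)) ≤ p

theorem Unroll.primPeriod {r : ι} {F : ℕ → α} {pos : ℕ → ℕ} (h : Unroll s σ r F pos)
    (hne : ∀ i, s i ≠ []) (hwlp : WLP s σ) : PrimPeriod F (wcyc s σ r) := by
  refine ⟨wcyc_pos hne r, h.per, fun q hq hFq => ?_⟩
  have h1 := hwlp (cyc σ r).toFinset ⟨r, List.mem_toFinset.2 (self_mem_cyc σ r)⟩
    (fun i hi => List.mem_toFinset.2 (mem_cyc_map (List.mem_toFinset.1 hi))) F q hq hFq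
    (fun i hi => h.occ_of_mem (List.mem_toFinset.1 hi))
  rwa [sum_finset_cyc σ r (fun i => dist (s i) (s (σ i)))] at h1

theorem Unroll.not_shift (hD : CycData s σ reps) {r r' : ι} (hr : r ∈ reps) (hr' : r' ∈ reps)
    (hne' : r ≠ r') {F F' : ℕ → α} {pos pos' : ℕ → ℕ} (h : Unroll s σ r F pos)
    (h' : Unroll s σ r' F' pos') (hwlp : WLP s σ) (k : ℕ) : (fun i => F (i + k)) ≠ F' := by
  intro hk
  have hdisj : Disjoint (cyc σ r).toFinset (cyc σ r').toFinset := by
    rw [Finset.disjoint_left]
    intro i hi hi'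
    rw [List.mem_toFinset, mem_cyc] at hi hi'
    obtain ⟨r₀, -, hu⟩ := hD.hrep i
    exact hne' ((hu r ⟨hr, hi⟩).trans (hu r' ⟨hr', hi'⟩).symm)
  have h1 := hwlp ((cyc σ r).toFinset ∪ (cyc σ r').toFinset)
    ⟨r, Finset.mem_union_left _ (List.mem_toFinset.2 (self_mem_cyc σ r))⟩
    (fun i hi => by
      rw [Finset.mem_union, List.mem_toFinset, List.mem_toFinset] at hi ⊢
      exact hi.imp mem_cyc_map mem_cyc_map) F (wcyc s σ r) (wcyc_pos hD.hne r) h.per
    (fun i hi => by
      rw [Finset.mem_union, List.mem_toFinset, List.mem_toFinset] at hi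
      rcases hi with hi | hi
      · exact h.occ_of_mem hi
      · obtain ⟨y, hy⟩ := h'.occ_of_mem hi
        refine ⟨y + k, ?_⟩
        rw [← c2_window_shift, hk]
        exact hy)
  rw [Finset.sum_union hdisj, sum_finset_cyc σ r (fun i => dist (s i) (s (σ i))),
    sum_finset_cyc σ r' (fun i => dist (s i) (s (σ i)))] at h1
  have h2 := wcyc_pos (σ := σ) hD.hne r'
  unfold wcyc at h1 h2
  omega

/-- windows as long as the minimum overlap of the cycle are infixes of strings of the cycle -/
theorem Unroll.window_infix (hD : CycData s σ reps) {r : ι} (hr : r ∈ reps) {F : ℕ → α}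
    {pos : ℕ → ℕ} (h : Unroll s σ r F pos) (y : ℕ) :
    ∃ i, window F y (ov (s (σ⁻¹ r)) (s r)) <:+: s i := by
  obtain ⟨k, hk1, hk2⟩ := h.exists_pos hD.hne y
  refine ⟨σ^[k] r, ?_⟩
  rw [← h.occ k]
  have h1 := hD.hov r hr (σ^[k + 1] r) (sameCycle_iterate σ r (k + 1))
  rw [show σ⁻¹ (σ^[k + 1] r) = σ^[k] r by
    rw [Equiv.Perm.inv_eq_iff_eq, Function.iterate_succ_apply']] at h1
  have h2 := h.succ k
  have h3 := dist_add_ov (s (σ^[k] r)) (s (σ^[k + 1] r))
  apply c2_window_infix F hk1
  omega

theorem sum_ov_le_aux (hD : CycData s σ reps) (F : ι → ℕ → α) (pos : ι → ℕ → ℕ)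
    (hF : ∀ r ∈ reps, Unroll s σ r (F r) (pos r)) (hwlp : WLP s σ) {T : List α}
    (hT : ∀ i, s i <:+: T) :
    ∑ r ∈ reps, ov (s (σ⁻¹ r)) (s r) ≤ T.length + cw s σ := by
  have h1 := rauzy reps T F (fun r => wcyc s σ r) (fun r => ov (s (σ⁻¹ r)) (s r))
    (fun r hr => (hF r hr).primPeriod hD.hne hwlp)
    (fun r hr r' hr' hne k => (hF r hr).not_shift hD hr hr' hne (hF r' hr') hwlp k)
    (fun r hr y => by
      obtain ⟨i, hi⟩ := (hF r hr).window_infix hD hr y
      exact hi.trans (hT i))
  have h2 : ∑ r ∈ reps, wcyc s σ r = cw s σ := hD.sum_cyc (fun i => dist (s i) (s (σ i)))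
  rw [← h2]
  calc ∑ r ∈ reps, ov (s (σ⁻¹ r)) (s r)
      ≤ ∑ r ∈ reps, ((ov (s (σ⁻¹ r)) (s r) - wcyc s σ r) + wcyc s σ r) :=
        Finset.sum_le_sum fun r _ => by omega
    _ = ∑ r ∈ reps, (ov (s (σ⁻¹ r)) (s r) - wcyc s σ r) + ∑ r ∈ reps, wcyc s σ r :=
        Finset.sum_add_distrib
    _ ≤ T.length + ∑ r ∈ reps, wcyc s σ r := Nat.add_le_add_right h1 _

theorem exists_superstring_aux (hD : CycData s σ reps) (F : ι → ℕ → α) (pos : ι → ℕ → ℕ)
    (hF : ∀ r ∈ reps, Unroll s σ r (F r) (pos r)) {T : List α} (hT : ∀ i, s i <:+: T) :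
    ∃ T' : List α, (∀ r ∈ reps, opened s σ r <:+: T') ∧ T'.length ≤ T.length + cw s σ := by
  obtain ⟨l, hl1, hl2, hl3⟩ := exists_order (fun r : {r // r ∈ reps} => s r.1)
    (fun r => hD.hne r.1) (fun i j hij => hD.hfree i.1 j.1 (fun h => hij (Subtype.ext h))) T
    (fun r => hT r.1)
  have hocc0 : ∀ r : {r // r ∈ reps}, window (F r.1) 0 (s r.1).length = s r.1 := fun r => by
    have h1 := (hF r.1 r.2).occ 0
    rw [(hF r.1 r.2).zero] at h1
    exact h1
  obtain ⟨T', h1, -, h3⟩ := extend_merge (fun r : {r // r ∈ reps} => s r.1)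
    (fun r => window (F r.1) 0 (wcyc s σ r.1 + (s r.1).length))
    (fun r => by
      have := c2_window_prefix (F r.1) (i := 0) (Nat.le_add_left (s r.1).length (wcyc s σ r.1))
      rwa [hocc0 r] at this)
    (fun r => by
      have := c2_window_suffix (F r.1) (i := 0) (Nat.le_add_left (s r.1).length (wcyc s σ r.1))
      rw [Nat.add_sub_cancel, c2_window_period (hF r.1 r.2).per, hocc0 r] at this
      exact this) l
  refine ⟨T', fun r hr => ?_, ?_⟩
  · refine List.IsInfix.trans ?_ (h1 ⟨r, hr⟩ (hl2 ⟨r, hr⟩))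
    rw [← (hF r hr).opn]
    refine (c2_window_prefix (F r) ?_).isInfix
    rw [hD.length_opened]
    exact Nat.add_le_add_left (ov_lt_right (hD.hne r)).le _
  · have h4 : (l.map (fun r : {r // r ∈ reps} =>
        (window (F r.1) 0 (wcyc s σ r.1 + (s r.1).length)).length)).sum =
        (l.map (fun r : {r // r ∈ reps} => wcyc s σ r.1)).sum +
          (l.map (fun r : {r // r ∈ reps} => (s r.1).length)).sum := by
      rw [← List.sum_map_add]
      congr 1
      refine List.map_congr_left fun r _ => ?_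
      exact c2_length_window _ _ _
    have h5 : (l.map (fun r : {r // r ∈ reps} => wcyc s σ r.1)).sum = cw s σ := by
      classical
      have h6 : ∑ r ∈ reps, wcyc s σ r = cw s σ := hD.sum_cyc (fun i => dist (s i) (s (σ i)))
      rw [← h6, ← List.sum_toFinset _ hl1, ← Finset.sum_coe_sort reps]
      congr 1
      ext r
      simp [hl2 r]
    rw [h4, h5] at h3
    omega

theorem seven_thirds_aux (hD : CycData s σ reps)
    (hcw : ∀ {T : List α}, (∀ i, s i <:+: T) → cw s σ ≤ T.length)
    (hov : ∀ {T : List α}, (∀ i, s i <:+: T) →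
      ∑ r ∈ reps, ov (s (σ⁻¹ r)) (s r) ≤ T.length + cw s σ)
    (hsup : ∀ {T : List α}, (∀ i, s i <:+: T) →
      ∃ T' : List α, (∀ r ∈ reps, opened s σ r <:+: T') ∧ T'.length ≤ T.length + cw s σ)
    (hfree : ∀ {r r' : ι}, r ∈ reps → r' ∈ reps → r ≠ r' → ¬ opened s σ r <:+: opened s σ r')
    (hinf : ∀ i, ∃ r ∈ reps, s i <:+: opened s σ r) {T : List α} (hT : ∀ i, s i <:+: T)
    (l : List ι) (hl : l.Nodup) (hl' : ∀ r, r ∈ l ↔ r ∈ reps)
    (hopt : ∀ l' : List ι, l'.Nodup → (∀ r, r ∈ l' ↔ r ∈ reps) →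
      2 * ovsum (l'.map (opened s σ)) ≤ 3 * ovsum (l.map (opened s σ))) :
    (∀ i, s i <:+: merge (l.map (opened s σ))) ∧
      3 * (merge (l.map (opened s σ))).length ≤ 7 * T.length := by
  refine ⟨fun i => ?_, ?_⟩
  · obtain ⟨r, hr, hi⟩ := hinf i
    exact hi.trans (infix_merge (List.mem_map_of_mem ((hl' r).2 hr)))
  · obtain ⟨T', hT', hlen⟩ := hsup hT
    obtain ⟨l₁, h1, h2, h3⟩ := exists_order (fun r : {r // r ∈ reps} => opened s σ r.1)
      (fun r hr => by
        have h4 := hD.length_opened r.1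
        have h5 := wcyc_pos (s := s) (σ := σ) hD.hne r.1
        unfold wcyc at h5
        rw [hr] at h4
        simp only [List.length_nil] at h4
        omega)
      (fun i j hij => hfree i.2 j.2 (fun h => hij (Subtype.ext h))) T' (fun r => hT' r.1 r.2)
    have hmap : l₁.map (fun r : {r // r ∈ reps} => opened s σ r.1) =
        (l₁.map Subtype.val).map (opened s σ) := by
      rw [List.map_map]
      rfl
    have hnd : (l₁.map Subtype.val).Nodup := h1.map Subtype.val_injective
    have hmem : ∀ r, r ∈ l₁.map Subtype.val ↔ r ∈ reps := by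
      intro r
      rw [List.mem_map]
      constructor
      · rintro ⟨x, -, rfl⟩
        exact x.2
      · intro hr
        exact ⟨⟨r, hr⟩, h2 _, rfl⟩
    have hsum : ∀ l' : List ι, l'.Nodup → (∀ r, r ∈ l' ↔ r ∈ reps) →
        (merge (l'.map (opened s σ))).length + ovsum (l'.map (opened s σ)) =
          cw s σ + ∑ r ∈ reps, ov (s (σ⁻¹ r)) (s r) := by
      intro l' hl₁ hl₂
      rw [length_merge, ← hD.sum_length_opened, List.map_map,
        ← List.sum_toFinset _ hl₁]
      refine Finset.sum_congr ?_ fun r _ => rfl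
      ext r
      rw [List.mem_toFinset, hl₂]
    have e1 := hsum l hl hl'
    have e2 := hsum _ hnd hmem
    have e3 := hopt _ hnd hmem
    have e4 := hov hT
    have e5 := hcw hT
    rw [hmap] at h3
    omega

end Vale.Agent.Lib.P333
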