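import Mathlib
import Vale.Agent.Lib.P333.Str
import Vale.Agent.Lib.P333.Rauzy

/-!
P333, module CYC.  The infinite word obtained by unrolling a cycle.
-/

namespace Vale.Agent.Lib.P333

namespace C1

open Finset

/-! ### Windows -/

section Window

variable {α : Type*}

@[simp] theorem length_window (f : ℕ → α) (i k : ℕ) : (window f i k).length = k := by
  simp [window]

@[simp] theorem getElem_window (f : ℕ → α) (i k j : ℕ) (h : j < (window f i k).length) :
    (window f i k)[j] = f (i + j) := by
  simp [window]

theorem window_add (f : ℕ → α) (i k l : ℕ) :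
    window f i (k + l) = window f i k ++ window f (i + k) l := by
  apply List.ext_getElem
  · simp
  · intro j h1 h2
    rw [getElem_window, List.getElem_append]
    split_ifs with h
    · rw [getElem_window]
    · rw [getElem_window, length_window]
      rw [length_window] at h
      congr 1
      omega

/-- a shorter window inside a window -/
theorem window_infix_window (f : ℕ → α) {i k j l : ℕ} (h1 : i ≤ j) (h2 : j + l ≤ i + k) :
    window f j l <:+: window f i k := by
  obtain ⟨a, rfl⟩ := Nat.exists_eq_add_of_le h1
  obtain ⟨b, hb⟩ := Nat.exists_eq_add_of_le (show a + l ≤ k by omega)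
  refine ⟨window f i a, window f (i + a + l) b, ?_⟩
  rw [hb, window_add, window_add]
  congr 1
  congr 1
  omega

theorem window_eq_iff (f : ℕ → α) (i : ℕ) (t : List α) :
    window f i t.length = t ↔ ∀ j (h : j < t.length), f (i + j) = t[j] := by
  constructor
  · intro h j hj
    have h2 : (window f i t.length)[j]'(by simpa using hj) = t[j] := by
      simp only [h]
    rw [getElem_window] at h2
    exact h2
  · intro h
    apply List.ext_getElem
    · simp
    · intro j h1 h2
      rw [getElem_window]
      exact h j h2

/-- an infix of a window occurs in the word -/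
theorem exists_window_of_infix (f : ℕ → α) {i k : ℕ} {t : List α} (h : t <:+: window f i k) :
    ∃ y, window f y t.length = t := by
  obtain ⟨a, b, hab⟩ := h
  refine ⟨i + a.length, ?_⟩
  rw [window_eq_iff]
  intro j hj
  have hlen : a.length + t.length + b.length = k := by
    have := congrArg List.length hab
    simpa [add_assoc] using this
  have h1 : f (i + (a.length + j)) = (window f i k)[a.length + j]'(by
      rw [length_window]; omega) := by
    rw [getElem_window]
  rw [add_assoc, h1]
  have h2 : (window f i k)[a.length + j]'(by rw [length_window]; omega) =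
      (a ++ t ++ b)[a.length + j]'(by simp; omega) := by
    simp only [hab]
  rw [h2, List.getElem_append_left (by simp; omega), List.getElem_append_right (by omega)]
  congr 1
  omega

theorem take_eq_window {f : ℕ → α} {i : ℕ} {t : List α} (h : window f i t.length = t) {d : ℕ}
    (hd : d ≤ t.length) : t.take d = window f i d := by
  apply List.ext_getElem
  · simpa using hd
  · intro j h1 h2
    rw [List.getElem_take, getElem_window]
    exact ((window_eq_iff f i t).1 h j _).symm

theorem window_congr {f g : ℕ → α} {i j k : ℕ} (h : ∀ m < k, f (i + m) = g (j + m)) :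
    window f i k = window g j k := by
  apply List.ext_getElem
  · simp
  · intro m h1 h2
    rw [getElem_window, getElem_window]
    exact h m (by simpa using h1)

theorem periodic_mul {f : ℕ → α} {p : ℕ} (hf : ∀ i, f (i + p) = f i) (i n : ℕ) :
    f (i + n * p) = f i := by
  induction n with
  | zero => simp
  | succ n ih => rw [Nat.succ_mul, ← add_assoc, hf, ih]

theorem periodic_mod {f : ℕ → α} {p : ℕ} (hf : ∀ i, f (i + p) = f i) (i : ℕ) :
    f (i % p) = f i := by
  have h := periodic_mul hf (i % p) (i / p)
  rw [← h]
  congr 1
  have := Nat.mod_add_div i p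
  rw [mul_comm] at this
  exact this

theorem window_mod {f : ℕ → α} {p : ℕ} (hf : ∀ i, f (i + p) = f i) (i k : ℕ) :
    window f (i % p) k = window f i k := by
  apply window_congr
  intro m _
  have h := periodic_mul hf (i % p + m) (i / p)
  rw [← h]
  congr 1
  have := Nat.mod_add_div i p
  rw [mul_comm] at this
  omega

end Window

variable {α : Type*} [DecidableEq α]

theorem dist_pos {s t : List α} (hs : s ≠ []) : 0 < dist s t := by
  have := ov_lt_left (t := t) hs
  unfold dist
  omega

theorem dist_add_ov {s t : List α} (hs : s ≠ []) : dist s t + ov s t = s.length := by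
  have := ov_lt_left (t := t) hs
  unfold dist
  omega

theorem dist_le_length (s t : List α) : dist s t ≤ s.length := Nat.sub_le _ _

/-- the letters of `s` after the first `dist s t` ones are those of `t` -/
theorem getElem_of_dist_le {s t : List α} (hs : s ≠ []) {j : ℕ} (h1 : dist s t ≤ j)
    (h2 : j < s.length) (h3 : j - dist s t < t.length) : s[j] = t[j - dist s t] := by
  have h := ov_spec s t
  have h4 := dist_add_ov (t := t) hs
  have h5 : j - dist s t < (s.drop (s.length - ov s t)).length := by
    rw [List.length_drop]
    omega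
  have h6 : (s.drop (s.length - ov s t))[j - dist s t]'h5 = s[j] := by
    rw [List.getElem_drop]
    congr 1
    unfold dist
    unfold dist at h1
    omega
  rw [← h6]
  simp only [h]
  rw [List.getElem_take]

theorem sub_dist_lt {s t : List α} (hs : s ≠ []) (ht : t ≠ []) {j : ℕ} (h1 : dist s t ≤ j)
    (h2 : j < s.length) : j - dist s t < t.length := by
  have h4 := dist_add_ov (t := t) hs
  have h5 := ov_lt_right (s := s) ht
  omega

variable {ι : Type*} {s : ι → List α}

/-- position of the `k`-th string in the unrolled cycle of `r` -/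
def posn (s : ι → List α) (σ : Equiv.Perm ι) (r : ι) (k : ℕ) : ℕ :=
  ∑ j ∈ range k, dist (s (σ^[j] r)) (s (σ^[j + 1] r))

variable {σ : Equiv.Perm ι} {r : ι}

@[simp] theorem posn_zero : posn s σ r 0 = 0 := by simp [posn]

theorem posn_succ (k : ℕ) :
    posn s σ r (k + 1) = posn s σ r k + dist (s (σ^[k] r)) (s (σ^[k + 1] r)) := by
  simp [posn, sum_range_succ]

theorem posn_strictMono (hne : ∀ i, s i ≠ []) : StrictMono (posn s σ r) := by
  apply strictMono_nat_of_lt_succ
  intro k
  rw [posn_succ]
  have := dist_pos (t := s (σ^[k + 1] r)) (hne (σ^[k] r))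
  omega

theorem le_posn (hne : ∀ i, s i ≠ []) (k : ℕ) : k ≤ posn s σ r k :=
  (posn_strictMono hne).id_le k

theorem posn_add_period (k : ℕ) :
    posn s σ r (k + Function.minimalPeriod σ r) =
      posn s σ r k + posn s σ r (Function.minimalPeriod σ r) := by
  induction k with
  | zero => simp
  | succ k ih =>
    rw [show k + 1 + Function.minimalPeriod σ r = (k + Function.minimalPeriod σ r) + 1 by ring,
      posn_succ, ih, posn_succ]
    have h1 : ∀ j, σ^[j + Function.minimalPeriod σ r] r = σ^[j] r := by
      intro j
      rw [Function.iterate_add_apply, Function.iterate_minimalPeriod]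
    rw [h1 k, show k + Function.minimalPeriod σ r + 1 = (k + 1) + Function.minimalPeriod σ r by ring,
      h1 (k + 1)]
    ring

/-- index of the string of the unrolled cycle which contains position `y` in its first
`dist` letters -/
def kidx (s : ι → List α) (σ : Equiv.Perm ι) (r : ι) (y : ℕ) : ℕ :=
  Nat.findGreatest (fun k => posn s σ r k ≤ y) y

theorem posn_kidx_le (y : ℕ) : posn s σ r (kidx s σ r y) ≤ y := by
  unfold kidx
  have h : (fun k => posn s σ r k ≤ y) 0 := by simp
  exact Nat.findGreatest_spec (P := fun k => posn s σ r k ≤ y) (Nat.zero_le y) h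

theorem lt_posn_kidx (hne : ∀ i, s i ≠ []) (y : ℕ) : y < posn s σ r (kidx s σ r y + 1) := by
  by_contra hcon
  rw [not_lt] at hcon
  have h1 : kidx s σ r y + 1 ≤ y := (le_posn hne _).trans hcon
  have h2 := Nat.le_findGreatest (P := fun k => posn s σ r k ≤ y) h1 hcon
  unfold kidx at h2
  omega

theorem kidx_unique (hne : ∀ i, s i ≠ []) {y k : ℕ} (h1 : posn s σ r k ≤ y)
    (h2 : y < posn s σ r (k + 1)) : kidx s σ r y = k := by
  have h3 : posn s σ r (kidx s σ r y) ≤ y := posn_kidx_le y
  have h4 : y < posn s σ r (kidx s σ r y + 1) := lt_posn_kidx hne y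
  have h5 : kidx s σ r y < k + 1 := (posn_strictMono hne).lt_iff_lt.1 (h3.trans_lt h2)
  have h6 : k < kidx s σ r y + 1 := (posn_strictMono hne).lt_iff_lt.1 (h1.trans_lt h4)
  omega

/-- the infinite word obtained by unrolling the cycle of `r` -/
def cycWord (s : ι → List α) (hne : ∀ i, s i ≠ []) (σ : Equiv.Perm ι) (r : ι) (y : ℕ) : α :=
  (s (σ^[kidx s σ r y] r)).getD (y - posn s σ r (kidx s σ r y)) ((s r).head (hne r))

/-- the `k`-th string of the unrolled cycle occurs at position `posn k` -/
theorem cycWord_posn_add (hne : ∀ i, s i ≠ []) (j : ℕ) : ∀ (k : ℕ) (h : j < (s (σ^[k] r)).length),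
    cycWord s hne σ r (posn s σ r k + j) = (s (σ^[k] r))[j] := by
  induction j using Nat.strong_induction_on with
  | _ j ih =>
    intro k h
    rcases lt_or_ge j (dist (s (σ^[k] r)) (s (σ^[k + 1] r))) with h1 | h1
    · have h2 : kidx s σ r (posn s σ r k + j) = k := by
        apply kidx_unique hne
        · omega
        · rw [posn_succ]
          omega
      unfold cycWord
      rw [h2, Nat.add_sub_cancel_left, List.getD_eq_getElem _ _ h]
    · have h3 := dist_pos (t := s (σ^[k + 1] r)) (hne (σ^[k] r))
      have h4 : posn s σ r k + j =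
          posn s σ r (k + 1) + (j - dist (s (σ^[k] r)) (s (σ^[k + 1] r))) := by
        rw [posn_succ]
        omega
      have h5 := sub_dist_lt (hne _) (hne (σ^[k + 1] r)) h1 h
      rw [h4, ih _ (by omega) (k + 1) h5]
      exact (getElem_of_dist_le (hne _) h1 h h5).symm

theorem window_cycWord (hne : ∀ i, s i ≠ []) (k : ℕ) :
    window (cycWord s hne σ r) (posn s σ r k) (s (σ^[k] r)).length = s (σ^[k] r) := by
  rw [window_eq_iff]
  intro j hj
  exact cycWord_posn_add hne j k hj

/-- the weight of the cycle is a period of the unrolled word -/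
theorem cycWord_period (hne : ∀ i, s i ≠ []) (y : ℕ) :
    cycWord s hne σ r (y + posn s σ r (Function.minimalPeriod σ r)) = cycWord s hne σ r y := by
  set k := kidx s σ r y with hk
  have h1 : posn s σ r k ≤ y := posn_kidx_le y
  have h2 : y < posn s σ r (k + 1) := lt_posn_kidx hne y
  have h3 : kidx s σ r (y + posn s σ r (Function.minimalPeriod σ r)) =
      k + Function.minimalPeriod σ r := by
    apply kidx_unique hne
    · rw [posn_add_period]
      omega
    · rw [show k + Function.minimalPeriod σ r + 1 = (k + 1) + Function.minimalPeriod σ r by ring,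
        posn_add_period]
      omega
  unfold cycWord
  rw [h3, posn_add_period, ← hk, Function.iterate_add_apply, Function.iterate_minimalPeriod]
  congr 1
  omega

/-- a window which is not longer than all the overlaps of the cycle plus one is an infix of one
of the strings -/
theorem window_cycWord_infix (hne : ∀ i, s i ≠ []) (y m : ℕ)
    (hm : ∀ k, m ≤ ov (s (σ^[k] r)) (s (σ^[k + 1] r)) + 1) :
    ∃ k, window (cycWord s hne σ r) y m <:+: s (σ^[k] r) := by
  set k := kidx s σ r y with hk
  have h1 : posn s σ r k ≤ y := posn_kidx_le y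
  have h2 : y < posn s σ r (k + 1) := lt_posn_kidx hne y
  refine ⟨k, ?_⟩
  rw [← window_cycWord hne k]
  apply window_infix_window _ h1
  rw [posn_succ] at h2
  have h3 := dist_add_ov (t := s (σ^[k + 1] r)) (hne (σ^[k] r))
  have h4 := hm k
  omega

/-- merging consecutive strings of the unrolled cycle gives a window -/
theorem merge_eq_window (hne : ∀ i, s i ≠ []) (n : ℕ) : ∀ a : ℕ,
    merge ((List.range' a (n + 1)).map (fun k => s (σ^[k] r))) =
      window (cycWord s hne σ r) (posn s σ r a)
        (posn s σ r (a + n) - posn s σ r a + (s (σ^[a + n] r)).length) := by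
  induction n with
  | zero =>
    intro a
    simp only [zero_add, List.range'_one, List.map_cons, List.map_nil, merge, add_zero,
      Nat.sub_self]
    exact (window_cycWord hne a).symm
  | succ n ih =>
    intro a
    have h1 : List.range' a (n + 1 + 1) = a :: List.range' (a + 1) (n + 1) := by
      rw [List.range'_succ]
    have h2 : List.range' (a + 1) (n + 1) = (a + 1) :: List.range' (a + 1 + 1) n := by
      rw [List.range'_succ]
    have h3 : merge ((List.range' a (n + 1 + 1)).map (fun k => s (σ^[k] r))) =
        (s (σ^[a] r)).take (dist (s (σ^[a] r)) (s (σ^[a + 1] r))) ++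
          merge ((List.range' (a + 1) (n + 1)).map (fun k => s (σ^[k] r))) := by
      rw [h1, h2, List.map_cons, List.map_cons, merge]
    rw [h3, ih (a + 1)]
    have h4 : posn s σ r (a + 1) = posn s σ r a + dist (s (σ^[a] r)) (s (σ^[a + 1] r)) :=
      posn_succ a
    have h5 : posn s σ r (a + 1) ≤ posn s σ r (a + 1 + n) :=
      (posn_strictMono hne).monotone (by omega)
    have h6 : posn s σ r (a + (n + 1)) - posn s σ r a + (s (σ^[a + (n + 1)] r)).length =
        dist (s (σ^[a] r)) (s (σ^[a + 1] r)) +
          (posn s σ r (a + 1 + n) - posn s σ r (a + 1) + (s (σ^[a + 1 + n] r)).length) := by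
      rw [show a + (n + 1) = a + 1 + n by ring]
      omega
    rw [h6, window_add (cycWord s hne σ r) (posn s σ r a), ← h4]
    congr 1
    have h7 := window_cycWord (σ := σ) (r := r) hne a
    have h8 := dist_le_length (s (σ^[a] r)) (s (σ^[a + 1] r))
    exact take_eq_window h7 h8

/-! ### Finite cycles -/

theorem minimalPeriod_pos [Finite ι] (σ : Equiv.Perm ι) (r : ι) :
    0 < Function.minimalPeriod σ r :=
  Function.minimalPeriod_pos_of_mem_periodicPts (σ.injective.mem_periodicPts r)

theorem sameCycle_iterate (σ : Equiv.Perm ι) (r : ι) (k : ℕ) : σ.SameCycle r (σ^[k] r) := by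
  refine ⟨k, ?_⟩
  rw [zpow_natCast, Equiv.Perm.iterate_eq_pow]

theorem sameCycle_iff_exists [Finite ι] {i : ι} :
    σ.SameCycle r i ↔ ∃ k < Function.minimalPeriod σ r, σ^[k] r = i := by
  constructor
  · intro h
    obtain ⟨n, hn⟩ := h.exists_nat_pow_eq
    refine ⟨n % Function.minimalPeriod σ r, Nat.mod_lt _ (minimalPeriod_pos σ r), ?_⟩
    rw [Function.iterate_mod_minimalPeriod_eq, Equiv.Perm.iterate_eq_pow, hn]
  · rintro ⟨k, -, rfl⟩
    exact sameCycle_iterate σ r k

theorem mem_cyc_aux [Finite ι] {i : ι} :
    i ∈ (List.range (Function.minimalPeriod σ r)).map (fun k => σ^[k] r) ↔ σ.SameCycle r i := by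
  rw [sameCycle_iff_exists, List.mem_map]
  simp only [List.mem_range]

/-- the weight of the cycle -/
theorem posn_period_eq [Fintype ι] [DecidableEq ι] :
    posn s σ r (Function.minimalPeriod σ r) =
      ∑ i ∈ univ.filter (fun i => σ.SameCycle r i), dist (s i) (s (σ i)) := by
  have h1 : univ.filter (fun i => σ.SameCycle r i) =
      (range (Function.minimalPeriod σ r)).image (fun k => σ^[k] r) := by
    ext i
    rw [mem_filter, mem_image, sameCycle_iff_exists]
    simp
  rw [h1, sum_image]
  · unfold posn
    refine sum_congr rfl fun j _ => ?_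
    rw [Function.iterate_succ_apply']
  · intro a ha b hb hab
    have ha' : a ∈ Set.Iio (Function.minimalPeriod σ r) := by simpa using ha
    have hb' : b ∈ Set.Iio (Function.minimalPeriod σ r) := by simpa using hb
    exact Function.iterate_injOn_Iio_minimalPeriod ha' hb' hab

/-- the opened cycle is a prefix of the unrolled word; `n + 1` is the length of the cycle -/
theorem merge_cyc_eq_window (hne : ∀ i, s i ≠ []) {n : ℕ}
    (hn : Function.minimalPeriod σ r = n + 1) :
    merge ((List.range (Function.minimalPeriod σ r)).map (fun k => s (σ^[k] r))) =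
      window (cycWord s hne σ r) 0 (posn s σ r n + (s (σ^[n] r)).length) := by
  rw [hn, List.range_eq_range', merge_eq_window hne n 0]
  simp

end C1

end Vale.Agent.Lib.P333
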