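import Mathlib
import Vale.Agent.Lib.P333.CycWord
import Vale.Agent.Lib.P333.CycDefs

/-!
P333, module CYC1.  Minimum weight cycle covers of a substring-free family of strings: definitions,
the rearrangement lemma and its consequences.
-/

namespace Vale.Agent.Lib.P333

variable {α : Type*} [DecidableEq α] {ι : Type*} [Fintype ι] [DecidableEq ι]

open C1

variable {s : ι → List α} {σ : Equiv.Perm ι} {reps : Finset ι}

/-! ### The rearrangement lemma -/

omit [Fintype ι] [DecidableEq ι] in
theorem C1.dist_le_gap {f : ℕ → α} {y g : ℕ} {u t : List α} (hu : window f y u.length = u)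
    (ht : window f (y + g) t.length = t) (hg : 0 < g) (h : ¬ t <:+: u ∨ u.length ≤ t.length) :
    dist u t ≤ g := by
  rcases le_or_gt u.length g with h1 | h1
  · exact (dist_le_length u t).trans h1
  · have h2 : u.length - g < t.length := by
      by_contra hcon
      rw [not_lt] at hcon
      rcases h with h | h
      · apply h
        rw [← ht, ← hu]
        exact window_infix_window f (by omega) (by omega)
      · omega
    have h3 : u.length - g ≤ ov u t := by
      apply le_ov (by omega) h2
      rw [show u.length - (u.length - g) = g by omega]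
      rw [take_eq_window ht h2.le]
      apply List.ext_getElem
      · simp
      · intro j h4 h5
        rw [List.getElem_drop, getElem_window, ← (C1.window_eq_iff f y u).1 hu, add_assoc]
    unfold dist
    omega

omit [Fintype ι] [DecidableEq ι] in
theorem C1.exists_sorted_equiv (A : Finset ι) (y : ι → ℕ) (hy : Set.InjOn y A) {n : ℕ}
    (hn : A.card = n) : ∃ g : Fin n ≃ A, StrictMono (fun k => y (g k)) := by
  have hcard : (A.image y).card = n := by rw [Finset.card_image_of_injOn hy, hn]
  let e1 : Fin n ≃o (A.image y) := (A.image y).orderIsoOfFin hcard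
  let e2 : A ≃ (A.image y) := Equiv.ofBijective
    (fun a => ⟨y a, Finset.mem_image_of_mem y a.2⟩) (by
      constructor
      · intro a b hab
        have h1 : y a = y b := congrArg Subtype.val hab
        exact Subtype.ext (hy a.2 b.2 h1)
      · rintro ⟨x, hx⟩
        obtain ⟨a, ha, rfl⟩ := Finset.mem_image.1 hx
        exact ⟨⟨a, ha⟩, rfl⟩)
  refine ⟨e1.toEquiv.trans e2.symm, ?_⟩
  have h1 : ∀ k, y ((e1.toEquiv.trans e2.symm) k) = (e1 k : ℕ) := by
    intro k
    have h2 : e2 (e2.symm (e1 k)) = e1 k := e2.apply_symm_apply _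
    exact congrArg Subtype.val h2
  intro k l hkl
  simp only [h1]
  exact e1.strictMono hkl

theorem C1.sum_rotate_le {m p : ℕ} (z : Fin (m + 1) → ℕ) (D : Fin (m + 1) → ℕ)
    (h : ∀ k, (D k : ℤ) ≤ z (finRotate (m + 1) k) - z k + (if k = Fin.last m then (p : ℤ) else 0)) :
    ∑ k, D k ≤ p := by
  have h1 : (∑ k, (D k : ℤ)) ≤ ∑ k, ((z (finRotate (m + 1) k) : ℤ) - z k +
      (if k = Fin.last m then (p : ℤ) else 0)) := Finset.sum_le_sum fun k _ => h k
  rw [Finset.sum_add_distrib, Finset.sum_sub_distrib,
    Equiv.sum_comp (finRotate (m + 1)) (fun k => (z k : ℤ)), sub_self, zero_add,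
    Finset.sum_ite_eq' Finset.univ (Fin.last m), if_pos (Finset.mem_univ _)] at h1
  exact_mod_cast h1

/-- rearrangement lemma: if all strings with index in `A` (a union of cycles of `σ`) occur in a
word of period `p > 0`, then the weight of `σ` on `A` is at most `p` -/
theorem CycData.weight_le_period (h : CycData s σ reps) (A : Finset ι) (hA : A.Nonempty)
    (hAσ : ∀ i ∈ A, σ i ∈ A) (f : ℕ → α) (p : ℕ) (hp : 0 < p) (hf : ∀ i, f (i + p) = f i)
    (hocc : ∀ i ∈ A, ∃ y, window f y (s i).length = s i) :
    ∑ i ∈ A, dist (s i) (s (σ i)) ≤ p := by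
  classical
  have hocc' : ∀ i, ∃ y, i ∈ A → y < p ∧ window f y (s i).length = s i := by
    intro i
    by_cases hi : i ∈ A
    · obtain ⟨y, hy⟩ := hocc i hi
      refine ⟨y % p, fun _ => ⟨Nat.mod_lt _ hp, ?_⟩⟩
      rw [C1.window_mod hf, hy]
    · exact ⟨0, fun h => absurd h hi⟩
  choose y hy using hocc'
  have hinj : Set.InjOn y A := by
    intro i hi j hj hij
    by_contra hne
    have hi' := (hy i hi).2
    have hj' := (hy j hj).2
    rcases le_total (s i).length (s j).length with hle | hle
    · apply h.hfree i j hne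
      rw [← hi', ← hj', hij]
      exact window_infix_window f le_rfl (by simpa using hle)
    · apply h.hfree j i (Ne.symm hne)
      rw [← hi', ← hj', hij]
      exact window_infix_window f le_rfl (by simpa using hle)
  obtain ⟨m, hm⟩ : ∃ m, A.card = m + 1 := Nat.exists_eq_succ_of_ne_zero (Finset.card_ne_zero.2 hA)
  obtain ⟨g, hg⟩ := exists_sorted_equiv A y hinj hm
  -- the permutation `σ` preserves `A`
  have himg : A.image σ = A := by
    apply Finset.eq_of_subset_of_card_le
    · intro x hx
      obtain ⟨a, ha, rfl⟩ := Finset.mem_image.1 hx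
      exact hAσ a ha
    · rw [Finset.card_image_of_injective _ σ.injective]
  have hiff : ∀ x, σ x ∈ A ↔ x ∈ A := by
    intro x
    constructor
    · intro hx
      rw [← himg] at hx
      obtain ⟨a, ha, hax⟩ := Finset.mem_image.1 hx
      rwa [σ.injective hax] at ha
    · exact hAσ x
  let τA : Equiv.Perm {x // x ∈ A} := (g.symm.trans (finRotate (m + 1))).trans g
  let τ : Equiv.Perm ι := Equiv.Perm.subtypeCongr (p := fun x => x ∈ A) τA
    (σ.subtypePerm (p := fun x => ¬ x ∈ A) fun x => not_congr (hiff x))
  have hτA : ∀ k, τ (g k) = g (finRotate (m + 1) k) := by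
    intro k
    have h1 : τ (g k) = (τA (g k) : ι) := Equiv.Perm.subtypeCongr.left_apply_subtype _ _ _
    rw [h1]
    simp [τA]
  have hτc : ∀ i, i ∉ A → τ i = σ i := by
    intro i hi
    exact Equiv.Perm.subtypeCongr.right_apply (p := fun x => x ∈ A) _ _ hi
  have hmin := h.hmin τ
  unfold cw at hmin
  rw [← Finset.sum_add_sum_compl A, ← Finset.sum_add_sum_compl A (fun i => dist (s i) (s (τ i)))]
    at hmin
  have hc : ∑ i ∈ Aᶜ, dist (s i) (s (τ i)) = ∑ i ∈ Aᶜ, dist (s i) (s (σ i)) := by
    refine Finset.sum_congr rfl fun i hi => ?_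
    rw [hτc i (Finset.mem_compl.1 hi)]
  rw [hc] at hmin
  have hle : ∑ i ∈ A, dist (s i) (s (σ i)) ≤ ∑ i ∈ A, dist (s i) (s (τ i)) := by omega
  refine hle.trans ?_
  have hsum : ∑ i ∈ A, dist (s i) (s (τ i)) =
      ∑ k, dist (s (g k)) (s (g (finRotate (m + 1) k))) := by
    rw [← Finset.sum_coe_sort, ← Equiv.sum_comp g]
    refine Finset.sum_congr rfl fun k _ => ?_
    rw [hτA]
  rw [hsum]
  apply sum_rotate_le (fun k => y (g k))
  intro k
  have hk := hy (g k) (g k).2
  have hr := hy (g (finRotate (m + 1) k)) (g (finRotate (m + 1) k)).2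
  have halt : ¬ s (g (finRotate (m + 1) k)) <:+: s (g k) ∨
      (s (g k)).length ≤ (s (g (finRotate (m + 1) k))).length := by
    by_cases heq : ((g k : A) : ι) = (g (finRotate (m + 1) k) : A)
    · right
      rw [heq]
    · left
      exact h.hfree _ _ (Ne.symm heq)
  by_cases hlast : k = Fin.last m
  · rw [if_pos hlast]
    have hper : window f (y (g k) + (y (g (finRotate (m + 1) k)) + p - y (g k)))
        (s (g (finRotate (m + 1) k))).length = s (g (finRotate (m + 1) k)) := by
      rw [show y (g k) + (y (g (finRotate (m + 1) k)) + p - y (g k)) =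
        y (g (finRotate (m + 1) k)) + p by omega]
      conv_rhs => rw [← hr.2]
      apply window_congr
      intro j _
      rw [← hf (y (g (finRotate (m + 1) k)) + j)]
      congr 1
      ring
    have := dist_le_gap hk.2 hper (by omega) halt
    omega
  · rw [if_neg hlast]
    have hlt : y (g k) < y (g (finRotate (m + 1) k)) := by
      apply hg
      rw [Fin.lt_def, coe_finRotate_of_ne_last hlast]
      omega
    have hper : window f (y (g k) + (y (g (finRotate (m + 1) k)) - y (g k)))
        (s (g (finRotate (m + 1) k))).length = s (g (finRotate (m + 1) k)) := by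
      rw [show y (g k) + (y (g (finRotate (m + 1) k)) - y (g k)) =
        y (g (finRotate (m + 1) k)) by omega]
      exact hr.2
    have := dist_le_gap hk.2 hper (by omega) halt
    omega

/-- closing up a superstring: the cover is at most as heavy as any common superstring is long -/
theorem CycData.cw_le (h : CycData s σ reps) {T : List α} (hT : ∀ i, s i <:+: T) :
    cw s σ ≤ T.length := by
  rcases isEmpty_or_nonempty ι with hι | ⟨⟨i0⟩⟩
  · simp [cw]
  · have hT0 : 0 < T.length := by
      have h1 := (hT i0).length_le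
      have h2 := List.length_pos_iff.2 (h.hne i0)
      omega
    let f : ℕ → α := fun i => T[i % T.length]'(Nat.mod_lt _ hT0)
    have hw : window f 0 T.length = T := by
      rw [C1.window_eq_iff]
      intro j hj
      simp only [f, zero_add]
      congr 1
      exact Nat.mod_eq_of_lt hj
    have h1 := h.weight_le_period Finset.univ ⟨i0, Finset.mem_univ _⟩ (fun i _ => Finset.mem_univ _)
      f T.length hT0 (fun i => by simp [f]) (fun i _ => by
        apply exists_window_of_infix f (i := 0) (k := T.length)
        rw [hw]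
        exact hT i)
    exact h1

omit [DecidableEq ι] in
theorem C1.infix_opened_of_sameCycle {r i : ι} (h : σ.SameCycle r i) : s i <:+: opened s σ r := by
  apply infix_merge
  rw [List.mem_map]
  exact ⟨i, mem_cyc_aux.2 h, rfl⟩

omit [DecidableEq ι] in
theorem C1.exists_opened_eq_window (hne : ∀ i, s i ≠ []) (r : ι) :
    ∃ k, opened s σ r = window (cycWord s hne σ r) 0 k := by
  obtain ⟨n, hn⟩ : ∃ n, Function.minimalPeriod σ r = n + 1 :=
    Nat.exists_eq_succ_of_ne_zero (minimalPeriod_pos σ r).ne'
  refine ⟨posn s σ r n + (s (σ^[n] r)).length, ?_⟩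
  have h1 := merge_cyc_eq_window hne hn
  unfold opened cyc
  rw [List.map_map]
  exact h1

theorem CycData.opened_free (h : CycData s σ reps) {r r' : ι} (hr : r ∈ reps) (hr' : r' ∈ reps)
    (hrr : r ≠ r') : ¬ opened s σ r <:+: opened s σ r' := by
  classical
  intro hinf
  obtain ⟨k, hk⟩ := exists_opened_eq_window (σ := σ) h.hne r'
  have hns : ¬ σ.SameCycle r r' := by
    intro hc
    obtain ⟨x, hx, hx'⟩ := h.hrep r'
    have h1 := hx' r ⟨hr, hc⟩
    have h2 := hx' r' ⟨hr', Equiv.Perm.SameCycle.refl σ r'⟩
    exact hrr (h1.trans h2.symm)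
  let A1 : Finset ι := Finset.univ.filter (fun i => σ.SameCycle r i)
  let A2 : Finset ι := Finset.univ.filter (fun i => σ.SameCycle r' i)
  have hdis : Disjoint A1 A2 := by
    rw [Finset.disjoint_left]
    intro i h1 h2
    rw [Finset.mem_filter] at h1 h2
    exact hns (h1.2.trans h2.2.symm)
  have hmemr : r ∈ A1 := by
    rw [Finset.mem_filter]
    exact ⟨Finset.mem_univ _, Equiv.Perm.SameCycle.refl σ r⟩
  have hocc : ∀ i ∈ A1 ∪ A2, ∃ y, window (cycWord s h.hne σ r') y (s i).length = s i := by
    intro i hi
    apply exists_window_of_infix (cycWord s h.hne σ r') (i := 0) (k := k)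
    rw [← hk]
    rw [Finset.mem_union, Finset.mem_filter, Finset.mem_filter] at hi
    rcases hi with hi | hi
    · exact (infix_opened_of_sameCycle hi.2).trans hinf
    · exact infix_opened_of_sameCycle hi.2
  have hp0 : 0 < posn s σ r' (Function.minimalPeriod σ r') := by
    have h1 := le_posn (s := s) (σ := σ) (r := r') h.hne (Function.minimalPeriod σ r')
    have h2 := minimalPeriod_pos σ r'
    omega
  have hle := h.weight_le_period (A1 ∪ A2) ⟨r, Finset.mem_union_left _ hmemr⟩ (by
      intro i hi
      rw [Finset.mem_union, Finset.mem_filter, Finset.mem_filter] at hi ⊢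
      rcases hi with hi | hi
      · left
        exact ⟨Finset.mem_univ _, hi.2.apply_right⟩
      · right
        exact ⟨Finset.mem_univ _, hi.2.apply_right⟩)
    (cycWord s h.hne σ r') _ hp0 (cycWord_period h.hne) hocc
  have h3 : posn s σ r' (Function.minimalPeriod σ r') = ∑ i ∈ A2, dist (s i) (s (σ i)) :=
    posn_period_eq
  rw [Finset.sum_union hdis, h3] at hle
  have hpos : 0 < ∑ i ∈ A1, dist (s i) (s (σ i)) :=
    Finset.sum_pos (fun i _ => dist_pos (h.hne i)) ⟨r, hmemr⟩
  omega

theorem CycData.infix_opened (h : CycData s σ reps) (i : ι) :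
    ∃ r ∈ reps, s i <:+: opened s σ r := by
  obtain ⟨r, hr, -⟩ := h.hrep i
  exact ⟨r, hr.1, infix_opened_of_sameCycle hr.2⟩

end Vale.Agent.Lib.P333
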