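import Mathlib
import Vale.Agent.Lib.P333.CycBase
import Vale.Agent.Lib.P333.Cyc2

/-!
P333, module CYC.  Structure of a minimum weight cycle cover of a substring-free family of strings:
assembly of CycBase (rearrangement lemma) and Cyc2 (lengths, main inequality, ratio 7/3).
-/

namespace Vale.Agent.Lib.P333

variable {α : Type*} [DecidableEq α] {ι : Type*} [Fintype ι] [DecidableEq ι]
variable {s : ι → List α} {σ : Equiv.Perm ι} {reps : Finset ι}

/-- the unrolled word of a cycle -/
theorem exists_unroll (hne : ∀ i, s i ≠ []) (r : ι) :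
    Unroll s σ r (C1.cycWord s hne σ r) (C1.posn s σ r) := by
  have hw : wcyc s σ r = C1.posn s σ r (Function.minimalPeriod σ r) := by
    rw [C1.posn_period_eq]
    unfold wcyc
    rw [← sum_finset_cyc]
    refine Finset.sum_congr ?_ fun _ _ => rfl
    ext i
    rw [List.mem_toFinset, mem_cyc, Finset.mem_filter]
    simp
  refine ⟨?_, C1.posn_zero, C1.posn_succ, C1.window_cycWord hne, ?_⟩
  · intro i
    rw [hw]
    exact C1.cycWord_period hne i
  · obtain ⟨k, hk⟩ := C1.exists_opened_eq_window (σ := σ) hne r
    have h1 : (opened s σ r).length = k := by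
      rw [hk, C1.length_window]
    rw [h1, hk]

/-- main inequality (uses `rauzy`) -/
theorem CycData.sum_ov_le (h : CycData s σ reps) {T : List α} (hT : ∀ i, s i <:+: T) :
    ∑ r ∈ reps, ov (s (σ⁻¹ r)) (s r) ≤ T.length + cw s σ :=
  sum_ov_le_aux h (fun r => C1.cycWord s h.hne σ r) (fun r => C1.posn s σ r)
    (fun r _ => exists_unroll h.hne r) h.weight_le_period hT

/-- the opened cycles have a common superstring which is not much longer -/
theorem CycData.exists_superstring (h : CycData s σ reps) {T : List α} (hT : ∀ i, s i <:+: T) :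
    ∃ T' : List α, (∀ r ∈ reps, opened s σ r <:+: T') ∧ T'.length ≤ T.length + cw s σ :=
  exists_superstring_aux h (fun r => C1.cycWord s h.hne σ r) (fun r => C1.posn s σ r)
    (fun r _ => exists_unroll h.hne r) hT

/-- ratio 7/3: if the order `l` of the opened cycles gets at least two thirds of the largest
possible total overlap, the merged string is at most `7/3` times as long as any superstring -/
theorem CycData.seven_thirds (h : CycData s σ reps) {T : List α} (hT : ∀ i, s i <:+: T)
    (l : List ι) (hl : l.Nodup) (hl' : ∀ r, r ∈ l ↔ r ∈ reps)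
    (hopt : ∀ l' : List ι, l'.Nodup → (∀ r, r ∈ l' ↔ r ∈ reps) →
      2 * ovsum (l'.map (opened s σ)) ≤ 3 * ovsum (l.map (opened s σ))) :
    (∀ i, s i <:+: merge (l.map (opened s σ))) ∧
      3 * (merge (l.map (opened s σ))).length ≤ 7 * T.length :=
  seven_thirds_aux h h.cw_le h.sum_ov_le h.exists_superstring h.opened_free h.infix_opened hT
    l hl hl' hopt

end Vale.Agent.Lib.P333
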