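import Mathlib

/-!
P333: encodings of instances and of strings over a finite alphabet.  Letters are natural numbers,
written in binary.
-/

namespace Vale.Agent.Lib.P333

/-- input and output symbols: binary digits, end of a letter, end of a string -/
inductive Sym : Type
  | bit (b : Bool) : Sym
  | comma : Sym
  | semi : Sym
  deriving DecidableEq, Inhabited

instance : Fintype Sym :=
  ⟨{Sym.bit false, Sym.bit true, Sym.comma, Sym.semi}, by
    intro x; cases x with
    | bit b => cases b <;> simp
    | comma => simp
    | semi => simp⟩

/-- a letter: binary digits of the natural number (least significant first), then a comma -/
def encLetter (a : ℕ) : List Sym := (Nat.bits a).map Sym.bit ++ [Sym.comma]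

/-- a string: its letters one after another -/
def encStr (s : List ℕ) : List Sym := s.flatMap encLetter

/-- an instance: its strings one after another, each followed by a semicolon -/
def encInst (S : List (List ℕ)) : List Sym := S.flatMap (fun s => encStr s ++ [Sym.semi])

end Vale.Agent.Lib.P333
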