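import Mathlib
import Vale.Agent.Lib.Common.PolyTime.Typed
import Vale.Agent.Lib.P333.EncDefs

/-!
P333, module IO: encodings of instances and of strings over a finite alphabet, parsing and
unparsing in polynomial time.  Letters are natural numbers, written in binary.
-/

namespace Vale.Agent.Lib.P333

open Vale.Agent.Lib.Common.PolyTime

theorem enc_split {α : Type} {c : α} : ∀ {l l' x y : List α}, c ∉ l → c ∉ l' →
    l ++ c :: x = l' ++ c :: y → l = l' ∧ x = y
  | [], [], x, y, _, _, h => ⟨rfl, by simpa using h⟩
  | [], a :: l', x, y, _, h2, h => by
    exfalso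
    simp only [List.nil_append, List.cons_append, List.cons.injEq] at h
    exact h2 (by rw [← h.1]; exact List.mem_cons_self)
  | a :: l, [], x, y, h1, _, h => by
    exfalso
    simp only [List.nil_append, List.cons_append, List.cons.injEq] at h
    exact h1 (by rw [← h.1]; exact List.mem_cons_self)
  | a :: l, b :: l', x, y, h1, h2, h => by
    simp only [List.cons_append, List.cons.injEq] at h
    obtain ⟨h3, h4⟩ := enc_split (fun hc => h1 (List.mem_cons_of_mem _ hc))
      (fun hc => h2 (List.mem_cons_of_mem _ hc)) h.2
    exact ⟨by rw [h.1, h3], h4⟩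

theorem comma_notMem_bits (a : ℕ) : Sym.comma ∉ (Nat.bits a).map Sym.bit := by
  intro h
  obtain ⟨b, -, hb⟩ := List.mem_map.1 h
  cases hb

theorem bits_injective : Function.Injective Nat.bits := by
  intro a b h
  induction a using Nat.binaryRec' generalizing b with
  | zero =>
    induction b using Nat.binaryRec' with
    | zero => rfl
    | bit c m hm _ =>
      rw [Nat.bits_append_bit _ _ hm, Nat.zero_bits] at h
      cases h
  | bit c m hm ih =>
    induction b using Nat.binaryRec' with
    | zero =>
      rw [Nat.bits_append_bit _ _ hm, Nat.zero_bits] at h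
      cases h
    | bit c' m' hm' _ =>
      rw [Nat.bits_append_bit _ _ hm, Nat.bits_append_bit _ _ hm'] at h
      simp only [List.cons.injEq] at h
      rw [h.1, ih h.2]

theorem bit_injective : Function.Injective Sym.bit := by
  intro a b h
  cases h
  rfl

theorem encStr_cons (a : ℕ) (s : List ℕ) :
    encStr (a :: s) = (Nat.bits a).map Sym.bit ++ Sym.comma :: encStr s := by
  simp [encStr, encLetter]

theorem encStr_injective : Function.Injective encStr := by
  intro s t h
  induction s generalizing t with
  | nil =>
    cases t with
    | nil => rfl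
    | cons b t =>
      rw [encStr_cons] at h
      have := congrArg List.length h
      simp [encStr] at this
  | cons a s ih =>
    cases t with
    | nil =>
      rw [encStr_cons] at h
      have := congrArg List.length h
      simp [encStr] at this
    | cons b t =>
      rw [encStr_cons, encStr_cons] at h
      obtain ⟨h1, h2⟩ := enc_split (comma_notMem_bits a) (comma_notMem_bits b) h
      rw [bits_injective (List.map_injective_iff.2 bit_injective h1), ih h2]

theorem semi_notMem_encStr (s : List ℕ) : Sym.semi ∉ encStr s := by
  intro h
  unfold encStr at h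
  obtain ⟨a, -, ha⟩ := List.mem_flatMap.1 h
  unfold encLetter at ha
  rcases List.mem_append.1 ha with h1 | h1
  · obtain ⟨b, -, hb⟩ := List.mem_map.1 h1
    cases hb
  · rw [List.mem_singleton] at h1
    cases h1

theorem encInst_cons (s : List ℕ) (S : List (List ℕ)) :
    encInst (s :: S) = encStr s ++ Sym.semi :: encInst S := by
  simp [encInst]

theorem encInst_injective : Function.Injective encInst := by
  intro S T h
  induction S generalizing T with
  | nil =>
    cases T with
    | nil => rfl
    | cons t T =>
      rw [encInst_cons] at h
      have := congrArg List.length h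
      simp [encInst] at this
  | cons s S ih =>
    cases T with
    | nil =>
      rw [encInst_cons] at h
      have := congrArg List.length h
      simp [encInst] at this
    | cons t T =>
      rw [encInst_cons, encInst_cons] at h
      obtain ⟨h1, h2⟩ := enc_split (semi_notMem_encStr s) (semi_notMem_encStr t) h
      rw [encStr_injective h1, ih h2]

/-- code of symbols by trees -/
def symD : Sym → D
  | Sym.bit false => D.leaf
  | Sym.bit true => D.node D.leaf D.leaf
  | Sym.comma => D.node D.leaf (D.node D.leaf D.leaf)
  | Sym.semi => D.node D.leaf (D.node D.leaf (D.node D.leaf D.leaf))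

theorem symD_injective : Function.Injective symD := by
  intro a b h
  rcases a with (_ | _) | _ | _ <;> rcases b with (_ | _) | _ | _ <;> simp_all [symD]

instance instTEncSym : TEnc Sym := ⟨symD, symD_injective⟩

/-- state of the parser: letter, string and instance read so far (all reversed) -/
abbrev PState : Type := List Bool × (List (List Bool) × List (List (List Bool)))

/-- one step of the parser -/
def pstep (st : PState) (x : Sym) : PState :=
  if x = Sym.comma then ([], (st.1.reverse :: st.2.1, st.2.2))
  else if x = Sym.semi then (st.1, ([], st.2.1.reverse :: st.2.2))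
  else (decide (x = Sym.bit true) :: st.1, st.2)

theorem sz_list {α : Type} [TEnc α] (l : List α) :
    sz l = (l.map (fun a => sz a + 1)).sum + 1 := by
  induction l with
  | nil => rfl
  | cons a l ih =>
    have h1 : sz (a :: l) = sz a + sz l + 1 := rfl
    rw [h1, ih, List.map_cons, List.sum_cons]
    ring

theorem sz_reverse {α : Type} [TEnc α] (l : List α) : sz l.reverse = sz l := by
  rw [sz_list, sz_list, List.map_reverse, List.sum_reverse]

theorem sz_cons {α : Type} [TEnc α] (a : α) (l : List α) : sz (a :: l) = sz a + sz l + 1 := rfl

theorem sz_nil {α : Type} [TEnc α] : sz ([] : List α) = 1 := rfl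

theorem sz_pair {α β : Type} [TEnc α] [TEnc β] (a : α) (b : β) : sz (a, b) = sz a + sz b + 1 := rfl

theorem sz_bool_le (b : Bool) : sz b ≤ 3 := by
  cases b
  · have : sz false = 1 := rfl
    omega
  · have : sz true = 3 := rfl
    omega

theorem length_le_sz {α : Type} [TEnc α] (l : List α) : l.length ≤ sz l := by
  induction l with
  | nil => exact Nat.zero_le _
  | cons a l ih =>
    rw [sz_cons, List.length_cons]
    omega

theorem sz_pstep_le (st : PState) (x : Sym) : sz (pstep st x) ≤ sz st + 4 := by
  obtain ⟨c, w, S⟩ := st
  unfold pstep
  split_ifs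
  · simp only [sz_pair, sz_cons, sz_nil, sz_reverse]
    omega
  · simp only [sz_pair, sz_cons, sz_nil, sz_reverse]
    omega
  · simp only [sz_pair, sz_cons]
    have := sz_bool_le (decide (x = Sym.bit true))
    omega

theorem sz_pfold_le (l : List Sym) (st : PState) : sz (l.foldl pstep st) ≤ sz st + 4 * l.length := by
  induction l generalizing st with
  | nil => simp
  | cons x l ih =>
    rw [List.foldl_cons, List.length_cons]
    have h1 := ih (pstep st x)
    have h2 := sz_pstep_le st x
    omega

theorem pt_pstep : PT (fun p : List Sym × (PState × Sym) => pstep p.2.1 p.2.2) := by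
  have hst : PT (fun p : List Sym × (PState × Sym) => p.2.1) := PT.fst (PT.snd PT.id)
  have hx : PT (fun p : List Sym × (PState × Sym) => p.2.2) := PT.snd (PT.snd PT.id)
  unfold pstep
  refine PT.ite (PT.decide_eq hx (PT.const _)) ?_ (PT.ite (PT.decide_eq hx (PT.const _)) ?_ ?_)
  · exact PT.pair (PT.const _) (PT.pair (PT.cons (PT.reverse (PT.fst hst)) (PT.fst (PT.snd hst)))
      (PT.snd (PT.snd hst)))
  · exact PT.pair (PT.fst hst) (PT.pair (PT.const _)
      (PT.cons (PT.reverse (PT.fst (PT.snd hst))) (PT.snd (PT.snd hst))))
  · exact PT.pair (PT.cons (PT.decide_eq hx (PT.const _)) (PT.fst hst)) (PT.snd hst)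

/-- the parser -/
def parse (l : List Sym) : List (List (List Bool)) := (l.foldl pstep ([], ([], []))).2.2.reverse

theorem pt_parse : PT parse := by
  unfold parse
  refine PT.reverse (PT.snd (PT.snd ?_))
  refine PT.foldl (step := fun (_ : List Sym) st x => pstep st x) (l := fun l => l)
    (init := fun _ => ([], ([], []))) pt_pstep PT.id (PT.const _)
    (Polynomial.C 5 + Polynomial.C 4 * Polynomial.X) ?_
  intro l l₁ l₂ h
  have h1 := sz_pfold_le l₁ ([], ([], []))
  have h2 : sz (([], ([], [])) : PState) = 5 := rfl
  have h3 := length_le_sz l
  have h4 : l₁.length ≤ l.length := by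
    rw [h, List.length_append]
    omega
  rw [Polynomial.eval_add, Polynomial.eval_mul, Polynomial.eval_C, Polynomial.eval_C,
    Polynomial.eval_X]
  rw [h2] at h1
  change sz (l₁.foldl pstep ([], ([], []))) ≤ _
  omega

theorem pfold_bits (l : List Bool) (c : List Bool) (w : List (List Bool))
    (S : List (List (List Bool))) :
    (l.map Sym.bit).foldl pstep (c, (w, S)) = (l.reverse ++ c, (w, S)) := by
  induction l generalizing c with
  | nil => rfl
  | cons b l ih =>
    rw [List.map_cons, List.foldl_cons]
    have h : pstep (c, (w, S)) (Sym.bit b) = (b :: c, (w, S)) := by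
      cases b <;> simp [pstep]
    rw [h, ih]
    simp

theorem pfold_str (s : List ℕ) (w : List (List Bool)) (S : List (List (List Bool))) :
    (encStr s).foldl pstep ([], (w, S)) = ([], ((s.map Nat.bits).reverse ++ w, S)) := by
  induction s generalizing w with
  | nil => rfl
  | cons a s ih =>
    rw [encStr_cons, List.foldl_append, pfold_bits, List.foldl_cons]
    have h : pstep ((Nat.bits a).reverse ++ [], (w, S)) Sym.comma = ([], (Nat.bits a :: w, S)) := by
      simp [pstep]
    rw [h, ih]
    simp

theorem pfold_inst (T : List (List ℕ)) (S : List (List (List Bool))) :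
    (encInst T).foldl pstep ([], ([], S)) =
      ([], ([], (T.map (fun s => s.map Nat.bits)).reverse ++ S)) := by
  induction T generalizing S with
  | nil => rfl
  | cons t T ih =>
    rw [encInst_cons, List.foldl_append, pfold_str, List.foldl_cons]
    have h : pstep ([], ((t.map Nat.bits).reverse ++ [], S)) Sym.semi =
        ([], ([], t.map Nat.bits :: S)) := by
      simp [pstep]
    rw [h, ih]
    simp

theorem parse_encInst (T : List (List ℕ)) : parse (encInst T) = T.map (fun s => s.map Nat.bits) := by
  unfold parse
  rw [pfold_inst]
  simp

theorem pt_bit : PT (fun b : Bool => Sym.bit b) := by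
  have h : (fun b : Bool => Sym.bit b) =
      fun b : Bool => bif b then Sym.bit true else Sym.bit false := by
    funext b
    cases b <;> rfl
  rw [h]
  exact PT.bif PT.id (PT.const _) (PT.const _)

/-- the unparser -/
def unparse (L : List (List Bool)) : List Sym := L.flatMap (fun l => l.map Sym.bit ++ [Sym.comma])

theorem pt_unparse : PT unparse := by
  unfold unparse
  exact PT.flatMap (f := fun (_ : List (List Bool)) (l : List Bool) => l.map Sym.bit ++ [Sym.comma])
    (PT.append (PT.map (f := fun (_ : List (List Bool) × List Bool) (b : Bool) => Sym.bit b)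
      (PT.comp pt_bit (PT.snd PT.id)) (PT.snd PT.id)) (PT.const _)) PT.id

theorem unparse_map (s : List ℕ) : unparse (s.map Nat.bits) = encStr s := by
  unfold unparse encStr encLetter
  rw [List.flatMap_map]

end Vale.Agent.Lib.P333
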