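import Mathlib
import Vale.Agent.Lib.P333.Alg
import Vale.Agent.Lib.P333.Str

/-!
P333: the superstring algorithm (executable definitions).
-/

namespace Vale.Agent.Lib.P333

variable {α : Type*} [DecidableEq α]

/-- `s` occurs in `t` -/
def isInf (s t : List α) : Bool := (List.range (t.length + 1)).any (fun i => (t.drop i).take s.length == s)

/-- drop strings which occur in another one, empty strings and repetitions -/
def reduceS (S : List (List α)) : List (List α) :=
  S.foldl (fun R s => if R.any (fun t => isInf s t) then R else s :: R.filter (fun t => !(isInf t s))) []

/-- matrix of overlaps -/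
def ovMat (S : List (List α)) : Alg.Mat :=
  Alg.mkMat S.length (fun i j => ov (S.getD i []) (S.getD j []))

/-- the cycle of `r` in the permutation `C` (list of images) -/
def cycL (C : List ℕ) (r : ℕ) : List ℕ :=
  ((List.range C.length).foldl (fun (p : ℕ × List ℕ) _ =>
    if p.1 = C.length then p
    else
      let t := C.getD p.1 0
      (if t = r then C.length else t, p.2 ++ [p.1])) (r, [])).2

/-- overlap at the edge entering `r` -/
def ovIn (S : List (List α)) (C : List ℕ) (r : ℕ) : ℕ :=
  ov (S.getD (C.idxOf r) []) (S.getD r [])

/-- representatives of the cycles: the entering edge has minimum overlap (first such vertex) -/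
def repsL (S : List (List α)) (C : List ℕ) : List ℕ :=
  (List.range C.length).filter (fun r => (cycL C r).all (fun j =>
    decide (ovIn S C r < ovIn S C j) || (ovIn S C r == ovIn S C j && decide (r ≤ j))))

/-- the opened cycles -/
def openL (S : List (List α)) (C : List ℕ) : List (List α) :=
  (repsL S C).map (fun r => merge ((cycL C r).map (fun i => S.getD i [])))

/-- the superstring algorithm -/
def sst (S : List (List α)) : List α :=
  let S' := reduceS S
  let C := Alg.assign S'.length (ovMat S')
  let R := openL S' C
  merge ((Alg.atsp R.length (ovMat R)).map (fun i => R.getD i []))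

end Vale.Agent.Lib.P333
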