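import Mathlib
import Vale.Agent.Lib.Common.PolyTime.Typed
import Vale.Agent.Lib.P333.Alg

/-! P333, module PT-ASSIGN: the assignment solver runs in polynomial time. -/

namespace Vale.Agent.Lib.P333.Alg

open Vale.Agent.Lib.Common.PolyTime

/-! ### sizes -/

theorem sz_nat (n : ℕ) : sz n = 2 * n + 1 := by
  induction n with
  | zero => rfl
  | succ n ih =>
    have h : sz (n + 1) = sz (0 : ℕ) + sz n + 1 := rfl
    rw [h, ih]
    have h0 : sz (0 : ℕ) = 1 := rfl
    omega

theorem sz_prod {α β : Type} [TEnc α] [TEnc β] (p : α × β) : sz p = sz p.1 + sz p.2 + 1 := rfl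

theorem sz_nil {α : Type} [TEnc α] : sz ([] : List α) = 1 := rfl

theorem sz_cons {α : Type} [TEnc α] (a : α) (l : List α) : sz (a :: l) = sz a + sz l + 1 := rfl

theorem length_le_sz {α : Type} [TEnc α] (l : List α) : l.length ≤ sz l := by
  induction l with
  | nil => simp
  | cons a l ih => rw [sz_cons, List.length_cons]; omega

theorem mem_le_sz {α : Type} [TEnc α] (l : List α) : ∀ x ∈ l, sz x ≤ sz l := by
  induction l with
  | nil => simp
  | cons a l ih =>
    intro x hx
    rw [sz_cons]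
    rcases List.mem_cons.1 hx with rfl | hx
    · omega
    · have := ih x hx
      omega

theorem nat_le_sz (n : ℕ) : n ≤ sz n := by rw [sz_nat]; omega

theorem sz_list_nat_le (l : List ℕ) (b : ℕ) (h : ∀ x ∈ l, x ≤ b) :
    sz l ≤ l.length * (2 * b + 2) + 1 := by
  induction l with
  | nil => simp [sz_nil]
  | cons a l ih =>
    rw [sz_cons, sz_nat, List.length_cons]
    have h1 := h a List.mem_cons_self
    have h2 := ih fun x hx => h x (List.mem_cons_of_mem _ hx)
    nlinarith

/-! ### pieces -/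

theorem pt_ent : PT (fun x : Mat × ℕ × ℕ => ent x.1 x.2.1 x.2.2) := by
  unfold ent
  fun_prop

variable {α : Type} [TEnc α]

theorem foldl_max_le (l : List ℕ) (d b : ℕ) (hd : d ≤ b) (h : ∀ x ∈ l, x ≤ b) :
    l.foldl max d ≤ b := by
  induction l generalizing d with
  | nil => exact hd
  | cons a l ih =>
    exact ih (max d a) (max_le hd (h a List.mem_cons_self))
      fun x hx => h x (List.mem_cons_of_mem _ hx)

theorem pt_foldlMax' : PT (fun r : List ℕ => r.foldl max 0) := by
  refine PT.foldl (step := fun (_ : List ℕ) (s x : ℕ) => max s x) (init := fun _ => 0)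
    (by fun_prop) (by fun_prop) (by fun_prop) (2 * Polynomial.X + 1) ?_
  intro a l₁ l₂ h
  have h1 : l₁.foldl (fun s x => max s x) 0 ≤ sz a := by
    refine foldl_max_le l₁ 0 (sz a) (Nat.zero_le _) fun x hx => ?_
    have h2 : x ∈ a := by rw [h]; exact List.mem_append_left _ hx
    exact (nat_le_sz x).trans (mem_le_sz a x h2)
  simp only [Polynomial.eval_add, Polynomial.eval_mul, Polynomial.eval_ofNat, Polynomial.eval_X,
    Polynomial.eval_one]
  rw [sz_nat]
  omega

@[fun_prop] theorem pt_foldlMax {l : α → List ℕ} (hl : PT l) :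
    PT (fun a => (l a).foldl max 0) := PT.comp pt_foldlMax' hl

@[fun_prop] theorem pt_maxEnt {W : α → Mat} (hW : PT W) : PT (fun a => maxEnt (W a)) := by
  unfold maxEnt
  fun_prop

@[fun_prop] theorem pt_rounds {n : α → ℕ} {W : α → Mat} (hn : PT n) (hW : PT W) :
    PT (fun a => rounds (n a) (W a)) := by
  unfold rounds
  fun_prop

@[fun_prop] theorem pt_ent' {W : α → Mat} {i j : α → ℕ} (hW : PT W) (hi : PT i) (hj : PT j) :
    PT (fun a => ent (W a) (i a) (j a)) := by
  unfold ent
  fun_prop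

theorem argmax_mem (key : ℕ → ℕ) (l : List ℕ) (d : ℕ) :
    argmax key l d = d ∨ argmax key l d ∈ l := by
  unfold argmax
  induction l generalizing d with
  | nil => simp
  | cons a l ih =>
    simp only [List.foldl_cons]
    rcases ih (if key d < key a then a else d) with h1 | h1
    · rw [h1]
      split_ifs
      · exact Or.inr List.mem_cons_self
      · exact Or.inl rfl
    · exact Or.inr (List.mem_cons_of_mem _ h1)

theorem pt_argmax {key : α → ℕ → ℕ} {l : α → List ℕ} {d : α → ℕ}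
    (hk : PT (fun x : α × ℕ => key x.1 x.2)) (hl : PT l) (hd : PT d) :
    PT (fun a => argmax (key a) (l a) (d a)) := by
  obtain ⟨p, hp⟩ := hl.size_le
  obtain ⟨q, hq⟩ := hd.size_le
  have hk1 : PT (fun x : α × ℕ × ℕ => key x.1 x.2.1) :=
    PT.comp (g := fun x : α × ℕ × ℕ => (x.1, x.2.1)) hk (by fun_prop)
  have hk2 : PT (fun x : α × ℕ × ℕ => key x.1 x.2.2) :=
    PT.comp (g := fun x : α × ℕ × ℕ => (x.1, x.2.2)) hk (by fun_prop)
  refine PT.foldl (step := fun (a : α) (b j : ℕ) => if key a b < key a j then j else b)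
    (PT.ite (PT.decide_lt hk1 hk2) (by fun_prop) (by fun_prop)) hl hd (p + q) ?_
  intro a l₁ l₂ h
  have h1 := argmax_mem (key a) l₁ (d a)
  have h2 : sz (argmax (key a) l₁ (d a)) ≤ sz (l a) + sz (d a) := by
    rcases h1 with h1 | h1
    · rw [h1]; omega
    · have h3 : argmax (key a) l₁ (d a) ∈ l a := by rw [h]; exact List.mem_append_left _ h1
      have := mem_le_sz (l a) _ h3
      omega
  refine h2.trans ?_
  rw [Polynomial.eval_add]
  exact add_le_add (hp a) (hq a)

/-- context of a bid -/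
abbrev Ctx := (ℕ × Mat × ℕ) × (List ℕ × List ℕ)

theorem pt_bid' : PT (fun x : Ctx => bid x.1.1 x.1.2.1 x.1.2.2 x.2) := by
  have hkey : PT (fun y : (Ctx × ℕ) × ℕ => (y.1.1.1.1 + 1) * ent y.1.1.1.2.1 y.1.2 y.2 +
      (y.1.1.1.2.2 - y.1.1.2.1.getD y.2 0)) := by
    fun_prop
  have hj : PT (fun y : Ctx × ℕ => argmax (fun j => (y.1.1.1 + 1) * ent y.1.1.2.1 y.2 j +
      (y.1.1.2.2 - y.1.2.1.getD j 0)) (List.range y.1.1.1) 0) :=
    pt_argmax (key := fun (y : Ctx × ℕ) j => (y.1.1.1 + 1) * ent y.1.1.2.1 y.2 j +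
      (y.1.1.2.2 - y.1.2.1.getD j 0)) hkey (by fun_prop) (by fun_prop)
  have hfun : (fun x : Ctx => bid x.1.1 x.1.2.1 x.1.2.2 x.2) = fun x : Ctx =>
      Option.casesOn (motive := fun _ => List ℕ × List ℕ)
        ((List.range x.1.1).find? (fun i => !(x.2.2.contains (i + 1)))) x.2
        (fun i => (x.2.1.set (argmax (fun j => (x.1.1 + 1) * ent x.1.2.1 i j +
            (x.1.2.2 - x.2.1.getD j 0)) (List.range x.1.1) 0)
          (x.2.1.getD (argmax (fun j => (x.1.1 + 1) * ent x.1.2.1 i j +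
            (x.1.2.2 - x.2.1.getD j 0)) (List.range x.1.1) 0) 0 + 1),
          x.2.2.set (argmax (fun j => (x.1.1 + 1) * ent x.1.2.1 i j +
            (x.1.2.2 - x.2.1.getD j 0)) (List.range x.1.1) 0) (i + 1))) := by
    funext x
    unfold bid
    cases (List.range x.1.1).find? (fun i => !(x.2.2.contains (i + 1))) <;> rfl
  rw [hfun]
  refine PT.optionCases (by fun_prop) (by fun_prop) ?_
  exact PT.pair (PT.set (by fun_prop) hj (PT.succ (PT.getD (by fun_prop) hj (by fun_prop))))
    (PT.set (by fun_prop) hj (by fun_prop))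

theorem bid_inv (n : ℕ) (W : Mat) (B m : ℕ) (s : List ℕ × List ℕ)
    (h1 : s.1.length = n) (h2 : s.2.length = n) (h3 : ∀ x ∈ s.1, x ≤ m) (h4 : ∀ x ∈ s.2, x ≤ n) :
    (bid n W B s).1.length = n ∧ (bid n W B s).2.length = n ∧ (∀ x ∈ (bid n W B s).1, x ≤ m + 1) ∧
      ∀ x ∈ (bid n W B s).2, x ≤ n := by
  unfold bid
  split
  · exact ⟨h1, h2, fun x hx => (h3 x hx).trans (Nat.le_succ _), h4⟩
  · rename_i i hi
    have hin : i < n := List.mem_range.1 (List.mem_of_find?_eq_some hi)
    refine ⟨by simpa using h1, by simpa using h2, ?_, ?_⟩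
    · intro x hx
      rcases List.mem_or_eq_of_mem_set hx with h | h
      · exact (h3 x h).trans (Nat.le_succ _)
      · rw [h]
        refine Nat.succ_le_succ ?_
        set j := argmax (fun j => (n + 1) * ent W i j + (B - s.1.getD j 0)) (List.range n) 0
        by_cases hj : j < s.1.length
        · rw [List.getD_eq_getElem _ _ hj]
          exact h3 _ (List.getElem_mem hj)
        · rw [List.getD_eq_default _ _ (not_lt.1 hj)]
          exact Nat.zero_le _
    · intro x hx
      rcases List.mem_or_eq_of_mem_set hx with h | h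
      · exact h4 x h
      · rw [h]
        exact hin

theorem foldl_bid_inv (n : ℕ) (W : Mat) (B : ℕ) (l : List ℕ) :
    ∀ (m : ℕ) (s : List ℕ × List ℕ),
    s.1.length = n → s.2.length = n → (∀ x ∈ s.1, x ≤ m) → (∀ x ∈ s.2, x ≤ n) →
    (l.foldl (fun s _ => bid n W B s) s).1.length = n ∧
      (l.foldl (fun s _ => bid n W B s) s).2.length = n ∧
      (∀ x ∈ (l.foldl (fun s _ => bid n W B s) s).1, x ≤ m + l.length) ∧
      ∀ x ∈ (l.foldl (fun s _ => bid n W B s) s).2, x ≤ n := by
  induction l with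
  | nil => intro m s h1 h2 h3 h4; exact ⟨h1, h2, by simpa using h3, h4⟩
  | cons a l ih =>
    intro m s h1 h2 h3 h4
    obtain ⟨k1, k2, k3, k4⟩ := bid_inv n W B m s h1 h2 h3 h4
    obtain ⟨g1, g2, g3, g4⟩ := ih (m + 1) (bid n W B s) k1 k2 k3 k4
    refine ⟨g1, g2, fun x hx => ?_, g4⟩
    have := g3 x hx
    rw [List.length_cons]
    omega

theorem pt_auction : PT (fun x : ℕ × Mat => auction x.1 x.2) := by
  have hr : PT (fun x : ℕ × Mat => rounds x.1 x.2) := by fun_prop
  obtain ⟨q, hq⟩ := hr.size_le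
  have hbid : PT (fun y : (ℕ × Mat) × (List ℕ × List ℕ) × ℕ =>
      bid y.1.1 y.1.2 (rounds y.1.1 y.1.2) y.2.1) :=
    PT.comp (g := fun y : (ℕ × Mat) × (List ℕ × List ℕ) × ℕ =>
      (((y.1.1, y.1.2, rounds y.1.1 y.1.2), y.2.1) : Ctx)) pt_bid' (by fun_prop)
  unfold auction
  refine PT.foldl (step := fun (x : ℕ × Mat) (s : List ℕ × List ℕ) (_ : ℕ) =>
    bid x.1 x.2 (rounds x.1 x.2) s) hbid (by fun_prop) (by fun_prop)
    ((Polynomial.X * (2 * q + 2) + 1) + (Polynomial.X * (2 * Polynomial.X + 2) + 1) + 1) ?_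
  intro x l₁ l₂ h
  obtain ⟨h1, h2, h3, h4⟩ := foldl_bid_inv x.1 x.2 (rounds x.1 x.2) l₁ 0
    (List.replicate x.1 0, List.replicate x.1 0) (by simp) (by simp)
    (fun y hy => by rw [List.eq_of_mem_replicate hy])
    (fun y hy => by rw [List.eq_of_mem_replicate hy]; exact Nat.zero_le _)
  have hl : l₁.length ≤ rounds x.1 x.2 := by
    have := congrArg List.length h
    rw [List.length_range, List.length_append] at this
    omega
  have hR : rounds x.1 x.2 ≤ q.eval (sz x) := (nat_le_sz _).trans (hq x)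
  have hn : x.1 ≤ sz x := by
    rw [sz_prod]
    have := nat_le_sz x.1
    omega
  set s := l₁.foldl (fun s _ => bid x.1 x.2 (rounds x.1 x.2) s)
    (List.replicate x.1 0, List.replicate x.1 0)
  have e1 := sz_list_nat_le s.1 (q.eval (sz x)) fun y hy => by
    have := h3 y hy
    omega
  have e2 := sz_list_nat_le s.2 (sz x) fun y hy => (h4 y hy).trans hn
  rw [h1] at e1
  rw [h2] at e2
  have e3 : x.1 * (2 * q.eval (sz x) + 2) ≤ sz x * (2 * q.eval (sz x) + 2) :=
    Nat.mul_le_mul_right _ hn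
  have e4 : x.1 * (2 * sz x + 2) ≤ sz x * (2 * sz x + 2) := Nat.mul_le_mul_right _ hn
  rw [sz_prod]
  simp only [Polynomial.eval_add, Polynomial.eval_mul, Polynomial.eval_ofNat, Polynomial.eval_X,
    Polynomial.eval_one]
  omega

theorem pt_assign : PT (fun x : ℕ × Mat => assign x.1 x.2) := by
  have h := pt_auction
  unfold assign
  refine PT.map (f := fun (x : ℕ × Mat) (i : ℕ) => (auction x.1 x.2).2.idxOf (i + 1)) ?_
    (by fun_prop)
  have h2 : PT (fun p : (ℕ × Mat) × ℕ => (auction p.1.1 p.1.2)) :=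
    PT.comp (g := fun p : (ℕ × Mat) × ℕ => p.1) h (by fun_prop)
  exact PT.idxOf (PT.snd h2) (by fun_prop)

end Vale.Agent.Lib.P333.Alg
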