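import Mathlib
import Vale.Agent.Lib.P333.PTAssign
import Vale.Agent.Lib.Common.PolyTime.FoldTools

/-! P333, module PT-ATSP: the path cover algorithm runs in polynomial time. -/

namespace Vale.Agent.Lib.P333.Alg

open Vale.Agent.Lib.Common.PolyTime

variable {α : Type} [TEnc α]

section Basic

variable {W : α → Mat} {P Q G : α → List Arc} {X : α → List CArc} {S B C D : α → List ℕ}
  {n v i j k c z s : α → ℕ} {e p : α → Arc}

@[fun_prop] theorem pt_mkMat {f : α → ℕ → ℕ → ℕ} (hn : PT n)
    (hf : PT (fun x : α × ℕ × ℕ => f x.1 x.2.1 x.2.2)) :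
    PT (fun a => mkMat (n a) (f a)) := by
  unfold mkMat
  fun_prop

@[fun_prop] theorem pt_wt (hW : PT W) (hP : PT P) : PT (fun a => wt (W a) (P a)) := by
  unfold wt
  fun_prop

@[fun_prop] theorem pt_next (hP : PT P) (hv : PT v) : PT (fun a => next (P a) (v a)) := by
  unfold next
  fun_prop

@[fun_prop] theorem pt_cls (hc : PT c) (hX : PT X) : PT (fun a => cls (c a) (X a)) := by
  unfold cls
  fun_prop

@[fun_prop] theorem pt_inc (hv : PT v) (hp : PT p) : PT (fun a => inc (v a) (p a)) := by
  unfold inc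
  fun_prop

@[fun_prop] theorem pt_deg (hG : PT G) (hv : PT v) : PT (fun a => deg (G a) (v a)) := by
  unfold deg
  fun_prop

@[fun_prop] theorem pt_inside (hS : PT S) (hP : PT P) : PT (fun a => inside (S a) (P a)) := by
  unfold inside
  fun_prop

@[fun_prop] theorem pt_total (hW : PT W) : PT (fun a => total (W a)) := by
  unfold total
  fun_prop

@[fun_prop] theorem pt_permArcs (hn : PT n) (hC : PT C) :
    PT (fun a => permArcs (n a) (C a)) := by
  unfold permArcs
  fun_prop

@[fun_prop] theorem pt_twoCycles (hn : PT n) (hC : PT C) :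
    PT (fun a => twoCycles (n a) (C a)) := by
  unfold twoCycles
  fun_prop

@[fun_prop] theorem pt_relArcs (hn : PT n) (hP : PT P) (hC : PT C) :
    PT (fun a => relArcs (n a) (P a) (C a)) := by
  unfold relArcs
  fun_prop

@[fun_prop] theorem pt_relSpec (hn : PT n) (hP : PT P) (hC : PT C) :
    PT (fun a => relSpec (n a) (P a) (C a)) := by
  unfold relSpec
  fun_prop

@[fun_prop] theorem pt_colGraph (hn : PT n) (hC : PT C) (hP : PT P) (hQ : PT Q) :
    PT (fun a => colGraph (n a) (C a) (P a) (Q a)) := by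
  unfold colGraph
  fun_prop

@[fun_prop] theorem pt_specGroup (hW : PT W) (hp : PT p) :
    PT (fun a => specGroup (W a) (p a)) := by
  unfold specGroup
  fun_prop

@[fun_prop] theorem pt_arcPerm (hn : PT n) (hP : PT P) :
    PT (fun a => arcPerm (n a) (P a)) := by
  unfold arcPerm
  fun_prop

@[fun_prop] theorem pt_zeroDiag (hn : PT n) (hW : PT W) :
    PT (fun a => zeroDiag (n a) (W a)) := by
  unfold zeroDiag
  fun_prop

@[fun_prop] theorem pt_gadget (hn : PT n) (hW : PT W) (hP : PT P) (hk : PT k) :
    PT (fun a => gadget (n a) (W a) (P a) (k a)) := by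
  unfold gadget
  fun_prop

@[fun_prop] theorem pt_shortcuts (hG : PT G) (hz : PT z) :
    PT (fun a => shortcuts (G a) (z a)) := by
  unfold shortcuts
  fun_prop

end Basic

theorem sz_next_le (P : List Arc) (v : ℕ) : sz (next P v) ≤ sz P + 2 := by
  unfold next
  cases h : P.find? (fun a => a.1 == v) with
  | none =>
    rw [Option.map_none, sz_none]
    omega
  | some a =>
    rw [Option.map_some, sz_some]
    have h1 := sz_lt_of_mem (List.mem_of_find?_eq_some h)
    have h2 : sz a = sz a.1 + sz a.2 + 1 := sz_pair a.1 a.2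
    omega

theorem pt_walk' : PT (fun x : List Arc × ℕ × ℕ => walk x.1 x.2.1 x.2.2) := by
  unfold walk
  refine PT.foldl_le (step := fun (x : List Arc × ℕ × ℕ) (o : Option ℕ) (_ : ℕ) =>
    o.bind (next x.1)) (h := fun x : List Arc × ℕ × ℕ => x) (by fun_prop) (by fun_prop)
    (by fun_prop) (by fun_prop) ?_
  rintro ⟨P, n, v⟩ l₁ l₂ -
  rw [sz_pair, sz_pair]
  simp only
  have hn := sz_pos n
  rcases List.eq_nil_or_concat l₁ with rfl | ⟨l, b, rfl⟩
  · rw [List.foldl_nil, sz_some]
    have := sz_pos P
    omega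
  · rw [List.concat_eq_append, List.foldl_append, List.foldl_cons, List.foldl_nil]
    cases (List.foldl (fun (o : Option ℕ) (_ : ℕ) => o.bind (next P)) (some v) l) with
    | none =>
      rw [Option.bind_none, sz_none]
      omega
    | some u =>
      rw [Option.bind_some]
      have := sz_next_le P u
      have := sz_pos v
      omega

@[fun_prop] theorem pt_walk {P : α → List Arc} {n v : α → ℕ} (hP : PT P) (hn : PT n)
    (hv : PT v) : PT (fun a => walk (P a) (n a) (v a)) := by
  have h := pt_walk'.comp (hP.pair (hn.pair hv))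
  exact h

@[fun_prop] theorem pt_isPC {P : α → List Arc} {n : α → ℕ} (hn : PT n) (hP : PT P) :
    PT (fun a => isPC (n a) (P a)) := by
  unfold isPC
  fun_prop

@[fun_prop] theorem pt_okCol {n : α → ℕ} {B : α → List ℕ} {X : α → List CArc} (hn : PT n)
    (hB : PT B) (hX : PT X) : PT (fun a => okCol (n a) (B a) (X a)) := by
  unfold okCol
  fun_prop

@[fun_prop] theorem pt_words {n : α → ℕ} (hn : PT n) : PT (fun a => words (min (n a) 4)) := by
  have h : (fun a => words (min (n a) 4)) = fun a =>
      if n a = 0 then words 0 else if n a = 1 then words 1 else if n a = 2 then words 2 else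
        if n a = 3 then words 3 else words 4 := by
    funext a
    split_ifs with h0 h1 h2 h3
    · rw [h0]; rfl
    · rw [h1]; rfl
    · rw [h2]; rfl
    · rw [h3]; rfl
    · rw [min_eq_right (by omega)]
  rw [h]
  fun_prop

@[fun_prop] theorem pt_insertGroup {n : α → ℕ} {B : α → List ℕ} {X : α → List CArc}
    {g : α → List Arc} (hn : PT n) (hB : PT B) (hX : PT X) (hg : PT g) :
    PT (fun a => insertGroup (n a) (B a) (X a) (g a)) := by
  unfold insertGroup
  fun_prop

theorem sz_words_le : ∀ k ≤ 4, ∀ w ∈ words k, sz w ≤ 25 := by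
  intro k hk
  interval_cases k <;> decide +kernel

theorem sz_zip_le {β γ : Type} [TEnc β] [TEnc γ] (l : List β) (m : List γ) :
    sz (l.zip m) ≤ sz l + sz m := by
  induction l generalizing m with
  | nil => simp only [List.zip_nil_left, sz_nil]; omega
  | cons a l ih =>
    cases m with
    | nil => simp only [List.zip_nil_right, sz_nil]; omega
    | cons b m =>
      rw [List.zip_cons_cons, sz_cons, sz_cons, sz_cons, sz_pair]
      have := ih m
      omega

theorem sz_map_zero_le (g : List Arc) : sz (g.map (fun a => (a, 0))) ≤ 3 * sz g := by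
  induction g with
  | nil => simp only [List.map_nil, sz_nil]; omega
  | cons a l ih =>
    rw [List.map_cons, sz_cons, sz_cons, sz_pair]
    have h0 : sz (0 : ℕ) = 1 := rfl
    have := sz_pos a
    omega

theorem sz_insertGroup_le (n : ℕ) (B : List ℕ) (X : List CArc) (g : List Arc) :
    sz (insertGroup n B X g) ≤ sz X + 28 * sz g := by
  unfold insertGroup
  have hg := sz_pos g
  cases h : ((words (min g.length 4)).map (fun w => g.zip w ++ X)).find?
      (fun Y => okCol n B Y) with
  | none =>
    rw [Option.getD_none]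
    have h1 := sz_append_le (g.map (fun a => (a, 0))) X
    have h2 := sz_map_zero_le g
    omega
  | some Y =>
    rw [Option.getD_some]
    obtain ⟨w, hw, rfl⟩ := List.mem_map.1 (List.mem_of_find?_eq_some h)
    have h1 := sz_append_le (g.zip w) X
    have h2 := sz_zip_le g w
    have h3 := sz_words_le _ (min_le_right _ _) w hw
    omega

@[fun_prop] theorem pt_elimStep {n : α → ℕ} {s : α → List Arc × List (List Arc)} (hn : PT n)
    (hs : PT s) : PT (fun a => elimStep (n a) (s a)) := by
  have h : (fun a => elimStep (n a) (s a)) = fun a =>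
      Option.casesOn (motive := fun _ => List Arc × List (List Arc))
      ((List.range (n a)).find?
        (fun v => decide (0 < deg (s a).1 v) && decide (deg (s a).1 v ≤ 3))) (s a)
      (fun v => ((s a).1.filter (fun b => !(inc v b)),
        ((s a).1.filter (fun b => inc v b)) :: (s a).2)) := by
    funext a
    unfold elimStep
    cases (List.range (n a)).find?
      (fun v => decide (0 < deg (s a).1 v) && decide (deg (s a).1 v ≤ 3)) <;> rfl
  rw [h]
  fun_prop

theorem sz_elimStep_le (n : ℕ) (s : List Arc × List (List Arc)) :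
    sz (elimStep n s) ≤ sz s + 2 := by
  unfold elimStep
  cases (List.range n).find? (fun v => decide (0 < deg s.1 v) && decide (deg s.1 v ≤ 3)) with
  | none => simp only; omega
  | some v =>
    simp only
    have h1 := sz_filter_add (fun a => inc v a) s.1
    have h2 : sz s = sz s.1 + sz s.2 + 1 := sz_pair s.1 s.2
    rw [sz_pair, sz_cons]
    omega

theorem pt_elim' : PT (fun x : ℕ × List Arc => elim x.1 x.2) := by
  unfold elim
  refine PT.snd ?_
  refine PT.foldl_add (step := fun (x : ℕ × List Arc) (s : List Arc × List (List Arc)) (_ : ℕ) =>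
    elimStep x.1 s) (h := fun (_ : ℕ × List Arc) (_ : ℕ) => [((), ())]) (by fun_prop)
    (by fun_prop) (by fun_prop) (by fun_prop) ?_
  intro a s b _
  have h : 2 ≤ sz [((), ())] := by decide
  have h2 := sz_elimStep_le a.1 s
  omega

@[fun_prop] theorem pt_elim {n : α → ℕ} {G : α → List Arc} (hn : PT n) (hG : PT G) :
    PT (fun a => elim (n a) (G a)) := by
  have h := pt_elim'.comp (hn.pair hG)
  exact h

theorem pt_colour' : PT (fun x : ℕ × List ℕ × List CArc × List (List Arc) =>
    colour x.1 x.2.1 x.2.2.1 x.2.2.2) := by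
  unfold colour
  refine PT.foldl_add (step := fun (x : ℕ × List ℕ × List CArc × List (List Arc))
      (X : List CArc) (g : List Arc) => insertGroup x.1 x.2.1 X g)
    (h := fun (_ : ℕ × List ℕ × List CArc × List (List Arc)) (g : List Arc) =>
      List.replicate 28 g) (by fun_prop) (by fun_prop) (by fun_prop) (by fun_prop) ?_
  intro a s b _
  have h2 := sz_insertGroup_le a.1 a.2.1 s b
  have h3 : 28 * sz b ≤ sz (List.replicate 28 b) := by
    simp only [List.replicate, sz_cons, sz_nil]
    omega
  omega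

@[fun_prop] theorem pt_colour {n : α → ℕ} {B : α → List ℕ} {X : α → List CArc}
    {g : α → List (List Arc)} (hn : PT n) (hB : PT B) (hX : PT X) (hg : PT g) :
    PT (fun a => colour (n a) (B a) (X a) (g a)) := by
  have h := pt_colour'.comp (hn.pair (hB.pair (hX.pair hg)))
  exact h

theorem pt_comp' : PT (fun x : ℕ × List Arc × ℕ => comp x.1 x.2.1 x.2.2) := by
  unfold comp
  refine PT.foldl_le (step := fun (x : ℕ × List Arc × ℕ) (S : List ℕ) (_ : ℕ) =>
    (List.range x.1).filter (fun u =>
    S.contains u || x.2.1.any (fun a => (a.1 == u && S.contains a.2) ||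
      (a.2 == u && S.contains a.1))))
    (h := fun x : ℕ × List Arc × ℕ => (List.range x.1, [x.2.2])) (by fun_prop) (by fun_prop)
    (by fun_prop) (by fun_prop) ?_
  rintro ⟨n, G, v⟩ l₁ l₂ -
  rw [sz_pair]
  simp only
  rcases List.eq_nil_or_concat l₁ with rfl | ⟨l, b, rfl⟩
  · rw [List.foldl_nil]
    omega
  · rw [List.concat_eq_append, List.foldl_append, List.foldl_cons, List.foldl_nil]
    refine (sz_filter_le _ _).trans ?_
    omega

@[fun_prop] theorem pt_comp {n v : α → ℕ} {G : α → List Arc} (hn : PT n) (hG : PT G)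
    (hv : PT v) : PT (fun a => comp (n a) (G a) (v a)) := by
  have h := pt_comp'.comp (hn.pair (hG.pair hv))
  exact h

@[fun_prop] theorem pt_better {n : α → ℕ} {W : α → Mat} {S : α → List ℕ} {P Q : α → List Arc}
    (hn : PT n) (hW : PT W) (hS : PT S) (hP : PT P) (hQ : PT Q) :
    PT (fun a => better (n a) (W a) (S a) (P a) (Q a)) := by
  unfold better
  fun_prop

theorem foldl_better_mem (n : ℕ) (W : Mat) (S : List ℕ) (l : List (List Arc)) :
    ∀ P, l.foldl (better n W S) P = P ∨ l.foldl (better n W S) P ∈ l := by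
  induction l with
  | nil => intro P; left; rfl
  | cons Q l ih =>
    intro P
    rw [List.foldl_cons]
    rcases ih (better n W S P Q) with h | h
    · rw [h]
      unfold better
      split_ifs
      · right; exact List.mem_cons_self
      · left; rfl
    · right; exact List.mem_cons_of_mem _ h

theorem sz_foldl_better_le (n : ℕ) (W : Mat) (S : List ℕ) (l : List (List Arc)) :
    sz (l.foldl (better n W S) []) ≤ sz l := by
  rcases foldl_better_mem n W S l [] with h | h
  · rw [h, sz_nil]; exact sz_pos l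
  · exact (sz_lt_of_mem h).le

theorem sz_le_of_append {β : Type} [TEnc β] (l₁ l₂ : List β) : sz l₁ ≤ sz (l₁ ++ l₂) := by
  have h1 := sz_append l₁ l₂
  have h2 := sz_pos l₂
  omega

theorem pt_best' : PT (fun x : ℕ × Mat × List ℕ × List (List Arc) =>
    best x.1 x.2.1 x.2.2.1 x.2.2.2) := by
  unfold best
  refine PT.foldl_le (step := fun (x : ℕ × Mat × List ℕ × List (List Arc))
      (P : List Arc) (Q : List Arc) => better x.1 x.2.1 x.2.2.1 P Q)
    (h := fun x : ℕ × Mat × List ℕ × List (List Arc) => x.2.2.2) (by fun_prop) (by fun_prop)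
    (by fun_prop) (by fun_prop) ?_
  rintro ⟨n, W, S, l⟩ l₁ l₂ h
  simp only at h ⊢
  rw [h]
  exact (sz_foldl_better_le n W S l₁).trans (sz_le_of_append l₁ l₂)

@[fun_prop] theorem pt_best {n : α → ℕ} {W : α → Mat} {S : α → List ℕ}
    {l : α → List (List Arc)} (hn : PT n) (hW : PT W) (hS : PT S) (hl : PT l) :
    PT (fun a => best (n a) (W a) (S a) (l a)) := by
  have h := pt_best'.comp (hn.pair (hW.pair (hS.pair hl)))
  exact h

section Cands

variable {W : α → Mat} {G D spp : α → List Arc} {X : α → List CArc} {S B C : α → List ℕ}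
  {SP : α → List (List Arc)} {n v z s k : α → ℕ} {e : α → Arc}

@[fun_prop] theorem pt_classes (hn : PT n) (hSP : PT SP) (hX : PT X) :
    PT (fun a => classes (n a) (SP a) (X a)) := by
  unfold classes
  fun_prop

@[fun_prop] theorem pt_cand1 (hn : PT n) (hB : PT B) (hSP : PT SP) (hG : PT G) :
    PT (fun a => cand1 (n a) (B a) (SP a) (G a)) := by
  unfold cand1
  fun_prop

@[fun_prop] theorem pt_cand2 (hn : PT n) (hB : PT B) (hSP : PT SP) (hG : PT G) (hz : PT z) :
    PT (fun a => cand2 (n a) (B a) (SP a) (G a) (z a)) := by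
  unfold cand2
  fun_prop

@[fun_prop] theorem pt_cand3 (hn : PT n) (hB : PT B) (hSP : PT SP) (hG : PT G) (hz : PT z)
    (he : PT e) : PT (fun a => cand3 (n a) (B a) (SP a) (G a) (z a) (e a)) := by
  unfold cand3
  fun_prop

theorem pt_altPath' : PT (fun x : List ℕ × List ℕ × ℕ × ℕ =>
    altPath x.1 x.2.1 x.2.2.1 x.2.2.2) := by
  unfold altPath
  refine PT.snd ?_
  refine PT.foldl_add (step := fun (x : List ℕ × List ℕ × ℕ × ℕ) (p : ℕ × List Arc) (i : ℕ) =>
      let t := (if i % 2 = 0 then x.1 else x.2.1).getD p.1 0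
      (t, (p.1, t) :: p.2))
    (h := fun (x : List ℕ × List ℕ × ℕ × ℕ) (_ : ℕ) => (x.1, x.1, x.2.1, x.2.1)) (by fun_prop)
    (by fun_prop) (by fun_prop) (by fun_prop) ?_
  rintro ⟨C, D, s, k⟩ ⟨q, l⟩ b -
  have h0 : sz (0 : ℕ) = 1 := rfl
  have hC := sz_pos C
  have hD := sz_pos D
  simp only
  have h1 : sz ((if b % 2 = 0 then C else D).getD q 0) ≤ sz C + sz D := by
    refine (sz_getD_le _ _ _).trans ?_
    rw [h0]
    split_ifs <;> omega
  generalize (if b % 2 = 0 then C else D).getD q 0 = t at h1 ⊢
  simp only [sz_pair, sz_cons]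
  omega

@[fun_prop] theorem pt_altPath {C D : α → List ℕ} (hC : PT C) (hD : PT D) (hs : PT s)
    (hk : PT k) : PT (fun a => altPath (C a) (D a) (s a) (k a)) := by
  have h := pt_altPath'.comp (hC.pair (hD.pair (hs.pair hk)))
  exact h

theorem pt_cycPath' : PT (fun x : ℕ × List ℕ × ℕ => cycPath x.1 x.2.1 x.2.2) := by
  unfold cycPath
  refine PT.snd ?_
  refine PT.foldl_add (step := fun (x : ℕ × List ℕ × ℕ) (p : ℕ × List Arc) (_ : ℕ) =>
      let t := x.2.1.getD p.1 0
      if t = x.2.2 || p.1 = x.1 then (x.1, p.2) else (t, (p.1, t) :: p.2))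
    (h := fun (x : ℕ × List ℕ × ℕ) (_ : ℕ) => (x.2.1, x.2.1, x)) (by fun_prop)
    (by fun_prop) (by fun_prop) (by fun_prop) ?_
  rintro ⟨n, C, v⟩ ⟨q, l⟩ b -
  have h0 : sz (0 : ℕ) = 1 := rfl
  have hC := sz_pos C
  have hv := sz_pos v
  have hn := sz_pos n
  have hq := sz_pos q
  simp only
  have h1 : sz (C.getD q 0) ≤ sz C + 1 := by
    refine (sz_getD_le _ _ _).trans ?_
    rw [h0]
  generalize C.getD q 0 = t at h1 ⊢
  split_ifs
  · simp only [sz_pair]
    omega
  · simp only [sz_pair, sz_cons]
    omega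

@[fun_prop] theorem pt_cycPath (hn : PT n) (hC : PT C) (hv : PT v) :
    PT (fun a => cycPath (n a) (C a) (v a)) := by
  have h := pt_cycPath'.comp (hn.pair (hC.pair hv))
  exact h

theorem pt_dropLightest' : PT (fun x : ℕ × Mat × List ℕ × List ℕ =>
    dropLightest x.1 x.2.1 x.2.2.1 x.2.2.2) := by
  unfold dropLightest
  refine PT.foldl_add (step := fun (x : ℕ × Mat × List ℕ × List ℕ) (P : List Arc) (v : ℕ) =>
      if P.any (fun a => inc v a) then P
      else best x.1 x.2.1 x.2.2.2
        ((comp x.1 ((List.range x.1).map (fun i => (i, x.2.2.1.getD i 0))) v).map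
          (fun u => cycPath x.1 x.2.2.1 u)) ++ P)
    (h := fun (x : ℕ × Mat × List ℕ × List ℕ) (v : ℕ) => best x.1 x.2.1 x.2.2.2
        ((comp x.1 ((List.range x.1).map (fun i => (i, x.2.2.1.getD i 0))) v).map
          (fun u => cycPath x.1 x.2.2.1 u))) (by fun_prop)
    (by fun_prop) (by fun_prop) (by fun_prop) ?_
  rintro ⟨n, W, C, S⟩ P v -
  simp only
  split_ifs
  · omega
  · refine (sz_append_le _ _).trans ?_
    omega

@[fun_prop] theorem pt_dropLightest (hn : PT n) (hW : PT W) (hC : PT C) (hS : PT S) :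
    PT (fun a => dropLightest (n a) (W a) (C a) (S a)) := by
  have h := pt_dropLightest'.comp (hn.pair (hW.pair (hC.pair hS)))
  exact h

@[fun_prop] theorem pt_candidates (hn : PT n) (hW : PT W) (hC : PT C) (hD : PT D)
    (hspp : PT spp) (hS : PT S) :
    PT (fun a => candidates (n a) (W a) (C a) (D a) (spp a) (S a)) := by
  unfold candidates
  fun_prop

@[fun_prop] theorem pt_cover (hn : PT n) (hW : PT W) (hC : PT C) (hD : PT D)
    (hspp : PT spp) :
    PT (fun a => cover (n a) (W a) (C a) (D a) (spp a)) := by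
  unfold cover
  fun_prop

end Cands

@[fun_prop] theorem pt_assign_comp {n : α → ℕ} {W : α → Mat} (hn : PT n) (hW : PT W) :
    PT (fun a => assign (n a) (W a)) := by
  have h := pt_assign.comp (hn.pair hW)
  exact h

@[fun_prop] theorem pt_relAssign {n : α → ℕ} {W : α → Mat} {M : α → List Arc} (hn : PT n)
    (hW : PT W) (hM : PT M) : PT (fun a => relAssign (n a) (W a) (M a)) := by
  unfold relAssign
  fun_prop

theorem pt_pathCover : PT (fun x : ℕ × Mat => pathCover x.1 x.2) := by
  unfold pathCover
  fun_prop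

@[fun_prop] theorem pt_pathCover_comp {n : α → ℕ} {W : α → Mat} (hn : PT n) (hW : PT W) :
    PT (fun a => pathCover (n a) (W a)) := by
  have h := pt_pathCover.comp (hn.pair hW)
  exact h

theorem pt_follow' : PT (fun x : ℕ × List Arc × ℕ => follow x.1 x.2.1 x.2.2) := by
  unfold follow
  refine PT.snd ?_
  refine PT.foldl_add (step := fun (x : ℕ × List Arc × ℕ) (p : Option ℕ × List ℕ) (_ : ℕ) =>
      match p.1 with
      | none => p
      | some u => (next x.2.1 u, p.2 ++ [u]))
    (h := fun (x : ℕ × List Arc × ℕ) (_ : ℕ) => (x, x)) ?_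
    (by fun_prop) (by fun_prop) (by fun_prop) ?_
  · have h : (fun x : (ℕ × List Arc × ℕ) × (Option ℕ × List ℕ) × ℕ =>
        (match x.2.1.1 with
        | none => x.2.1
        | some u => (next x.1.2.1 u, x.2.1.2 ++ [u]))) = fun x =>
        Option.casesOn (motive := fun _ => Option ℕ × List ℕ) x.2.1.1 x.2.1
          (fun u => (next x.1.2.1 u, x.2.1.2 ++ [u])) := by
      funext x
      rcases x.2.1.1 with _ | u <;> rfl
    rw [h]
    fun_prop
  · rintro ⟨n, P, v⟩ ⟨o, l⟩ b -
    cases o with
    | none => simp only; omega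
    | some u =>
      simp only
      have h1 := sz_next_le P u
      have h2 := sz_append l [u]
      rw [sz_cons, sz_nil] at h2
      rw [sz_pair, sz_pair, sz_pair, sz_pair, sz_pair, sz_some]
      omega

@[fun_prop] theorem pt_follow {n v : α → ℕ} {P : α → List Arc} (hn : PT n) (hP : PT P)
    (hv : PT v) : PT (fun a => follow (n a) (P a) (v a)) := by
  have h := pt_follow'.comp (hn.pair (hP.pair hv))
  exact h

@[fun_prop] theorem pt_hamPath {n : α → ℕ} {P : α → List Arc} (hn : PT n) (hP : PT P) :
    PT (fun a => hamPath (n a) (P a)) := by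
  unfold hamPath
  fun_prop

theorem pt_atsp : PT (fun x : ℕ × Mat => atsp x.1 x.2) := by
  unfold atsp
  fun_prop

end Vale.Agent.Lib.P333.Alg
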