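import Mathlib
import Vale.Agent.Lib.P333.PTAtsp
import Vale.Agent.Lib.P333.Main

/-! P333, module PT-SST: the superstring algorithm runs in polynomial time (letters are lists of
bits). -/

namespace Vale.Agent.Lib.P333

open Vale.Agent.Lib.Common.PolyTime

/-! ### Sizes -/

theorem sst_sz_nat (n : ℕ) : sz n = 2 * n + 1 := by
  change (encNat n).size = _
  induction n with
  | zero => rfl
  | succ n ih =>
    change (D.node D.leaf (encNat n)).size = _
    simp only [D.size, ih]
    omega

theorem sst_sz_nil {α : Type} [TEnc α] : sz ([] : List α) = 1 := rfl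

theorem sst_sz_cons {α : Type} [TEnc α] (a : α) (l : List α) : sz (a :: l) = sz a + sz l + 1 := rfl

theorem sst_sz_pair {α β : Type} [TEnc α] [TEnc β] (a : α) (b : β) :
    sz (a, b) = sz a + sz b + 1 := rfl

theorem sst_sz_append {α : Type} [TEnc α] (l m : List α) : sz (l ++ m) + 1 = sz l + sz m := by
  induction l with
  | nil => rw [List.nil_append, sst_sz_nil]; omega
  | cons a l ih => rw [List.cons_append, sst_sz_cons, sst_sz_cons]; omega

theorem sst_sz_pos {α : Type} [TEnc α] (a : α) : 1 ≤ sz a := by
  unfold sz
  cases TEnc.enc a <;> simp [D.size]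

theorem sst_length_le {α : Type} [TEnc α] (l : List α) : 2 * l.length + 1 ≤ sz l := by
  induction l with
  | nil => rw [sst_sz_nil]; simp
  | cons a l ih =>
    rw [sst_sz_cons, List.length_cons]
    have := sst_sz_pos a
    omega

theorem sst_sz_mem {α : Type} [TEnc α] {a : α} {l : List α} (h : a ∈ l) : sz a ≤ sz l := by
  induction l with
  | nil => simp at h
  | cons b l ih =>
    rw [sst_sz_cons]
    rcases List.mem_cons.1 h with rfl | h
    · omega
    · have := ih h
      omega

theorem sst_sz_filter {α : Type} [TEnc α] (f : α → Bool) (l : List α) :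
    sz (l.filter f) ≤ sz l := by
  induction l with
  | nil => simp
  | cons b l ih =>
    rw [List.filter_cons]
    split
    · rw [sst_sz_cons, sst_sz_cons]; omega
    · rw [sst_sz_cons]; omega

/-! ### Overlaps -/

theorem ov_eq_fold {α : Type*} [DecidableEq α] (s t : List α) :
    ov s t = (List.range (s.length - 1 + 1)).foldl
      (fun b k => if (decide (k < t.length) && decide (s.drop (s.length - k) = t.take k)) = true
        then k else b) 0 := by
  unfold ov
  have key : ∀ n : ℕ, Nat.findGreatest
      (fun k => k < t.length ∧ s.drop (s.length - k) = t.take k) n =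
      (List.range (n + 1)).foldl
      (fun b k => if (decide (k < t.length) && decide (s.drop (s.length - k) = t.take k)) = true
        then k else b) 0 := by
    intro n
    induction n with
    | zero => simp
    | succ n ih =>
      rw [List.range_succ, List.foldl_append, ← ih, Nat.findGreatest_succ]
      simp only [List.foldl_cons, List.foldl_nil, Bool.and_eq_true, decide_eq_true_eq]
  exact key _

theorem sst_fold_le (c : ℕ → ℕ → Bool) (M : ℕ) (l : List ℕ) (hl : ∀ k ∈ l, k ≤ M) (b : ℕ)
    (hb : b ≤ M) : l.foldl (fun b k => if c b k = true then k else b) b ≤ M := by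
  induction l generalizing b with
  | nil => exact hb
  | cons k l ih =>
    rw [List.foldl_cons]
    apply ih (fun k hk => hl k (List.mem_cons_of_mem _ hk))
    split
    · exact hl k List.mem_cons_self
    · exact hb

@[fun_prop]
theorem pt_ov {α : Type} [TEnc α] {f g : α → List (List Bool)} (hf : PT f) (hg : PT g) :
    PT (fun a => ov (f a) (g a)) := by
  have h : PT (fun x : List (List Bool) × List (List Bool) => ov x.1 x.2) := by
    have h : (fun x : List (List Bool) × List (List Bool) => ov x.1 x.2) = fun x =>
        (List.range (x.1.length - 1 + 1)).foldl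
        (fun b k => if (decide (k < x.2.length) &&
          decide (x.1.drop (x.1.length - k) = x.2.take k)) = true then k else b) 0 := by
      funext x
      exact ov_eq_fold x.1 x.2
    rw [h]
    refine PT.foldl (step := fun (x : List (List Bool) × List (List Bool)) (b : ℕ) (k : ℕ) =>
      if (decide (k < x.2.length) && decide (x.1.drop (x.1.length - k) = x.2.take k)) = true
        then k else b)
      (l := fun x => List.range (x.1.length - 1 + 1)) (init := fun _ => 0) ?_ ?_ ?_
      (Polynomial.X) ?_
    · fun_prop
    · fun_prop
    · fun_prop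
    · rintro ⟨s, t⟩ l₁ l₂ hl
      rw [Polynomial.eval_X, sst_sz_nat, sst_sz_pair]
      simp only at hl
      have h1 := sst_fold_le (fun _ k => decide (k < t.length) &&
        decide (s.drop (s.length - k) = t.take k)) s.length l₁ (by
          intro k hk
          have h2 : k ∈ List.range (s.length - 1 + 1) := by
            rw [hl]
            exact List.mem_append_left _ hk
          rw [List.mem_range] at h2
          by_cases h3 : s.length = 0
          · omega
          · omega) 0 (Nat.zero_le _)
      have h2 := sst_length_le s
      simp only at h1 ⊢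
      omega
  exact PT.comp h (PT.pair hf hg)

@[fun_prop]
theorem pt_dist {α : Type} [TEnc α] {f g : α → List (List Bool)} (hf : PT f) (hg : PT g) :
    PT (fun a => dist (f a) (g a)) := by
  unfold dist
  fun_prop

theorem merge_eq {α : Type*} [DecidableEq α] (l : List (List α)) :
    merge l = (l.zip (l.drop 1)).flatMap (fun p => p.1.take (dist p.1 p.2)) ++
      l.getD (l.length - 1) [] := by
  induction l with
  | nil => simp [merge]
  | cons s l ih =>
    cases l with
    | nil => simp [merge]
    | cons t l =>
      rw [merge, ih]
      simp only [List.drop_succ_cons, List.drop_zero, List.zip_cons_cons, List.flatMap_cons,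
        List.length_cons, Nat.add_sub_cancel, List.append_assoc]
      rfl

@[fun_prop]
theorem pt_merge {α : Type} [TEnc α] {f : α → List (List (List Bool))} (hf : PT f) :
    PT (fun a => merge (f a)) := by
  have h : (fun a => merge (f a)) = fun a => ((f a).zip ((f a).drop 1)).flatMap
      (fun p => p.1.take (dist p.1 p.2)) ++ (f a).getD ((f a).length - 1) [] := by
    funext a
    exact merge_eq _
  rw [h]
  fun_prop

/-! ### Reduction -/

@[fun_prop]
theorem pt_isInf {α : Type} [TEnc α] {f g : α → List (List Bool)} (hf : PT f) (hg : PT g) :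
    PT (fun a => isInf (f a) (g a)) := by
  unfold isInf
  fun_prop

theorem sst_reduce_size {α : Type} [TEnc α] (c : List α → α → Bool) (f : α → α → Bool)
    (l : List α) (R : List α) :
    sz (l.foldl (fun R s => if c R s = true then R else s :: R.filter (f s)) R) + 1 ≤
      sz R + sz l := by
  induction l generalizing R with
  | nil => rw [sst_sz_nil]; rfl
  | cons a l ih =>
    rw [List.foldl_cons, sst_sz_cons]
    refine (ih _).trans ?_
    split
    · omega
    · rw [sst_sz_cons]
      have := sst_sz_filter (f a) R
      omega

@[fun_prop]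
theorem pt_reduceS {α : Type} [TEnc α] {f : α → List (List (List Bool))} (hf : PT f) :
    PT (fun a => reduceS (f a)) := by
  have h : PT (fun S : List (List (List Bool)) => reduceS S) := by
    unfold reduceS
    refine PT.foldl (α := List (List (List Bool))) (σ := List (List (List Bool)))
      (β := List (List Bool))
      (step := fun _ R s => if R.any (fun t => isInf s t) then R else
        s :: R.filter (fun t => !(isInf t s)))
      (l := fun S => S) (init := fun _ => []) ?_ ?_ ?_ (Polynomial.X) ?_
    · fun_prop
    · fun_prop
    · fun_prop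
    · intro S l₁ l₂ hl
      rw [Polynomial.eval_X]
      have h1 := sst_reduce_size (fun (R : List (List (List Bool))) s => R.any (fun t => isInf s t))
        (fun s t => !(isInf t s)) l₁ []
      have h2 := sst_sz_append l₁ l₂
      have h3 := sst_sz_pos l₂
      rw [sst_sz_nil] at h1
      rw [hl]
      change sz (l₁.foldl (fun (R : List (List (List Bool))) s =>
        if (R.any (fun t => isInf s t)) = true then R else
          s :: R.filter (fun t => !(isInf t s))) []) ≤ _
      omega
  exact PT.comp h hf

@[fun_prop]
theorem pt_ovMat {α : Type} [TEnc α] {f : α → List (List (List Bool))} (hf : PT f) :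
    PT (fun a => ovMat (f a)) := by
  unfold ovMat Alg.mkMat
  fun_prop

/-! ### Cycles -/

/-- one step of `cycL` -/
def cycStep (C : List ℕ) (r : ℕ) (p : ℕ × List ℕ) : ℕ × List ℕ :=
  if p.1 = C.length then p
  else (if C.getD p.1 0 = r then C.length else C.getD p.1 0, p.2 ++ [p.1])

theorem cycStep_size (C : List ℕ) (r : ℕ) (l : List ℕ) (p : ℕ × List ℕ)
    (hp : sz p.1 ≤ sz (C, r)) :
    sz (l.foldl (fun p _ => cycStep C r p) p).1 ≤ sz (C, r) ∧
      sz (l.foldl (fun p _ => cycStep C r p) p).2 ≤ sz p.2 + l.length * (sz (C, r) + 1) := by
  induction l generalizing p with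
  | nil => exact ⟨hp, by simp⟩
  | cons k l ih =>
    rw [List.foldl_cons]
    have hC : sz C.length ≤ sz (C, r) := by
      rw [sst_sz_nat, sst_sz_pair]
      have := sst_length_le C
      omega
    have hD : sz (C.getD p.1 0) ≤ sz (C, r) := by
      rcases lt_or_ge p.1 C.length with h | h
      · have h1 : C.getD p.1 0 ∈ C := by
          rw [List.getD_eq_getElem _ _ h]
          exact List.getElem_mem h
        have h2 := sst_sz_mem h1
        rw [sst_sz_pair]
        omega
      · rw [List.getD_eq_default _ _ h, sst_sz_nat, sst_sz_pair]
        have := sst_sz_pos C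
        omega
    have h1 : sz (cycStep C r p).1 ≤ sz (C, r) := by
      unfold cycStep
      split
      · exact hp
      · simp only
        split
        · exact hC
        · exact hD
    have h2 : sz (cycStep C r p).2 ≤ sz p.2 + (sz (C, r) + 1) := by
      unfold cycStep
      split
      · omega
      · simp only
        have h3 := sst_sz_append p.2 [p.1]
        rw [sst_sz_cons, sst_sz_nil] at h3
        omega
    obtain ⟨h3, h4⟩ := ih _ h1
    refine ⟨h3, h4.trans ?_⟩
    rw [List.length_cons]
    have h5 : (l.length + 1) * (sz (C, r) + 1) = l.length * (sz (C, r) + 1) + (sz (C, r) + 1) := by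
      ring
    omega

@[fun_prop]
theorem pt_cycStep {α : Type} [TEnc α] {f : α → List ℕ} {g : α → ℕ} {h : α → ℕ × List ℕ}
    (hf : PT f) (hg : PT g) (hh : PT h) : PT (fun a => cycStep (f a) (g a) (h a)) := by
  unfold cycStep
  fun_prop

@[fun_prop]
theorem pt_cycL {α : Type} [TEnc α] {f : α → List ℕ} {g : α → ℕ} (hf : PT f) (hg : PT g) :
    PT (fun a => cycL (f a) (g a)) := by
  have h : PT (fun x : List ℕ × ℕ => (List.range x.1.length).foldl
      (fun p _ => cycStep x.1 x.2 p) (x.2, [])) := by
    refine PT.foldl (α := List ℕ × ℕ) (σ := ℕ × List ℕ) (β := ℕ)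
      (step := fun x p _ => cycStep x.1 x.2 p)
      (l := fun x => List.range x.1.length) (init := fun x => (x.2, [])) ?_ ?_ ?_
      (Polynomial.X * (Polynomial.X + 1) + Polynomial.X + 2) ?_
    · fun_prop
    · fun_prop
    · fun_prop
    · rintro ⟨C, r⟩ l₁ l₂ hl
      obtain ⟨h1, h2⟩ := cycStep_size C r l₁ (r, []) (by
        simp only
        rw [sst_sz_pair]
        omega)
      simp only at hl h2
      have h3 : l₁.length ≤ sz (C, r) := by
        have h4 := congrArg List.length hl
        rw [List.length_append, List.length_range] at h4
        have h5 := sst_length_le C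
        rw [sst_sz_pair]
        omega
      have h4 : l₁.length * (sz (C, r) + 1) ≤ sz (C, r) * (sz (C, r) + 1) :=
        Nat.mul_le_mul_right _ h3
      simp only [Polynomial.eval_add, Polynomial.eval_mul, Polynomial.eval_X, Polynomial.eval_one,
        Polynomial.eval_ofNat]
      rw [sst_sz_nil] at h2
      change sz (l₁.foldl (fun p _ => cycStep C r p) (r, [])).1 +
        sz (l₁.foldl (fun p _ => cycStep C r p) (r, [])).2 + 1 ≤ _
      omega
  have h' : PT (fun x : List ℕ × ℕ => cycL x.1 x.2) := PT.snd h
  exact PT.comp (f := fun x : List ℕ × ℕ => cycL x.1 x.2) (g := fun a => (f a, g a)) h'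
    (PT.pair hf hg)

@[fun_prop]
theorem pt_ovIn {α : Type} [TEnc α] {f : α → List (List (List Bool))} {g : α → List ℕ}
    {h : α → ℕ} (hf : PT f) (hg : PT g) (hh : PT h) : PT (fun a => ovIn (f a) (g a) (h a)) := by
  unfold ovIn
  fun_prop

@[fun_prop]
theorem pt_repsL {α : Type} [TEnc α] {f : α → List (List (List Bool))} {g : α → List ℕ}
    (hf : PT f) (hg : PT g) : PT (fun a => repsL (f a) (g a)) := by
  unfold repsL
  fun_prop

@[fun_prop]
theorem pt_openL {α : Type} [TEnc α] {f : α → List (List (List Bool))} {g : α → List ℕ}
    (hf : PT f) (hg : PT g) : PT (fun a => openL (f a) (g a)) := by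
  unfold openL
  fun_prop

theorem pt_sst : PT (fun S : List (List (List Bool)) => sst S) := by
  have h1 : PT (fun S : List (List (List Bool)) =>
      Alg.assign (reduceS S).length (ovMat (reduceS S))) :=
    PT.comp (f := fun x : ℕ × Alg.Mat => Alg.assign x.1 x.2)
      (g := fun S : List (List (List Bool)) => ((reduceS S).length, ovMat (reduceS S)))
      Alg.pt_assign (by fun_prop)
  have h2 : PT (fun S : List (List (List Bool)) =>
      openL (reduceS S) (Alg.assign (reduceS S).length (ovMat (reduceS S)))) :=
    pt_openL (by fun_prop) h1
  have h3 : PT (fun R : List (List (List Bool)) => Alg.atsp R.length (ovMat R)) :=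
    PT.comp (f := fun x : ℕ × Alg.Mat => Alg.atsp x.1 x.2)
      (g := fun R : List (List (List Bool)) => (R.length, ovMat R)) Alg.pt_atsp (by fun_prop)
  have h4 : PT (fun R : List (List (List Bool)) =>
      merge ((Alg.atsp R.length (ovMat R)).map (fun i => R.getD i []))) := by
    fun_prop
  exact PT.comp (f := fun R : List (List (List Bool)) =>
      merge ((Alg.atsp R.length (ovMat R)).map (fun i => R.getD i [])))
    (g := fun S : List (List (List Bool)) =>
      openL (reduceS S) (Alg.assign (reduceS S).length (ovMat (reduceS S)))) h4 h2

end Vale.Agent.Lib.P333
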