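import Mathlib
import Vale.Agent.Lib.P333.Main

/-!
P333, module SST, part 1: the preprocessing `reduceS`, letters of the output.
-/

namespace Vale.Agent.Lib.P333

variable {α : Type*} [DecidableEq α]

theorem isInf_iff {s t : List α} : isInf s t = true ↔ s <:+: t := by
  unfold isInf
  rw [List.any_eq_true]
  constructor
  · rintro ⟨i, -, hi⟩
    rw [beq_iff_eq] at hi
    refine ⟨t.take i, (t.drop i).drop s.length, ?_⟩
    have : s ++ (t.drop i).drop s.length = t.drop i := by
      conv_lhs => rw [← hi]
      rw [hi]
      conv_rhs => rw [← List.take_append_drop s.length (t.drop i), hi]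
    rw [List.append_assoc, this, List.take_append_drop]
  · rintro ⟨u, v, rfl⟩
    refine ⟨u.length, ?_, ?_⟩
    · rw [List.mem_range]
      simp only [List.length_append]
      omega
    · rw [beq_iff_eq, List.append_assoc, List.drop_left, List.take_left]

/-- one step of `reduceS` -/
theorem reduce_aux (P S R : List (List α))
    (h1 : R.Pairwise (fun s t => ¬ s <:+: t ∧ ¬ t <:+: s))
    (h2 : ∀ s ∈ P, ∃ r ∈ R, s <:+: r) (h3 : ∀ r ∈ R, r ∈ P) :
    let R' := S.foldl (fun R s => if R.any (fun t => isInf s t) then R
      else s :: R.filter (fun t => !(isInf t s))) R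
    R'.Pairwise (fun s t => ¬ s <:+: t ∧ ¬ t <:+: s) ∧
      (∀ s ∈ P ++ S, ∃ r ∈ R', s <:+: r) ∧ (∀ r ∈ R', r ∈ P ++ S) := by
  induction S generalizing P R with
  | nil => simpa using ⟨h1, h2, h3⟩
  | cons s S ih =>
    simp only [List.foldl_cons]
    have key := ih (P ++ [s]) (if R.any (fun t => isInf s t) then R
      else s :: R.filter (fun t => !(isInf t s))) ?_ ?_ ?_
    · simpa [List.append_assoc] using key
    · split_ifs with h
      · exact h1
      · rw [List.pairwise_cons]
        refine ⟨fun t ht => ?_, h1.filter _⟩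
        rw [List.mem_filter] at ht
        constructor
        · intro hst
          exact h (List.any_eq_true.2 ⟨t, ht.1, isInf_iff.2 hst⟩)
        · intro hts
          have := ht.2
          rw [isInf_iff.2 hts] at this
          simp at this
    · intro t ht
      rw [List.mem_append, List.mem_singleton] at ht
      split_ifs with h
      · rcases ht with ht | rfl
        · exact h2 t ht
        · obtain ⟨r, hr, hr2⟩ := List.any_eq_true.1 h
          exact ⟨r, hr, isInf_iff.1 hr2⟩
      · rcases ht with ht | rfl
        · obtain ⟨r, hr, hr2⟩ := h2 t ht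
          by_cases hrs : r <:+: s
          · exact ⟨s, by simp, hr2.trans hrs⟩
          · refine ⟨r, ?_, hr2⟩
            rw [List.mem_cons, List.mem_filter]
            right
            refine ⟨hr, ?_⟩
            have : isInf r s = false := by
              rw [Bool.eq_false_iff]
              intro h'
              exact hrs (isInf_iff.1 h')
            rw [this]
            rfl
        · exact ⟨t, by simp, List.infix_rfl⟩
    · intro r hr
      rw [List.mem_append, List.mem_singleton]
      split_ifs at hr with h
      · exact Or.inl (h3 r hr)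
      · rw [List.mem_cons, List.mem_filter] at hr
        rcases hr with rfl | hr
        · exact Or.inr rfl
        · exact Or.inl (h3 r hr.1)

theorem reduceS_spec (S : List (List α)) :
    (reduceS S).Pairwise (fun s t => ¬ s <:+: t ∧ ¬ t <:+: s) ∧
      (∀ s ∈ S, ∃ r ∈ reduceS S, s <:+: r) ∧ (∀ r ∈ reduceS S, r ∈ S) := by
  have := reduce_aux [] S [] List.Pairwise.nil (by simp) (by simp)
  simpa [reduceS] using this

/-- either all strings of the reduced family are nonempty or the family is just `[[]]` -/
theorem reduceS_nonempty (S : List (List α)) :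
    (∀ s ∈ reduceS S, s ≠ []) ∨ reduceS S = [[]] := by
  by_cases h : ∀ s ∈ reduceS S, s ≠ []
  · exact Or.inl h
  · right
    push Not at h
    obtain ⟨s, hs, rfl⟩ := h
    have hp := (reduceS_spec S).1
    obtain ⟨l1, l2, hl⟩ := List.append_of_mem hs
    rw [hl] at hp ⊢
    have h1 : l1 = [] := by
      rcases l1 with _ | ⟨a, l1⟩
      · rfl
      · exfalso
        rw [List.cons_append, List.pairwise_cons] at hp
        exact (hp.1 [] (by simp)).2 (List.nil_infix)
    subst h1
    rw [List.nil_append] at hp ⊢
    rcases l2 with _ | ⟨a, l2⟩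
    · rfl
    · exfalso
      rw [List.pairwise_cons] at hp
      exact (hp.1 a (by simp)).1 (List.nil_infix)

/-! ### Letters -/

theorem mem_merge {l : List (List α)} {x : α} (h : x ∈ merge l) : ∃ s ∈ l, x ∈ s := by
  induction l using merge.induct with
  | case1 => simp [merge] at h
  | case2 s => exact ⟨s, by simp, by simpa [merge] using h⟩
  | case3 s t l ih =>
    rw [merge, List.mem_append] at h
    rcases h with h | h
    · exact ⟨s, by simp, List.mem_of_mem_take h⟩
    · obtain ⟨u, hu, hx⟩ := ih h
      exact ⟨u, List.mem_cons_of_mem _ hu, hx⟩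

theorem mem_getD {l : List (List α)} {i : ℕ} {x : α} (h : x ∈ l.getD i []) : ∃ s ∈ l, x ∈ s := by
  by_cases hi : i < l.length
  · rw [List.getD_eq_getElem _ _ hi] at h
    exact ⟨_, List.getElem_mem hi, h⟩
  · rw [List.getD_eq_default _ _ (by omega)] at h
    simp at h

/-- every letter of the output occurs in some input string -/
theorem sst_letters (S : List (List α)) (x : α) (h : x ∈ sst S) : ∃ s ∈ S, x ∈ s := by
  unfold sst at h
  simp only at h
  obtain ⟨s, hs, hx⟩ := mem_merge h
  obtain ⟨i, -, rfl⟩ := List.mem_map.1 hs
  obtain ⟨t, ht, hx⟩ := mem_getD hx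
  unfold openL at ht
  obtain ⟨r, -, rfl⟩ := List.mem_map.1 ht
  obtain ⟨u, hu, hx⟩ := mem_merge hx
  obtain ⟨j, -, rfl⟩ := List.mem_map.1 hu
  obtain ⟨v, hv, hx⟩ := mem_getD hx
  exact ⟨v, (reduceS_spec S).2.2 v hv, hx⟩

end Vale.Agent.Lib.P333
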