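import Mathlib
import Vale.Agent.Lib.P333.SstReduce
import Vale.Agent.Lib.P333.Cyc
import Vale.Agent.Lib.P333.Atsp

/-!
P333, module SST, part 2: the algorithm `sst` outputs a common superstring of length at most 7/3
of the length of any common superstring.
-/

namespace Vale.Agent.Lib.P333

open Alg

variable {α : Type*} [DecidableEq α]

theorem ent_mkMat (n : ℕ) (f : ℕ → ℕ → ℕ) {i j : ℕ} (hi : i < n) (hj : j < n) :
    ent (mkMat n f) i j = f i j := by
  unfold ent mkMat
  rw [List.getD_eq_getElem ((List.range n).map (fun i => (List.range n).map (fun j => f i j))) _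
      (by simpa using hi), List.getElem_map, List.getElem_range,
    List.getD_eq_getElem _ _ (by simpa using hj), List.getElem_map, List.getElem_range]

theorem ham_ovMat (R : List (List α)) (l : List ℕ) (hl : ∀ i ∈ l, i < R.length) :
    ham (ovMat R) l = ovsum (l.map (fun i => R.getD i [])) := by
  induction l with
  | nil => rfl
  | cons a l ih =>
    cases l with
    | nil => rfl
    | cons b l =>
      rw [ham, ih (fun i hi => hl i (List.mem_cons_of_mem _ hi))]
      simp only [List.map_cons, ovsum]
      rw [ovMat, ent_mkMat _ _ (hl a (by simp)) (hl b (by simp))]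

/-! ### The permutation computed by the assignment solver -/

theorem exists_perm {n : ℕ} {C : List ℕ} (h1 : C.length = n) (h2 : C.Nodup)
    (h3 : ∀ j ∈ C, j < n) : ∃ σ : Equiv.Perm (Fin n), ∀ i : Fin n, (σ i : ℕ) = C.getD i 0 := by
  have hb : ∀ i : Fin n, C.getD i 0 < n := fun i => atsp_getD_lt h1 h3 i.2
  have hinj : Function.Injective (fun i : Fin n => (⟨C.getD i 0, hb i⟩ : Fin n)) := by
    intro i j hij
    rw [Fin.mk.injEq] at hij
    have hi : (i : ℕ) < C.length := by rw [h1]; exact i.2
    have hj : (j : ℕ) < C.length := by rw [h1]; exact j.2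
    rw [List.getD_eq_getElem _ _ hi, List.getD_eq_getElem _ _ hj] at hij
    exact Fin.ext ((h2.getElem_inj_iff).1 hij)
  exact ⟨Equiv.ofBijective _ (Finite.injective_iff_bijective.1 hinj), fun i => rfl⟩

section

variable {n : ℕ} {C : List ℕ} {σ : Equiv.Perm (Fin n)}

theorem cycL_aux (h1 : C.length = n) (hσ : ∀ i : Fin n, (σ i : ℕ) = C.getD i 0) (r : Fin n)
    (k : ℕ) :
    (List.range k).foldl (fun (p : ℕ × List ℕ) _ =>
      if p.1 = C.length then p
      else
        let t := C.getD p.1 0
        (if t = (r : ℕ) then C.length else t, p.2 ++ [p.1])) ((r : ℕ), []) =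
    if k < Function.minimalPeriod σ r then
      (((σ^[k] r : Fin n) : ℕ), (List.range k).map (fun i => Fin.val (σ^[i] r)))
    else
      (n, (List.range (Function.minimalPeriod σ r)).map (fun i => Fin.val (σ^[i] r))) := by
  have hpos := minimalPeriod_pos' σ r
  induction k with
  | zero => simp [hpos]
  | succ k ih =>
    rw [List.range_succ, List.foldl_append, ih]
    simp only [List.foldl_cons, List.foldl_nil]
    by_cases hk : k < Function.minimalPeriod σ r
    · rw [if_pos hk]
      have hlt : ((σ^[k] r : Fin n) : ℕ) ≠ C.length := by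
        rw [h1]
        exact (σ^[k] r).2.ne
      rw [if_neg hlt]
      have ht : C.getD ((σ^[k] r : Fin n) : ℕ) 0 = ((σ^[k + 1] r : Fin n) : ℕ) := by
        rw [← hσ, Function.iterate_succ_apply']
      simp only [ht]
      by_cases hk' : k + 1 < Function.minimalPeriod σ r
      · rw [if_pos hk']
        have hne : ((σ^[k + 1] r : Fin n) : ℕ) ≠ (r : ℕ) := by
          intro h
          have h' : Function.IsPeriodicPt σ (k + 1) r := Fin.ext h
          have := h'.minimalPeriod_le (Nat.succ_pos k)
          omega
        rw [if_neg hne]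
        simp
      · rw [if_neg hk']
        have hk2 : k + 1 = Function.minimalPeriod σ r := by omega
        have he : ((σ^[k + 1] r : Fin n) : ℕ) = (r : ℕ) := by
          rw [hk2]
          exact congrArg Fin.val (Function.iterate_minimalPeriod)
        rw [if_pos he, h1, ← hk2]
        simp [List.range_succ]
    · rw [if_neg hk, if_pos h1.symm, if_neg (fun h => hk (by omega))]

theorem minimalPeriod_le_card (σ : Equiv.Perm (Fin n)) (r : Fin n) :
    Function.minimalPeriod σ r ≤ n := by
  have h := nodup_cyc σ r
  have h2 := h.length_le_card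
  simpa [cyc] using h2

theorem cycL_eq (h1 : C.length = n) (hσ : ∀ i : Fin n, (σ i : ℕ) = C.getD i 0) (r : Fin n) :
    cycL C (r : ℕ) = (cyc σ r).map Fin.val := by
  unfold cycL
  rw [cycL_aux h1 hσ r C.length, if_neg]
  · rw [cyc, List.map_map]
    rfl
  · rw [h1]
    exact not_lt.2 (minimalPeriod_le_card σ r)

theorem idxOf_eq (h1 : C.length = n) (h2 : C.Nodup) (hσ : ∀ i : Fin n, (σ i : ℕ) = C.getD i 0)
    (r : Fin n) : C.idxOf (r : ℕ) = ((σ⁻¹ r : Fin n) : ℕ) := by
  have hi : ((σ⁻¹ r : Fin n) : ℕ) < C.length := by rw [h1]; exact (σ⁻¹ r).2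
  have h := hσ (σ⁻¹ r)
  rw [show σ (σ⁻¹ r) = r by simp, List.getD_eq_getElem _ _ hi] at h
  rw [h]
  exact h2.idxOf_getElem _ hi

end

/-! ### The algorithm on a reduced family -/

theorem sst_core (S : List (List α)) (hn : 0 < S.length) (hne : ∀ s ∈ S, s ≠ [])
    (hp : S.Pairwise (fun s t => ¬ s <:+: t ∧ ¬ t <:+: s)) {T : List α}
    (hT : ∀ s ∈ S, s <:+: T) {C : List ℕ} (hC : C = Alg.assign S.length (ovMat S))
    {R : List (List α)} (hR : R = openL S C) {out : List α}
    (hout : out = merge ((Alg.atsp R.length (ovMat R)).map (fun i => R.getD i []))) :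
    (∀ s ∈ S, s <:+: out) ∧ 3 * out.length ≤ 7 * T.length := by
  classical
  obtain ⟨n, hnS⟩ : ∃ n, n = S.length := ⟨_, rfl⟩
  rw [← hnS] at hC hn
  obtain ⟨h1, h2, h3, h4⟩ := assign_spec n (ovMat S)
  rw [← hC] at h1 h2 h3 h4
  obtain ⟨σ, hσ⟩ := exists_perm h1 h2 h3
  set s : Fin n → List α := fun i => S.getD i [] with hs
  have hsmem : ∀ i : Fin n, s i ∈ S := by
    intro i
    have hi : (i : ℕ) < S.length := by rw [← hnS]; exact i.2
    change S.getD i [] ∈ S
    rw [List.getD_eq_getElem _ _ hi]
    exact List.getElem_mem hi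
  have hsof : ∀ t ∈ S, ∃ i : Fin n, s i = t := by
    intro t ht
    obtain ⟨i, hi, rfl⟩ := List.mem_iff_getElem.1 ht
    exact ⟨⟨i, by rw [hnS]; exact hi⟩, List.getD_eq_getElem _ _ hi⟩
  have hent : ∀ i j : Fin n, ent (ovMat S) i j = ov (s i) (s j) := by
    intro i j
    exact ent_mkMat _ _ (by rw [← hnS]; exact i.2) (by rw [← hnS]; exact j.2)
  -- minimum weight
  have hsum : ∀ τ : Equiv.Perm (Fin n), cw s τ + ∑ i, ov (s i) (s (τ i)) = ∑ i, (s i).length := by
    intro τ
    unfold cw
    rw [← Finset.sum_add_distrib]
    exact Finset.sum_congr rfl fun i _ => dist_add_ov _ _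
  have hmin : ∀ τ : Equiv.Perm (Fin n), cw s σ ≤ cw s τ := by
    intro τ
    have hb := h4 (List.ofFn (fun i : Fin n => ((τ i : Fin n) : ℕ))) (by simp)
      (List.nodup_ofFn.2 (fun i j hij => τ.injective (Fin.ext hij)))
      (by
        intro j hj
        rw [List.mem_ofFn] at hj
        obtain ⟨i, rfl⟩ := hj
        exact (τ i).2)
    rw [Finset.sum_range, Finset.sum_range] at hb
    have e1 : ∀ i : Fin n, ent (ovMat S) i ((List.ofFn (fun i : Fin n => ((τ i : Fin n) : ℕ))).getD
        i 0) = ov (s i) (s (τ i)) := by
      intro i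
      rw [List.getD_eq_getElem _ _ (by simp), List.getElem_ofFn]
      exact hent i (τ i)
    have e2 : ∀ i : Fin n, ent (ovMat S) i (C.getD i 0) = ov (s i) (s (σ i)) := by
      intro i
      rw [← hσ]
      exact hent i (σ i)
    rw [Finset.sum_congr rfl fun i _ => e1 i, Finset.sum_congr rfl fun i _ => e2 i] at hb
    have := hsum σ
    have := hsum τ
    omega
  -- representatives
  set ovi : Fin n → ℕ := fun j => ov (s (σ⁻¹ j)) (s j) with hovi
  set reps : Finset (Fin n) := Finset.univ.filter (fun r => ∀ j, σ.SameCycle r j →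
    (ovi r < ovi j ∨ (ovi r = ovi j ∧ r ≤ j))) with hreps
  have hmemreps : ∀ r, r ∈ reps ↔ ∀ j, σ.SameCycle r j →
      (ovi r < ovi j ∨ (ovi r = ovi j ∧ r ≤ j)) := by
    intro r
    rw [hreps, Finset.mem_filter]
    simp
  have hdata : CycData s σ reps := by
    refine ⟨fun i => hne _ (hsmem i), ?_, hmin, ?_, ?_⟩
    · intro i j hij
      have hi : (i : ℕ) < S.length := by rw [← hnS]; exact i.2
      have hj : (j : ℕ) < S.length := by rw [← hnS]; exact j.2
      have e1 : s i = S[(i : ℕ)] := List.getD_eq_getElem _ _ hi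
      have e2 : s j = S[(j : ℕ)] := List.getD_eq_getElem _ _ hj
      rw [e1, e2]
      rw [List.pairwise_iff_getElem] at hp
      rcases lt_trichotomy (i : ℕ) (j : ℕ) with h | h | h
      · exact (hp _ _ hi hj h).1
      · exact absurd (Fin.ext h) hij
      · exact (hp _ _ hj hi h).2
    · intro i
      obtain ⟨r, hr, hr2⟩ := Finset.exists_min_image
        (Finset.univ.filter (fun j => σ.SameCycle i j)) (fun j => toLex (ovi j, j))
        ⟨i, by rw [Finset.mem_filter]; exact ⟨Finset.mem_univ _, Equiv.Perm.SameCycle.refl σ i⟩⟩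
      rw [Finset.mem_filter] at hr
      refine ⟨r, ⟨(hmemreps r).2 fun j hj => ?_, hr.2.symm⟩, ?_⟩
      · have := hr2 j (by simp [hr.2.trans hj])
        rw [Prod.Lex.toLex_le_toLex] at this
        exact this
      · rintro r' ⟨hr', hr's⟩
        have a1 := (hmemreps r').1 hr' r (hr's.trans hr.2)
        have a2 := hr2 r' (by simp [hr's.symm])
        rw [Prod.Lex.toLex_le_toLex] at a2
        rcases a1 with a1 | ⟨a1, a1'⟩
        · rcases a2 with a2 | ⟨a2, a2'⟩
          · exact absurd a1 (not_lt.2 a2.le)
          · simp only at a2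
            omega
        · rcases a2 with a2 | ⟨a2, a2'⟩
          · simp only at a2
            omega
          · exact le_antisymm a1' a2'
    · intro r hr i hi
      rcases (hmemreps r).1 hr i hi with h | h
      · exact h.le
      · exact h.1.le
  -- the list of representatives
  set l0 : List (Fin n) := (List.finRange n).filter (fun r => decide (r ∈ reps)) with hl0
  have hl0n : l0.Nodup := (List.nodup_finRange n).filter _
  have hl0m : ∀ r, r ∈ l0 ↔ r ∈ reps := by
    intro r
    rw [hl0, List.mem_filter]
    simp
  have hrl : repsL S C = l0.map Fin.val := by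
    unfold repsL
    rw [h1, ← List.map_coe_finRange_eq_range, List.filter_map, hl0]
    congr 1
    apply List.filter_congr
    intro r _
    simp only [Function.comp]
    rw [Bool.eq_iff_iff, decide_eq_true_iff, hmemreps, List.all_eq_true]
    rw [cycL_eq h1 hσ]
    have hov : ∀ j : Fin n, ovIn S C (j : ℕ) = ovi j := by
      intro j
      unfold ovIn
      rw [idxOf_eq h1 h2 hσ]
    constructor
    · intro h j hj
      have := h (j : ℕ) (List.mem_map.2 ⟨j, (mem_cyc σ r j).2 hj, rfl⟩)
      rw [hov, hov] at this
      simpa using this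
    · intro h x hx
      obtain ⟨j, hj, rfl⟩ := List.mem_map.1 hx
      have := h j ((mem_cyc σ r j).1 hj)
      rw [hov, hov]
      simpa using this
  have hRl : R = l0.map (opened s σ) := by
    rw [hR]
    unfold openL
    rw [hrl, List.map_map]
    apply List.map_congr_left
    intro r _
    simp only [Function.comp]
    rw [cycL_eq h1 hσ, List.map_map]
    rfl
  have hRlen : R.length = l0.length := by rw [hRl, List.length_map]
  obtain ⟨d⟩ : Nonempty (Fin n) := ⟨⟨0, hn⟩⟩
  obtain ⟨hperm, hopt⟩ := atsp_spec R.length (ovMat R)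
  set A := Alg.atsp R.length (ovMat R) with hA
  have hAlt : ∀ i ∈ A, i < R.length := fun i hi => List.mem_range.1 (hperm.mem_iff.1 hi)
  have hRget : ∀ i, i < R.length → R.getD i [] = opened s σ (l0.getD i d) := by
    intro i hi
    have hi' : i < l0.length := by rw [← hRlen]; exact hi
    rw [List.getD_eq_getElem _ _ hi, List.getD_eq_getElem _ _ hi']
    simp only [hRl, List.getElem_map]
  set l : List (Fin n) := A.map (fun i => l0.getD i d) with hl
  have hl_perm : l.Perm l0 := by
    have e : (List.range R.length).map (fun i => l0.getD i d) = l0 := by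
      apply List.ext_getElem
      · simp [hRlen]
      · intro i hi1 hi2
        rw [List.getElem_map, List.getElem_range, List.getD_eq_getElem _ _ hi2]
    have := hperm.map (fun i => l0.getD i d)
    rwa [e] at this
  have hlmap : A.map (fun i => R.getD i []) = l.map (opened s σ) := by
    rw [hl, List.map_map]
    apply List.map_congr_left
    intro i hi
    exact hRget i (hAlt i hi)
  have main := hdata.seven_thirds (T := T) (fun i => hT _ (hsmem i)) l
    (hl_perm.nodup_iff.2 hl0n) (fun r => by rw [hl_perm.mem_iff, hl0m]) ?_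
  · rw [← hlmap, ← hout] at main
    refine ⟨fun t ht => ?_, main.2⟩
    obtain ⟨i, rfl⟩ := hsof t ht
    exact main.1 i
  · intro l' hl'n hl'm
    have hl'_perm : l'.Perm l0 := by
      rw [List.perm_ext_iff_of_nodup hl'n hl0n]
      intro a
      rw [hl'm, hl0m]
    have hperm2 : (l'.map (fun r => l0.idxOf r)).Perm (List.range R.length) := by
      have e : l0.map (fun r => l0.idxOf r) = List.range R.length := by
        apply List.ext_getElem
        · simp [hRlen]
        · intro i hi1 hi2
          rw [List.getElem_map, List.getElem_range]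
          exact hl0n.idxOf_getElem _ _
      have := hl'_perm.map (fun r => l0.idxOf r)
      rwa [e] at this
    have h5 := hopt _ hperm2
    rw [ham_ovMat R _ (fun i hi => List.mem_range.1 (hperm2.mem_iff.1 hi)),
      ham_ovMat R A hAlt, hlmap, List.map_map] at h5
    have e : l'.map ((fun i => R.getD i []) ∘ fun r => l0.idxOf r) = l'.map (opened s σ) := by
      apply List.map_congr_left
      intro r hr
      have hr0 : r ∈ l0 := hl'_perm.mem_iff.1 hr
      have hlt : l0.idxOf r < l0.length := List.idxOf_lt_length_iff.2 hr0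
      simp only [Function.comp]
      rw [hRget _ (by rw [hRlen]; exact hlt), List.getD_eq_getElem _ _ hlt, List.getElem_idxOf]
    rw [e] at h5
    exact h5

omit [DecidableEq α] in
theorem infix_flatten_of_mem {S : List (List α)} {t : List α} (ht : t ∈ S) : t <:+: S.flatten := by
  obtain ⟨l1, l2, rfl⟩ := List.append_of_mem ht
  refine ⟨l1.flatten, l2.flatten, ?_⟩
  simp

/-- the algorithm outputs a common superstring of length at most 7/3 times the optimum -/
theorem sst_spec (S : List (List α)) :
    (∀ s ∈ S, s <:+: sst S) ∧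
      ∀ T : List α, (∀ s ∈ S, s <:+: T) → 3 * (sst S).length ≤ 7 * T.length := by
  obtain ⟨hp, hcov, hsub⟩ := reduceS_spec S
  have key : ∀ T : List α, (∀ s ∈ S, s <:+: T) →
      (∀ s ∈ reduceS S, s <:+: sst S) ∧ 3 * (sst S).length ≤ 7 * T.length := by
    intro T hT
    rcases Nat.eq_zero_or_pos (reduceS S).length with h0 | hpos
    · have hnil : reduceS S = [] := List.length_eq_zero_iff.1 h0
      have hS : sst S = [] := by
        have hR : openL ([] : List (List α)) (Alg.assign 0 (ovMat ([] : List (List α)))) = [] := by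
          rfl
        have hA := (atsp_spec 0 (ovMat ([] : List (List α)))).1
        rw [List.range_zero, List.perm_nil] at hA
        unfold sst
        rw [hnil]
        simp only [List.length_nil, hR, hA]
        rfl
      rw [hS, hnil]
      simp
    · rcases reduceS_nonempty S with hne | hone
      · exact sst_core (reduceS S) hpos hne hp (fun s hs => hT s (hsub s hs)) rfl rfl rfl
      · have hlen : sst S = [] := by
          by_contra hcon
          obtain ⟨x, hx⟩ := List.exists_mem_of_ne_nil _ hcon
          obtain ⟨s, hs, hxs⟩ := sst_letters S x hx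
          obtain ⟨r, hr, hsr⟩ := hcov s hs
          rw [hone, List.mem_singleton] at hr
          subst hr
          have := hsr.subset hxs
          simp at this
        rw [hlen, hone]
        simp
  refine ⟨fun s hs => ?_, fun T hT => (key T hT).2⟩
  obtain ⟨r, hr, hsr⟩ := hcov s hs
  exact hsr.trans ((key S.flatten (fun t ht => infix_flatten_of_mem ht)).1 r hr)

end Vale.Agent.Lib.P333
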