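import Mathlib
import Vale.Agent.Lib.P333.Enc
import Vale.Agent.Lib.P333.Sst
import Vale.Agent.Lib.P333.PTSst
import Vale.Agent.Lib.Common.PolyTime.Compile

/-!
P333, final assembly: the superstring algorithm on strings over the natural numbers (letters
written in binary) is computed by a Turing machine in polynomial time and outputs a common
superstring of length at most 7/3 of the length of any common superstring.
-/

namespace Vale.Agent.Lib.P333

open Vale.Agent.Lib.Common.PolyTime

/-- the algorithm on strings over `ℕ` -/
noncomputable def sstNat (S : List (List ℕ)) : List ℕ :=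
  (sst (S.map (fun s => s.map Nat.bits))).map (Function.invFun Nat.bits)

theorem inv_bits (a : ℕ) : Function.invFun Nat.bits (Nat.bits a) = a :=
  Function.leftInverse_invFun bits_injective a

theorem sstNat_bits (S : List (List ℕ)) :
    (sstNat S).map Nat.bits = sst (S.map (fun s => s.map Nat.bits)) := by
  unfold sstNat
  rw [List.map_map]
  conv_rhs => rw [← List.map_id (sst (S.map (fun s => s.map Nat.bits)))]
  apply List.map_congr_left
  intro x hx
  obtain ⟨t, ht, hxt⟩ := sst_letters _ x hx
  obtain ⟨s, -, rfl⟩ := List.mem_map.1 ht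
  obtain ⟨a, -, rfl⟩ := List.mem_map.1 hxt
  simp only [Function.comp, inv_bits, id]

theorem map_inv_bits (s : List ℕ) : (s.map Nat.bits).map (Function.invFun Nat.bits) = s := by
  rw [List.map_map]
  conv_rhs => rw [← List.map_id s]
  apply List.map_congr_left
  intro a _
  simp only [Function.comp, inv_bits, id]

theorem sstNat_spec (S : List (List ℕ)) :
    (∀ s ∈ S, s <:+: sstNat S) ∧
      ∀ T : List ℕ, (∀ s ∈ S, s <:+: T) → 3 * (sstNat S).length ≤ 7 * T.length := by
  obtain ⟨h1, h2⟩ := sst_spec (S.map (fun s => s.map Nat.bits))
  constructor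
  · intro s hs
    have h := (h1 _ (List.mem_map.2 ⟨s, hs, rfl⟩)).map (Function.invFun Nat.bits)
    rwa [map_inv_bits] at h
  · intro T hT
    have h := h2 (T.map Nat.bits) (by
      intro t ht
      obtain ⟨s, hs, rfl⟩ := List.mem_map.1 ht
      exact (hT s hs).map _)
    rw [List.length_map, ← sstNat_bits, List.length_map] at h
    exact h

theorem sstNat_poly : Nonempty (Turing.TM2ComputableInPolyTime encInst encStr sstNat) := by
  have hpt : PT (fun l : List Sym => unparse (sst (parse l))) :=
    PT.comp pt_unparse (PT.comp pt_sst pt_parse)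
  obtain ⟨F, hF, h⟩ := hpt
  refine PolyOn.toTM2 (F := F) symD symD symD_injective encInst encStr sstNat ?_ ?_
  · refine hF.mono ?_
    rintro x ⟨S, rfl⟩
    exact ⟨encInst S, rfl⟩
  · intro S
    have h' := h (encInst S)
    simp only at h'
    rw [parse_encInst, ← sstNat_bits, unparse_map] at h'
    exact h'

end Vale.Agent.Lib.P333
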